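import Mathlib

set_option autoImplicit false

namespace Crest.Agent.R177.FK

open Filter Topology

variable {B : Type*} [CStarAlgebra B]

theorem cfc_one_sub (y : B) (hy : IsSelfAdjoint y) (c : ℝ) :
    cfc (fun x : ℝ => 1 - c⁻¹ * x) y = 1 - c⁻¹ • y := by
  rw [cfc_sub (fun _ : ℝ => (1 : ℝ)) (fun x : ℝ => c⁻¹ * x) y, cfc_const_one ℝ y,
    cfc_const_mul_id c⁻¹ y]

/-- The logarithm series of a self-adjoint element close to a positive scalar. -/
theorem hasSum_cfc_log (y : B) (hy : IsSelfAdjoint y) (c : ℝ) (hc : 0 < c)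
    (hw : ‖1 - c⁻¹ • y‖ < 1) :
    HasSum (fun k : ℕ => ((k : ℝ) + 1)⁻¹ • (1 - c⁻¹ • y) ^ (k + 1))
      (Real.log c • (1 : B) - cfc Real.log y) := by
  set r := ‖1 - c⁻¹ • y‖ with hr
  have hr0 : 0 ≤ r := norm_nonneg _
  have hsp : ∀ x ∈ spectrum ℝ y, |1 - c⁻¹ * x| ≤ r := by
    intro x hx
    have := norm_apply_le_norm_cfc (fun x : ℝ => 1 - c⁻¹ * x) y hx
    rwa [cfc_one_sub y hy, Real.norm_eq_abs] at this
  have hpos : ∀ x ∈ spectrum ℝ y, 0 < x := by
    intro x hx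
    have h1 := (abs_le.1 (hsp x hx)).2
    have h2 : 0 < c⁻¹ * x := by linarith
    exact (mul_pos_iff_of_pos_left (inv_pos.2 hc)).1 h2
  let f : ℕ → ℝ → ℝ := fun k x => ((k : ℝ) + 1)⁻¹ * (1 - c⁻¹ * x) ^ (k + 1)
  have hu : Summable (fun k : ℕ => r ^ (k + 1)) :=
    (summable_nat_add_iff 1).2 (summable_geometric_of_lt_one hr0 hw)
  have hf : ∀ k x, x ∈ spectrum ℝ y → ‖f k x‖ ≤ r ^ (k + 1) := by
    intro k x hx
    have h1 : |((k : ℝ) + 1)⁻¹| ≤ 1 := by
      rw [abs_of_pos (by positivity)]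
      exact inv_le_one_of_one_le₀ (by linarith [Nat.cast_nonneg (α := ℝ) k])
    have h2 : |1 - c⁻¹ * x| ^ (k + 1) ≤ r ^ (k + 1) :=
      pow_le_pow_left₀ (abs_nonneg _) (hsp x hx) _
    simp only [f, Real.norm_eq_abs, abs_mul, abs_pow]
    calc |((k : ℝ) + 1)⁻¹| * |1 - c⁻¹ * x| ^ (k + 1) ≤ 1 * r ^ (k + 1) := by gcongr
      _ = r ^ (k + 1) := one_mul _
  have hU := tendstoUniformlyOn_tsum hu hf
  have hU' : TendstoUniformlyOn (fun t : Finset ℕ => fun x => ∑ n ∈ t, f n x)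
      (fun x => Real.log c - Real.log x) atTop (spectrum ℝ y) := by
    refine hU.congr_right ?_
    intro x hx
    have h1 := Real.hasSum_pow_div_log_of_abs_lt_one ((hsp x hx).trans_lt hw)
    have h2 : HasSum (fun n => f n x) (Real.log c - Real.log x) := by
      convert h1 using 1
      · ext n
        simp only [f]
        rw [div_eq_inv_mul]
      · rw [sub_sub_cancel, Real.log_mul (inv_ne_zero hc.ne') (hpos x hx).ne', Real.log_inv]
        ring
    exact h2.tsum_eq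
  have hT := tendsto_cfc_fun (A := B) (p := IsSelfAdjoint) hU'
    (Eventually.of_forall fun t => by simp only [f]; fun_prop)
  have hlog : ContinuousOn Real.log (spectrum ℝ y) :=
    Real.continuousOn_log.mono fun x hx => (hpos x hx).ne'
  have e1 : cfc (fun x : ℝ => Real.log c - Real.log x) y = Real.log c • (1 : B) - cfc Real.log y := by
    rw [cfc_sub (fun _ : ℝ => Real.log c) Real.log y, cfc_const _ y, Algebra.algebraMap_eq_smul_one]
  have e2 : ∀ t : Finset ℕ, cfc (fun x => ∑ n ∈ t, f n x) y =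
      ∑ k ∈ t, ((k : ℝ) + 1)⁻¹ • (1 - c⁻¹ • y) ^ (k + 1) := by
    intro t
    have : (fun x => ∑ n ∈ t, f n x) = ∑ n ∈ t, f n := by ext x; simp
    rw [this, cfc_sum f y t (fun i _ => by simp only [f]; fun_prop)]
    refine Finset.sum_congr rfl fun k _ => ?_
    simp only [f]
    rw [cfc_const_mul _ (fun x : ℝ => (1 - c⁻¹ * x) ^ (k + 1)) y,
      cfc_pow (fun x : ℝ => 1 - c⁻¹ * x) (k + 1) y, cfc_one_sub y hy]
  rw [e1] at hT
  simp only [e2] at hT
  exact hT

/-- For an invertible `g`, `star g * g` is within the unit ball around a positive scalar. -/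
theorem exists_norm_one_sub_lt (g : B) (hg : IsUnit g) :
    ∃ c : ℝ, 0 < c ∧ ‖1 - c⁻¹ • (star g * g)‖ < 1 := by
  set y := star g * g with hy
  have hsa : IsSelfAdjoint y := IsSelfAdjoint.star_mul_self g
  have hyu : IsUnit y := hg.star.mul hg
  refine ⟨‖y‖ + 1, by positivity, ?_⟩
  rw [← cfc_one_sub y hsa]
  refine norm_cfc_lt one_pos fun x hx => ?_
  have h0 : 0 ≤ x := spectrum_star_mul_self_nonneg x hx
  have h1 : x ≠ 0 := by
    rintro rfl
    exact (spectrum.zero_notMem_iff ℝ).2 hyu hx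
  have h2 : ‖x‖ ≤ ‖y‖ := by
    have := norm_apply_le_norm_cfc (fun x : ℝ => x) y hx
    rwa [cfc_id' ℝ y] at this
  rw [Real.norm_eq_abs, abs_of_nonneg h0] at h2
  have h3 : 0 < x := lt_of_le_of_ne h0 h1.symm
  have hc : 0 < ‖y‖ + 1 := by positivity
  have h4 : (‖y‖ + 1)⁻¹ * x < 1 := by
    rw [inv_mul_lt_iff₀ hc]; linarith
  have h5 : 0 < (‖y‖ + 1)⁻¹ * x := by positivity
  rw [Real.norm_eq_abs, abs_lt]
  constructor <;> linarith

/-- Derivative of the trace of a power. -/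
theorem hasDerivAt_trace_pow (M : StarSubalgebra ℝ B) (ρ : B →L[ℝ] ℝ)
    (hρ : ∀ x ∈ M, ∀ y ∈ M, ρ (x * y) = ρ (y * x)) (w : ℝ → B) (w' : B) (t : ℝ)
    (hw : HasDerivAt w w' t) (hM : w t ∈ M) (hM' : w' ∈ M) (k : ℕ) :
    HasDerivAt (fun s => ρ (((k : ℝ) + 1)⁻¹ • w s ^ (k + 1))) (ρ (w t ^ k * w')) t := by
  have h1 := (hw.fun_pow' (k + 1)).const_smul ((k : ℝ) + 1)⁻¹
  have h2 := ρ.hasFDerivAt.comp_hasDerivAt t h1
  refine HasDerivAt.congr_deriv h2 ?_
  rw [map_smul, map_sum]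
  have : ∀ i ∈ Finset.range (k + 1),
      ρ (w t ^ ((k + 1).pred - i) * w' * w t ^ i) = ρ (w t ^ k * w') := by
    intro i hi
    rw [hρ _ (mul_mem (pow_mem hM _) hM') _ (pow_mem hM _), ← mul_assoc, ← pow_add]
    congr 3
    have := Finset.mem_range.1 hi
    simp only [Nat.pred_succ]
    omega
  rw [Finset.sum_congr rfl this, Finset.sum_const, Finset.card_range, nsmul_eq_mul, smul_eq_mul]
  push_cast
  field_simp

/-- Derivative of the trace of the logarithm along a path `g' = K g`. -/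
theorem hasDerivAt_trace_log (M : StarSubalgebra ℝ B) (ρ : B →L[ℝ] ℝ)
    (hρ : ∀ x ∈ M, ∀ y ∈ M, ρ (x * y) = ρ (y * x)) (g : ℝ → B) (K : B) (hK : K ∈ M)
    (hg : ∀ t, HasDerivAt g (K * g t) t) (hM : ∀ t, g t ∈ M)
    (hinv : ∀ t, ∃ h ∈ M, h * g t = 1 ∧ g t * h = 1) (t₀ : ℝ) :
    HasDerivAt (fun t => ρ (cfc Real.log (star (g t) * g t))) (ρ (K + star K)) t₀ := by
  have hunit : ∀ t, IsUnit (g t) := by
    intro t
    obtain ⟨h, -, h1, h2⟩ := hinv t
    exact ⟨⟨g t, h, h2, h1⟩, rfl⟩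
  obtain ⟨c, hc, hc1⟩ := exists_norm_one_sub_lt (g t₀) (hunit t₀)
  set w : ℝ → B := fun t => 1 - c⁻¹ • (star (g t) * g t) with hw
  set w' : ℝ → B := fun t => - (c⁻¹ • (star (g t) * (K + star K) * g t)) with hw'
  have hwd : ∀ t, HasDerivAt w (w' t) t := by
    intro t
    have h1 := ((hg t).star.mul (hg t)).const_smul c⁻¹
    have h2 := h1.const_sub 1
    refine HasDerivAt.congr_deriv h2 ?_
    simp only [hw', star_mul]
    congr 2
    noncomm_ring
  have hgc : Continuous g := continuous_iff_continuousAt.2 fun t => (hg t).continuousAt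
  have hwc : Continuous w := by simp only [hw]; fun_prop
  have hw'c : Continuous w' := by simp only [hw']; fun_prop
  have hwM : ∀ t, w t ∈ M := fun t =>
    sub_mem (one_mem M) (SMulMemClass.smul_mem _ (mul_mem (star_mem (hM t)) (hM t)))
  have hw'M : ∀ t, w' t ∈ M := fun t =>
    neg_mem (SMulMemClass.smul_mem _ (mul_mem (mul_mem (star_mem (hM t))
      (add_mem hK (star_mem hK))) (hM t)))
  obtain ⟨r, hr1, hr2⟩ := exists_between hc1
  have hr0 : 0 ≤ r := (norm_nonneg _).trans hr1.le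
  have ev1 : ∀ᶠ t in 𝓝 t₀, ‖w t‖ < r :=
    (hwc.norm.continuousAt (x := t₀)).eventually_lt continuousAt_const hr1
  have ev2 : ∀ᶠ t in 𝓝 t₀, ‖w' t‖ < ‖w' t₀‖ + 1 :=
    (hw'c.norm.continuousAt (x := t₀)).eventually_lt continuousAt_const (lt_add_one _)
  obtain ⟨ε, hε, hball⟩ := Metric.eventually_nhds_iff_ball.1 (ev1.and ev2)
  have hsa : ∀ t, IsSelfAdjoint (star (g t) * g t) := fun t => IsSelfAdjoint.star_mul_self _
  have hsum : ∀ t ∈ Metric.ball t₀ ε,
      HasSum (fun k : ℕ => ρ (((k : ℝ) + 1)⁻¹ • w t ^ (k + 1)))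
        (ρ (Real.log c • (1 : B) - cfc Real.log (star (g t) * g t))) := fun t ht =>
    (hasSum_cfc_log _ (hsa t) c hc ((hball t ht).1.trans hr2)).mapL ρ
  have hu : Summable (fun k : ℕ => ‖ρ‖ * ((‖(1 : B)‖ + 1) * r ^ k * (‖w' t₀‖ + 1))) :=
    (((summable_geometric_of_lt_one hr0 hr2).mul_left _).mul_right _).mul_left _
  have hpow : ∀ (x : B) (k : ℕ), ‖x‖ ≤ r → ‖x ^ k‖ ≤ (‖(1 : B)‖ + 1) * r ^ k := by
    intro x k hx
    rcases Nat.eq_zero_or_pos k with rfl | hk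
    · simp
    · calc ‖x ^ k‖ ≤ ‖x‖ ^ k := norm_pow_le' x hk
        _ ≤ r ^ k := pow_le_pow_left₀ (norm_nonneg _) hx _
        _ ≤ (‖(1 : B)‖ + 1) * r ^ k :=
          le_mul_of_one_le_left (pow_nonneg hr0 _) (by linarith [norm_nonneg (1 : B)])
  have hD := hasDerivAt_tsum_of_isPreconnected
    (g := fun (k : ℕ) (s : ℝ) => ρ (((k : ℝ) + 1)⁻¹ • w s ^ (k + 1)))
    (g' := fun (k : ℕ) (s : ℝ) => ρ (w s ^ k * w' s)) hu Metric.isOpen_ball
    (convex_ball t₀ ε).isPreconnected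
    (fun k s _ => hasDerivAt_trace_pow M ρ hρ w (w' s) s (hwd s) (hwM s) (hw'M s) k)
    (fun k s hs => by
      refine (ρ.le_opNorm _).trans (mul_le_mul_of_nonneg_left ?_ (norm_nonneg _))
      refine (norm_mul_le _ _).trans ?_
      exact mul_le_mul (hpow _ k (hball s hs).1.le) (hball s hs).2.le (norm_nonneg _)
        (by positivity))
    (Metric.mem_ball_self hε) (hsum t₀ (Metric.mem_ball_self hε)).summable
    (Metric.mem_ball_self hε)
  -- identify the sum of the derivatives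
  have hw0 : ‖w t₀‖ < 1 := hc1
  obtain ⟨h, hhM, hh1, hh2⟩ := hinv t₀
  have hgeom : ∑' k : ℕ, w t₀ ^ k = c • (h * star h) := by
    have e1 := geom_series_mul_neg (w t₀) hw0
    have e2 : (1 - w t₀) * (c • (h * star h)) = 1 := by
      simp only [hw, sub_sub_cancel]
      rw [smul_mul_smul_comm, inv_mul_cancel₀ hc.ne', one_smul, mul_assoc, ← mul_assoc (g t₀), hh2,
        one_mul, ← star_mul, hh1, star_one]
    calc ∑' k : ℕ, w t₀ ^ k = (∑' k : ℕ, w t₀ ^ k) * ((1 - w t₀) * (c • (h * star h))) := by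
          rw [e2, mul_one]
      _ = c • (h * star h) := by rw [← mul_assoc, e1, one_mul]
  have hsd : HasSum (fun k : ℕ => ρ (w t₀ ^ k * w' t₀)) (- ρ (K + star K)) := by
    have e1 := ((summable_geometric_of_norm_lt_one hw0).hasSum.mul_right (w' t₀)).mapL ρ
    convert e1 using 1
    rw [hgeom]
    simp only [hw']
    rw [mul_neg, smul_mul_smul_comm, mul_inv_cancel₀ hc.ne', one_smul, map_neg]
    congr 1
    have e2 : h * star h * (star (g t₀) * (K + star K) * g t₀) = h * ((K + star K) * g t₀) := by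
      rw [mul_assoc h, mul_assoc (star (g t₀)), ← mul_assoc (star h), ← star_mul, hh2, star_one,
        one_mul]
    rw [e2, hρ h hhM _ (mul_mem (add_mem hK (star_mem hK)) (hM t₀)), mul_assoc, hh2, mul_one]
  rw [hsd.tsum_eq] at hD
  have hD2 := (hD.const_sub (ρ (Real.log c • (1 : B))))
  rw [neg_neg] at hD2
  refine hD2.congr_of_eventuallyEq ?_
  filter_upwards [Metric.ball_mem_nhds t₀ hε] with t ht
  rw [(hsum t ht).tsum_eq, map_sub]
  ring

/-- Integrated form. -/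
theorem trace_log_path (M : StarSubalgebra ℝ B) (ρ : B →L[ℝ] ℝ)
    (hρ : ∀ x ∈ M, ∀ y ∈ M, ρ (x * y) = ρ (y * x)) (g : ℝ → B) (K : B) (hK : K ∈ M)
    (hg : ∀ t, HasDerivAt g (K * g t) t) (hM : ∀ t, g t ∈ M)
    (hinv : ∀ t, ∃ h ∈ M, h * g t = 1 ∧ g t * h = 1) :
    ρ (cfc Real.log (star (g 1) * g 1)) =
      ρ (cfc Real.log (star (g 0) * g 0)) + ρ (K + star K) := by
  have hd : ∀ t, HasDerivAt
      (fun t => ρ (cfc Real.log (star (g t) * g t)) - t * ρ (K + star K)) 0 t := by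
    intro t
    have := (hasDerivAt_trace_log M ρ hρ g K hK hg hM hinv t).sub
      ((hasDerivAt_id t).mul_const (ρ (K + star K)))
    refine HasDerivAt.congr_deriv this ?_
    rw [one_mul, sub_self]
  have := is_const_of_deriv_eq_zero (fun t => (hd t).differentiableAt) (fun t => (hd t).deriv) 1 0
  simp only [one_mul, zero_mul, sub_zero] at this
  linarith

/-- `T` lies in `M` and has a two-sided inverse in `M`. -/
def InvIn (M : StarSubalgebra ℝ B) (T : B) : Prop := T ∈ M ∧ ∃ h ∈ M, h * T = 1 ∧ T * h = 1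

theorem InvIn.one (M : StarSubalgebra ℝ B) : InvIn M 1 :=
  ⟨one_mem M, 1, one_mem M, one_mul _, one_mul _⟩

theorem InvIn.mul {M : StarSubalgebra ℝ B} {S T : B} (hS : InvIn M S) (hT : InvIn M T) :
    InvIn M (S * T) := by
  obtain ⟨hS, s, hs, hs1, hs2⟩ := hS
  obtain ⟨hT, t, ht, ht1, ht2⟩ := hT
  refine ⟨mul_mem hS hT, t * s, mul_mem ht hs, ?_, ?_⟩
  · rw [mul_assoc, ← mul_assoc s, hs1, one_mul, ht1]
  · rw [mul_assoc, ← mul_assoc T, ht2, one_mul, hs2]

theorem InvIn.of_mul {M : StarSubalgebra ℝ B} {S T : B} (hS : InvIn M S) (hST : InvIn M (S * T)) :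
    InvIn M T := by
  obtain ⟨hS', s, hs, hs1, hs2⟩ := hS
  have : T = s * (S * T) := by rw [← mul_assoc, hs1, one_mul]
  rw [this]
  exact InvIn.mul ⟨hs, S, hS', hs2, hs1⟩ hST

theorem InvIn.one_add_smul {M : StarSubalgebra ℝ B} {E : B} (hE : E ∈ M) (d : ℝ)
    (hEE : E * E = d • E) (a b : ℝ) (hab : a + b + a * b * d = 0) : InvIn M (1 + a • E) := by
  have key : ∀ a b : ℝ, a + b + a * b * d = 0 → (1 + a • E) * (1 + b • E) = 1 := by
    intro a b hab
    rw [mul_add, mul_one, add_mul, one_mul, smul_mul_smul_comm, hEE, smul_smul, add_assoc,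
      ← add_smul, ← add_smul, ← add_assoc, hab, zero_smul, add_zero]
  exact ⟨add_mem (one_mem M) (SMulMemClass.smul_mem _ hE), 1 + b • E,
    add_mem (one_mem M) (SMulMemClass.smul_mem _ hE), key b a (by linarith), key a b hab⟩

theorem InvIn.unipotent {M : StarSubalgebra ℝ B} {N : B} (hN : N ∈ M) (hNN : N * N = 0) :
    InvIn M (1 + N) := by
  have := InvIn.one_add_smul hN 0 (by rw [hNN, zero_smul]) 1 (-1) (by ring)
  rwa [one_smul] at this

theorem InvIn.three {M : StarSubalgebra ℝ B} {E : B} (hE : E ∈ M) (hEE : E * E = (2 : ℝ) • E) :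
    InvIn M (1 + E) := by
  have := InvIn.one_add_smul hE 2 hEE 1 (-1 / 3) (by ring)
  rwa [one_smul] at this

theorem trace_log_unipotent (M : StarSubalgebra ℝ B) (ρ : B →L[ℝ] ℝ)
    (hρ : ∀ x ∈ M, ∀ y ∈ M, ρ (x * y) = ρ (y * x)) (N T : B) (hN : N ∈ M) (hNN : N * N = 0)
    (hT : InvIn M T) :
    ρ (cfc Real.log (star ((1 + N) * T) * ((1 + N) * T))) =
      ρ (cfc Real.log (star T * T)) + ρ (N + star N) := by
  have hI : ∀ t : ℝ, InvIn M ((1 + t • N) * T) := fun t =>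
    (InvIn.one_add_smul hN 0 (by rw [hNN, zero_smul]) t (-t) (by ring)).mul hT
  have := trace_log_path M ρ hρ (fun t => (1 + t • N) * T) N hN (fun t => by
    have h1 := (((hasDerivAt_id t).smul_const N).const_add 1).mul_const T
    refine HasDerivAt.congr_deriv h1 ?_
    rw [one_smul, ← mul_assoc, mul_add, mul_one, mul_smul_comm, hNN, smul_zero, add_zero])
    (fun t => (hI t).1) (fun t => (hI t).2)
  simpa only [one_smul, zero_smul, add_zero, one_mul] using this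

theorem trace_log_three (M : StarSubalgebra ℝ B) (ρ : B →L[ℝ] ℝ)
    (hρ : ∀ x ∈ M, ∀ y ∈ M, ρ (x * y) = ρ (y * x)) (E T : B) (hE : E ∈ M)
    (hEE : E * E = (2 : ℝ) • E) (hT : InvIn M T) :
    ρ (cfc Real.log (star ((1 + E) * T) * ((1 + E) * T))) =
      ρ (cfc Real.log (star T * T)) + Real.log 3 / 2 * ρ (E + star E) := by
  set c := Real.log 3 with hc
  have hI : ∀ t : ℝ, InvIn M ((1 + ((Real.exp (t * c) - 1) / 2) • E) * T) := fun t =>
    (InvIn.one_add_smul hE 2 hEE _ ((Real.exp (-(t * c)) - 1) / 2) (by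
      have : Real.exp (t * c) * Real.exp (-(t * c)) = 1 := by
        rw [← Real.exp_add, add_neg_cancel, Real.exp_zero]
      linear_combination (1 / 2) * this)).mul hT
  have := trace_log_path M ρ hρ (fun t => (1 + ((Real.exp (t * c) - 1) / 2) • E) * T)
    ((c / 2) • E) (SMulMemClass.smul_mem _ hE) (fun t => by
    have h0 : HasDerivAt (fun t : ℝ => (Real.exp (t * c) - 1) / 2)
        (Real.exp (t * c) * (1 * c) / 2) t :=
      ((((hasDerivAt_id t).mul_const c).exp).sub_const 1).div_const 2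
    have h1 := ((h0.smul_const E).const_add 1).mul_const T
    refine HasDerivAt.congr_deriv h1 ?_
    rw [← mul_assoc _ _ T, mul_add, mul_one, smul_mul_smul_comm, hEE, smul_smul, ← add_smul]
    congr 2
    ring)
    (fun t => (hI t).1) (fun t => (hI t).2)
  have e3 : Real.exp c = 3 := by rw [hc, Real.exp_log (by norm_num)]
  have e4 : ((3 : ℝ) - 1) / 2 = 1 := by norm_num
  simp only [one_mul, zero_mul, Real.exp_zero, sub_self, zero_div, zero_smul, add_zero, e3, e4,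
    one_smul] at this
  rw [this, star_smul, star_trivial (c / 2), ← smul_add, map_smul, smul_eq_mul]

/-- The determinant computation used for the negative logarithmic determinant. -/
theorem trace_log_of_relation (M : StarSubalgebra ℝ B) (ρ : B →L[ℝ] ℝ)
    (hρ : ∀ x ∈ M, ∀ y ∈ M, ρ (x * y) = ρ (y * x)) (N₁ N₂ E₁ E₂ Y : B)
    (hN₁ : N₁ ∈ M) (hN₂ : N₂ ∈ M) (hE₁ : E₁ ∈ M) (hE₂ : E₂ ∈ M)
    (hNN₁ : N₁ * N₁ = 0) (hNN₂ : N₂ * N₂ = 0)
    (hEE₁ : E₁ * E₁ = (2 : ℝ) • E₁) (hEE₂ : E₂ * E₂ = (2 : ℝ) • E₂)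
    (hrel : (1 + N₁) * ((1 + E₁) * Y) = (1 + N₂) * (1 + E₂)) :
    ρ (cfc Real.log (star Y * Y)) = ρ (N₂ + star N₂) - ρ (N₁ + star N₁) +
      Real.log 3 / 2 * (ρ (E₂ + star E₂) - ρ (E₁ + star E₁)) := by
  have hR : InvIn M ((1 + N₂) * (1 + E₂)) := (InvIn.unipotent hN₂ hNN₂).mul (InvIn.three hE₂ hEE₂)
  have hY1 : InvIn M ((1 + E₁) * Y) := (InvIn.unipotent hN₁ hNN₁).of_mul (hrel ▸ hR)
  have hY : InvIn M Y := (InvIn.three hE₁ hEE₁).of_mul hY1
  have h1 := trace_log_unipotent M ρ hρ N₁ _ hN₁ hNN₁ hY1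
  have h2 := trace_log_three M ρ hρ E₁ _ hE₁ hEE₁ hY
  have h3 := trace_log_unipotent M ρ hρ N₂ _ hN₂ hNN₂ (InvIn.three hE₂ hEE₂)
  have h4 := trace_log_three M ρ hρ E₂ _ hE₂ hEE₂ (InvIn.one M)
  rw [hrel] at h1
  rw [mul_one, mul_one, star_one, cfc_apply_one, Real.log_one, map_zero, map_zero] at h4
  linarith

end Crest.Agent.R177.FK
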