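import Crest.Agent.R177.Defs

/-! Cycle counts, genus of permutation maps, cutting and restricting (task PERM). -/

set_option autoImplicit false
set_option linter.unusedSectionVars false

namespace Crest.Agent.R177

open Equiv

/-! ### Merging two classes of an equivalence relation -/

section Mrg

variable {D : Type}

/-- the relation obtained from `r` by identifying the classes of `a` and `b` -/
def Mrg (r : D → D → Prop) (a b x y : D) : Prop :=
  r x y ∨ ((r x a ∨ r x b) ∧ (r y a ∨ r y b))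

theorem Mrg.equivalence {r : D → D → Prop} (hr : Equivalence r) (a b : D) :
    Equivalence (Mrg r a b) := by
  refine ⟨fun x => Or.inl (hr.refl x), ?_, ?_⟩
  · rintro x y (h | ⟨h1, h2⟩)
    · exact Or.inl (hr.symm h)
    · exact Or.inr ⟨h2, h1⟩
  · rintro x y z (h | ⟨h1, h2⟩) (h' | ⟨h1', h2'⟩)
    · exact Or.inl (hr.trans h h')
    · exact Or.inr ⟨h1'.imp (hr.trans h) (hr.trans h), h2'⟩
    · exact Or.inr ⟨h1, h2.imp (hr.trans (hr.symm h')) (hr.trans (hr.symm h'))⟩
    · exact Or.inr ⟨h1, h2'⟩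

theorem Mrg.self {r : D → D → Prop} (hr : Equivalence r) (a b : D) : Mrg r a b a b :=
  Or.inr ⟨Or.inl (hr.refl a), Or.inr (hr.refl b)⟩

/-- `Mrg r a b` is the least equivalence relation above `r` that relates `a` and `b` -/
theorem Mrg.le {r s : D → D → Prop} (hs : Equivalence s) {a b : D} (hrs : ∀ x y, r x y → s x y)
    (hab : s a b) {x y : D} (h : Mrg r a b x y) : s x y := by
  rcases h with h | ⟨h1 | h1, h2 | h2⟩
  · exact hrs _ _ h
  · exact hs.trans (hrs _ _ h1) (hs.symm (hrs _ _ h2))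
  · exact hs.trans (hrs _ _ h1) (hs.trans hab (hs.symm (hrs _ _ h2)))
  · exact hs.trans (hrs _ _ h1) (hs.trans (hs.symm hab) (hs.symm (hrs _ _ h2)))
  · exact hs.trans (hrs _ _ h1) (hs.symm (hrs _ _ h2))

theorem Mrg.iff_of_rel {r : D → D → Prop} (hr : Equivalence r) {a b : D} (hab : r a b) (x y : D) :
    Mrg r a b x y ↔ r x y :=
  ⟨Mrg.le hr (fun _ _ h => h) hab, Or.inl⟩

/-- merging two distinct classes lowers the number of classes by one -/
theorem card_quotient_of_mrg [Finite D] (r s : Setoid D) {a b : D} (hab : ¬ r a b)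
    (h : ∀ x y, s x y ↔ Mrg r a b x y) :
    Nat.card (Quotient s) + 1 = Nat.card (Quotient r) := by
  classical
  have hle : ∀ x y, r x y → s x y := fun x y hxy => (h x y).2 (Or.inl hxy)
  let f : Quotient r → Quotient s := Quotient.map' id fun x y hxy => hle x y hxy
  let g : {q : Quotient r // q ≠ Quotient.mk r b} → Quotient s := fun q => f q.1
  have hg : Function.Bijective g := by
    constructor
    · rintro ⟨q, hq⟩ ⟨q', hq'⟩ hqq
      obtain ⟨x, rfl⟩ := Quotient.exists_rep q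
      obtain ⟨y, rfl⟩ := Quotient.exists_rep q'
      have hx : ¬ r x b := fun hx => hq (Quotient.sound hx)
      have hy : ¬ r y b := fun hy => hq' (Quotient.sound hy)
      have hxy : s x y := Quotient.exact hqq
      apply Subtype.ext
      apply Quotient.sound
      rcases (h x y).1 hxy with h' | ⟨h1 | h1, h2 | h2⟩
      · exact h'
      · exact r.iseqv.trans h1 (r.iseqv.symm h2)
      · exact absurd h2 hy
      · exact absurd h1 hx
      · exact absurd h1 hx
    · intro q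
      obtain ⟨x, rfl⟩ := Quotient.exists_rep q
      by_cases hx : r x b
      · refine ⟨⟨Quotient.mk r a, fun hq => hab (Quotient.exact hq)⟩, ?_⟩
        apply Quotient.sound
        exact (h a x).2 (Or.inr ⟨Or.inl (r.iseqv.refl a), Or.inr hx⟩)
      · exact ⟨⟨Quotient.mk r x, fun hq => hx (Quotient.exact hq)⟩, rfl⟩
  rw [← Nat.card_congr (Equiv.ofBijective g hg),
    ← Nat.card_congr (Equiv.optionSubtypeNe (Quotient.mk r b)), Finite.card_option]

theorem card_quotient_congr (r s : Setoid D) (h : ∀ x y, s x y ↔ r x y) :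
    Nat.card (Quotient s) = Nat.card (Quotient r) :=
  Nat.card_congr (Quotient.congr (Equiv.refl D) h)

end Mrg

variable {D : Type} [Fintype D] [DecidableEq D]

/-! ### Cycles of `σ * swap a b` -/

omit [Fintype D] [DecidableEq D] in
theorem sameCycle_equivalence (σ : Perm D) : Equivalence σ.SameCycle :=
  (Perm.SameCycle.setoid σ).iseqv

omit [DecidableEq D] in
/-- induction along a cycle -/
theorem sameCycle_induction {σ : Perm D} {P : D → Prop} (hP : ∀ x, P x → P (σ x)) {x y : D}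
    (h : σ.SameCycle x y) (hx : P x) : P y := by
  obtain ⟨n, rfl⟩ := h.exists_nat_pow_eq
  clear h
  induction n with
  | zero => simpa using hx
  | succ n ih => rw [pow_succ', Perm.mul_apply]; exact hP _ ih

omit [DecidableEq D] in
theorem sameCycle_le {σ : Perm D} {s : D → D → Prop} (hs : Equivalence s)
    (h1 : ∀ x, s x (σ x)) {x y : D} (h : σ.SameCycle x y) : s x y :=
  sameCycle_induction (P := s x) (fun z hz => hs.trans hz (h1 z)) h (hs.refl x)

omit [Fintype D] in
/-- every step of `σ * swap a b` is a step of `σ` up to identifying `a` and `b` -/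
theorem rel_mul_swap {σ : Perm D} {s : D → D → Prop} (hs : Equivalence s)
    (h1 : ∀ x, s x (σ x)) {a b : D} (hab : s a b) (x : D) : s x ((σ * swap a b) x) := by
  rw [Perm.mul_apply]
  refine hs.trans ?_ (h1 _)
  by_cases hxa : x = a
  · subst hxa; rw [swap_apply_left]; exact hab
  by_cases hxb : x = b
  · subst hxb; rw [swap_apply_right]; exact hs.symm hab
  rw [swap_apply_of_ne_of_ne hxa hxb]; exact hs.refl x

omit [Fintype D] in
theorem mul_swap_mul_swap (σ : Perm D) (a b : D) : σ * swap a b * swap a b = σ := by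
  rw [mul_assoc, swap_mul_self, mul_one]

theorem mrg_of_sameCycle_mul_swap (σ : Perm D) (a b : D) {x y : D}
    (h : (σ * swap a b).SameCycle x y) : Mrg σ.SameCycle a b x y :=
  sameCycle_le (Mrg.equivalence (sameCycle_equivalence σ) a b)
    (rel_mul_swap (Mrg.equivalence (sameCycle_equivalence σ) a b)
      (fun _ => Or.inl (Perm.sameCycle_apply_right.2 (Perm.SameCycle.refl _ _)))
      (Mrg.self (sameCycle_equivalence σ) a b)) h

theorem mrg_sameCycle_mul_swap_iff (σ : Perm D) (a b x y : D) :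
    Mrg (σ * swap a b).SameCycle a b x y ↔ Mrg σ.SameCycle a b x y := by
  constructor
  · exact Mrg.le (Mrg.equivalence (sameCycle_equivalence σ) a b)
      (fun _ _ h => mrg_of_sameCycle_mul_swap σ a b h) (Mrg.self (sameCycle_equivalence σ) a b)
  · refine Mrg.le (Mrg.equivalence (sameCycle_equivalence _) a b)
      (fun _ _ h => mrg_of_sameCycle_mul_swap (σ * swap a b) a b ?_)
      (Mrg.self (sameCycle_equivalence _) a b)
    rwa [mul_swap_mul_swap]

/-- merging joins `a` and `b` -/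
theorem sameCycle_mul_swap_of_not (σ : Perm D) {a b : D} (h : ¬ σ.SameCycle a b) :
    (σ * swap a b).SameCycle a b := by
  have key : ∀ x, σ.SameCycle a x ∧ (σ * swap a b).SameCycle b x →
      σ.SameCycle a (σ x) ∧ (σ * swap a b).SameCycle b (σ x) := by
    rintro x ⟨h1, h2⟩
    refine ⟨Perm.sameCycle_apply_right.2 h1, ?_⟩
    by_cases hxa : x = a
    · subst hxa
      have : σ x = (σ * swap x b) b := by rw [Perm.mul_apply, swap_apply_right]
      rw [this]
      exact Perm.sameCycle_apply_right.2 (Perm.SameCycle.refl _ _)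
    · have hxb : x ≠ b := fun hxb => h (hxb ▸ h1)
      have : σ x = (σ * swap a b) x := by rw [Perm.mul_apply, swap_apply_of_ne_of_ne hxa hxb]
      rw [this]
      exact Perm.sameCycle_apply_right.2 h2
  have h0 : σ.SameCycle a (σ a) ∧ (σ * swap a b).SameCycle b (σ a) := by
    refine ⟨Perm.sameCycle_apply_right.2 (Perm.SameCycle.refl _ _), ?_⟩
    have : σ a = (σ * swap a b) b := by rw [Perm.mul_apply, swap_apply_right]
    rw [this]
    exact Perm.sameCycle_apply_right.2 (Perm.SameCycle.refl _ _)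
  have h1 : σ.SameCycle (σ a) a := Perm.sameCycle_apply_left.2 (Perm.SameCycle.refl _ _)
  exact (sameCycle_induction (P := fun x => σ.SameCycle a x ∧ (σ * swap a b).SameCycle b x)
    key h1 h0).2.symm

/-- splitting separates `a` from `b` ... -/
theorem not_sameCycle_mul_swap (σ : Perm D) {a b : D} (hab : a ≠ b) (h : σ.SameCycle a b) :
    ¬ (σ * swap a b).SameCycle a b := by
  classical
  have hex : ∃ k : ℕ, (σ ^ k) b = a := h.symm.exists_nat_pow_eq
  set k := Nat.find hex with hk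
  have hka : (σ ^ k) b = a := Nat.find_spec hex
  have hmin : ∀ j < k, (σ ^ j) b ≠ a := fun j hj => Nat.find_min hex hj
  have hk1 : 1 ≤ k := by
    by_contra h0
    have : k = 0 := by omega
    rw [this] at hka
    exact hab (by simpa using hka.symm)
  have hb : ∀ j, 1 ≤ j → j ≤ k → (σ ^ j) b ≠ b := by
    intro j hj1 hjk hj
    apply hmin (k - j) (by omega)
    have : (σ ^ k) b = (σ ^ (k - j)) ((σ ^ j) b) := by
      rw [← Perm.mul_apply, ← pow_add, Nat.sub_add_cancel hjk]
    rw [← hka, this, hj]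
  intro hτ
  have := sameCycle_induction (σ := σ * swap a b)
    (P := fun x => ∃ j, 1 ≤ j ∧ j ≤ k ∧ x = (σ ^ j) b) ?_ hτ ⟨k, hk1, le_rfl, hka.symm⟩
  · obtain ⟨j, hj1, hjk, hj⟩ := this
    exact hb j hj1 hjk hj.symm
  · rintro x ⟨j, hj1, hjk, rfl⟩
    rcases hjk.lt_or_eq with hlt | heq
    · refine ⟨j + 1, by omega, hlt, ?_⟩
      rw [Perm.mul_apply, swap_apply_of_ne_of_ne (hmin j hlt) (hb j hj1 hjk), pow_succ',
        Perm.mul_apply]
    · refine ⟨1, le_rfl, hk1, ?_⟩
      rw [heq, hka, Perm.mul_apply, swap_apply_left, pow_one]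

/-- ... refines the cycles, and every point of the old cycle lies on the new cycle of `a` or `b`;
the other cycles are unchanged. -/
theorem sameCycle_iff_of_split (σ : Perm D) {a b : D} (h : σ.SameCycle a b) (x y : D) :
    σ.SameCycle x y ↔ (σ * swap a b).SameCycle x y ∨
      (((σ * swap a b).SameCycle x a ∨ (σ * swap a b).SameCycle x b) ∧
        ((σ * swap a b).SameCycle y a ∨ (σ * swap a b).SameCycle y b)) :=
  (Mrg.iff_of_rel (sameCycle_equivalence σ) h x y).symm.trans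
    (mrg_sameCycle_mul_swap_iff σ a b x y).symm

/-- merging: the cycles of `a` and `b` are united, the others are unchanged -/
theorem sameCycle_iff_of_merge (σ : Perm D) {a b : D} (h : ¬ σ.SameCycle a b) (x y : D) :
    (σ * swap a b).SameCycle x y ↔ σ.SameCycle x y ∨
      ((σ.SameCycle x a ∨ σ.SameCycle x b) ∧ (σ.SameCycle y a ∨ σ.SameCycle y b)) :=
  (Mrg.iff_of_rel (sameCycle_equivalence _) (sameCycle_mul_swap_of_not σ h) x y).symm.trans
    (mrg_sameCycle_mul_swap_iff σ a b x y)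

theorem ncyc_mul_swap_of_sameCycle (σ : Perm D) {a b : D} (hab : a ≠ b) (h : σ.SameCycle a b) :
    ncyc (σ * swap a b) = ncyc σ + 1 :=
  (card_quotient_of_mrg (Perm.SameCycle.setoid (σ * swap a b)) (Perm.SameCycle.setoid σ)
    (not_sameCycle_mul_swap σ hab h) (sameCycle_iff_of_split σ h)).symm

theorem ncyc_mul_swap_of_not_sameCycle (σ : Perm D) {a b : D} (h : ¬ σ.SameCycle a b) :
    ncyc (σ * swap a b) + 1 = ncyc σ :=
  card_quotient_of_mrg (Perm.SameCycle.setoid σ) (Perm.SameCycle.setoid (σ * swap a b))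
    h (sameCycle_iff_of_merge σ h)

omit [DecidableEq D] in
theorem ncyc_le_card (σ : Perm D) : ncyc σ ≤ Nat.card D :=
  Nat.card_le_card_of_surjective _ (Quotient.mk_surjective (s := Perm.SameCycle.setoid σ))

omit [Fintype D] [DecidableEq D] in
theorem ncyc_one : ncyc (1 : Perm D) = Nat.card D := by
  refine (Nat.card_congr (Equiv.ofBijective
    (Quotient.mk (Perm.SameCycle.setoid (1 : Perm D))) ⟨?_, Quotient.mk_surjective⟩)).symm
  intro x y hxy
  exact Perm.sameCycle_one.1 (Quotient.exact hxy)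

omit [Fintype D] [DecidableEq D] in
theorem ncyc_conj (g σ : Perm D) : ncyc (g * σ * g⁻¹) = ncyc σ :=
  Nat.card_congr (Quotient.congr g⁻¹ fun _ _ => Perm.sameCycle_conj)

omit [Fintype D] [DecidableEq D] in
theorem ncyc_mul_comm (φ ε : Perm D) : ncyc (φ * ε) = ncyc (ε * φ) := by
  rw [← ncyc_conj ε (φ * ε)]
  congr 1
  group

/-! ### Components -/

omit [Fintype D] [DecidableEq D] in
theorem conn_equivalence (φ ε : Perm D) : Equivalence (Conn φ ε) :=
  Relation.EqvGen.is_equivalence _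

omit [Fintype D] [DecidableEq D] in
theorem Conn.refl (φ ε : Perm D) (x : D) : Conn φ ε x x := (conn_equivalence φ ε).refl x

omit [Fintype D] [DecidableEq D] in
theorem Conn.symm {φ ε : Perm D} {x y : D} (h : Conn φ ε x y) : Conn φ ε y x :=
  (conn_equivalence φ ε).symm h

omit [Fintype D] [DecidableEq D] in
theorem Conn.trans {φ ε : Perm D} {x y z : D} (h : Conn φ ε x y) (h' : Conn φ ε y z) :
    Conn φ ε x z :=
  (conn_equivalence φ ε).trans h h'

omit [Fintype D] [DecidableEq D] in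
theorem conn_phi (φ ε : Perm D) (x : D) : Conn φ ε x (φ x) :=
  Relation.EqvGen.rel _ _ (Or.inl rfl)

omit [Fintype D] [DecidableEq D] in
theorem conn_eps (φ ε : Perm D) (x : D) : Conn φ ε x (ε x) :=
  Relation.EqvGen.rel _ _ (Or.inr rfl)

omit [Fintype D] [DecidableEq D] in
/-- `Conn φ ε` is the least equivalence relation that contains the steps of `φ` and `ε` -/
theorem Conn.le {φ ε : Perm D} {s : D → D → Prop} (hs : Equivalence s) (h1 : ∀ x, s x (φ x))
    (h2 : ∀ x, s x (ε x)) {x y : D} (h : Conn φ ε x y) : s x y := by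
  induction h with
  | rel x y h => rcases h with rfl | rfl; exacts [h1 x, h2 x]
  | refl x => exact hs.refl x
  | symm x y _ ih => exact hs.symm ih
  | trans x y z _ _ ih1 ih2 => exact hs.trans ih1 ih2

omit [Fintype D] [DecidableEq D] in
theorem Conn.comm {φ ε : Perm D} {x y : D} (h : Conn φ ε x y) : Conn ε φ x y :=
  h.le (conn_equivalence ε φ) (conn_eps ε φ) (conn_phi ε φ)

omit [DecidableEq D] in
theorem conn_of_sameCycle_phi {φ : Perm D} (ε : Perm D) {x y : D} (h : φ.SameCycle x y) :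
    Conn φ ε x y :=
  sameCycle_le (conn_equivalence φ ε) (conn_phi φ ε) h

omit [DecidableEq D] in
theorem conn_of_sameCycle_eps (φ : Perm D) {ε : Perm D} {x y : D} (h : ε.SameCycle x y) :
    Conn φ ε x y :=
  sameCycle_le (conn_equivalence φ ε) (conn_eps φ ε) h

omit [DecidableEq D] in
theorem conn_of_sameCycle_mul {φ ε : Perm D} {x y : D} (h : (φ * ε).SameCycle x y) :
    Conn φ ε x y :=
  sameCycle_le (conn_equivalence φ ε) (fun x => (conn_eps φ ε x).trans (conn_phi φ ε _)) h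

omit [DecidableEq D] in
theorem conn_self_iff (σ : Perm D) (x y : D) : Conn σ σ x y ↔ σ.SameCycle x y :=
  ⟨Conn.le (sameCycle_equivalence σ)
    (fun _ => Perm.sameCycle_apply_right.2 (Perm.SameCycle.refl _ _))
    (fun _ => Perm.sameCycle_apply_right.2 (Perm.SameCycle.refl _ _)), conn_of_sameCycle_phi σ⟩

omit [DecidableEq D] in
theorem conn_one_iff (σ : Perm D) (x y : D) : Conn σ 1 x y ↔ σ.SameCycle x y :=
  ⟨Conn.le (sameCycle_equivalence σ)
    (fun _ => Perm.sameCycle_apply_right.2 (Perm.SameCycle.refl _ _))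
    (fun _ => Perm.SameCycle.refl _ _), conn_of_sameCycle_phi 1⟩

omit [DecidableEq D] in
theorem ncomp_self (σ : Perm D) : ncomp σ σ = ncyc σ :=
  card_quotient_congr _ _ (conn_self_iff σ)

omit [DecidableEq D] in
theorem ncomp_one (σ : Perm D) : ncomp σ 1 = ncyc σ :=
  card_quotient_congr _ _ (conn_one_iff σ)

omit [Fintype D] [DecidableEq D] in
theorem ncomp_comm (φ ε : Perm D) : ncomp φ ε = ncomp ε φ :=
  card_quotient_congr _ _ fun _ _ => ⟨Conn.comm, Conn.comm⟩

omit [Fintype D] [DecidableEq D] in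
theorem genus_comm (φ ε : Perm D) : genus φ ε = genus ε φ := by
  unfold genus
  rw [ncomp_comm φ ε, ncyc_mul_comm φ ε]
  ring

omit [Fintype D] in
theorem mrg_of_conn_mul_swap (φ ε : Perm D) (a b : D) {x y : D}
    (h : Conn φ (ε * swap a b) x y) : Mrg (Conn φ ε) a b x y :=
  h.le (Mrg.equivalence (conn_equivalence φ ε) a b) (fun x => Or.inl (conn_phi φ ε x))
    (rel_mul_swap (Mrg.equivalence (conn_equivalence φ ε) a b)
      (fun x => Or.inl (conn_eps φ ε x)) (Mrg.self (conn_equivalence φ ε) a b))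

omit [Fintype D] in
theorem mrg_conn_mul_swap_iff (φ ε : Perm D) (a b x y : D) :
    Mrg (Conn φ (ε * swap a b)) a b x y ↔ Mrg (Conn φ ε) a b x y := by
  constructor
  · exact Mrg.le (Mrg.equivalence (conn_equivalence φ ε) a b)
      (fun _ _ h => mrg_of_conn_mul_swap φ ε a b h) (Mrg.self (conn_equivalence φ ε) a b)
  · refine Mrg.le (Mrg.equivalence (conn_equivalence _ _) a b)
      (fun _ _ h => mrg_of_conn_mul_swap φ (ε * swap a b) a b ?_)
      (Mrg.self (conn_equivalence _ _) a b)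
    rwa [mul_swap_mul_swap]

omit [Fintype D] in
/-- if `a` and `b` are connected, the components of the new map refine the old ones -/
theorem conn_of_conn_mul_swap {φ ε : Perm D} {a b : D} (hab : Conn φ ε a b) {x y : D}
    (h : Conn φ (ε * swap a b) x y) : Conn φ ε x y :=
  (Mrg.iff_of_rel (conn_equivalence φ ε) hab x y).1 (mrg_of_conn_mul_swap φ ε a b h)

omit [Fintype D] in
theorem conn_mul_swap_iff {φ ε : Perm D} {a b : D} (hab : Conn φ ε a b)
    (hab' : Conn φ (ε * swap a b) a b) (x y : D) :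
    Conn φ (ε * swap a b) x y ↔ Conn φ ε x y :=
  (Mrg.iff_of_rel (conn_equivalence _ _) hab' x y).symm.trans
    ((mrg_conn_mul_swap_iff φ ε a b x y).trans (Mrg.iff_of_rel (conn_equivalence φ ε) hab x y))

omit [Fintype D] in
theorem ncomp_mul_swap_of_conn {φ ε : Perm D} {a b : D} (hab : Conn φ ε a b)
    (hab' : Conn φ (ε * swap a b) a b) : ncomp φ (ε * swap a b) = ncomp φ ε :=
  card_quotient_congr _ _ (conn_mul_swap_iff hab hab')

theorem ncomp_mul_swap_of_split {φ ε : Perm D} {a b : D} (hab : Conn φ ε a b)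
    (hab' : ¬ Conn φ (ε * swap a b) a b) : ncomp φ (ε * swap a b) = ncomp φ ε + 1 :=
  (card_quotient_of_mrg _ _ hab' fun x y =>
    (Mrg.iff_of_rel (conn_equivalence φ ε) hab x y).symm.trans
      (mrg_conn_mul_swap_iff φ ε a b x y).symm).symm

theorem conn_mul_swap_of_not {φ ε : Perm D} {a b : D} (hab : ¬ Conn φ ε a b) :
    Conn φ (ε * swap a b) a b :=
  conn_of_sameCycle_eps φ (sameCycle_mul_swap_of_not ε fun h => hab (conn_of_sameCycle_eps φ h))

theorem ncomp_mul_swap_of_join {φ ε : Perm D} {a b : D} (hab : ¬ Conn φ ε a b) :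
    ncomp φ (ε * swap a b) + 1 = ncomp φ ε :=
  card_quotient_of_mrg _ _ hab fun x y =>
    (Mrg.iff_of_rel (conn_equivalence _ _) (conn_mul_swap_of_not hab) x y).symm.trans
      (mrg_conn_mul_swap_iff φ ε a b x y)

theorem ncomp_mul_swap_le {φ ε : Perm D} {a b : D} (hab : Conn φ ε a b) :
    ncomp φ (ε * swap a b) ≤ ncomp φ ε + 1 := by
  by_cases hab' : Conn φ (ε * swap a b) a b
  · rw [ncomp_mul_swap_of_conn hab hab']; omega
  · rw [ncomp_mul_swap_of_split hab hab']

/-! ### The genus under transpositions -/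

/-- both `ε` and `φ * ε` are split -/
theorem genus_split_split (φ ε : Perm D) {a b : D} (hab : a ≠ b) (h : ε.SameCycle a b)
    (h' : (φ * ε).SameCycle a b) :
    genus φ (ε * swap a b) + 2 * (ncomp φ ε + 1 : ℤ) = genus φ ε + 2 * ncomp φ (ε * swap a b) := by
  have h1 := ncyc_mul_swap_of_sameCycle ε hab h
  have h2 := ncyc_mul_swap_of_sameCycle (φ * ε) hab h'
  unfold genus
  rw [← mul_assoc, h1, h2]
  push_cast
  ring

/-- `ε` is split and `φ * ε` is merged -/
theorem genus_split_merge (φ ε : Perm D) {a b : D} (hab : a ≠ b) (h : ε.SameCycle a b)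
    (h' : ¬ (φ * ε).SameCycle a b) : genus φ (ε * swap a b) = genus φ ε := by
  have h1 := ncyc_mul_swap_of_sameCycle ε hab h
  have h2 := ncyc_mul_swap_of_not_sameCycle (φ * ε) h'
  have h3 : Conn φ (ε * swap a b) a b := by
    apply conn_of_sameCycle_mul
    rw [← mul_assoc]
    exact sameCycle_mul_swap_of_not _ h'
  have h4 := ncomp_mul_swap_of_conn (conn_of_sameCycle_eps φ h) h3
  unfold genus
  rw [← mul_assoc, h1, ← h2, h4]
  push_cast
  ring

/-- `ε` is merged and `φ * ε` is split -/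
theorem genus_merge_split (φ ε : Perm D) {a b : D} (hab : a ≠ b) (h : ¬ ε.SameCycle a b)
    (h' : (φ * ε).SameCycle a b) : genus φ (ε * swap a b) = genus φ ε := by
  have h1 := ncyc_mul_swap_of_not_sameCycle ε h
  have h2 := ncyc_mul_swap_of_sameCycle (φ * ε) hab h'
  have h3 : Conn φ (ε * swap a b) a b :=
    conn_of_sameCycle_eps φ (sameCycle_mul_swap_of_not _ h)
  have h4 := ncomp_mul_swap_of_conn (conn_of_sameCycle_mul h') h3
  unfold genus
  rw [← mul_assoc, ← h1, h2, h4]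
  push_cast
  ring

/-- changing `ε` by a transposition that splits a cycle of `ε` -/
theorem genus_eps_split (φ ε : Perm D) {a b : D} (hab : a ≠ b) (h : ε.SameCycle a b) :
    genus φ (ε * swap a b) ≤ genus φ ε := by
  by_cases h' : (φ * ε).SameCycle a b
  · have h1 := genus_split_split φ ε hab h h'
    have h2 := ncomp_mul_swap_le (conn_of_sameCycle_eps φ h)
    omega
  · exact (genus_split_merge φ ε hab h h').le

/-- changing `ε` by a transposition that splits a cycle of `φ * ε` -/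
theorem genus_eps_split' (φ ε : Perm D) {a b : D} (hab : a ≠ b) (h : (φ * ε).SameCycle a b) :
    genus φ (ε * swap a b) ≤ genus φ ε := by
  by_cases h' : ε.SameCycle a b
  · exact genus_eps_split φ ε hab h'
  · exact (genus_merge_split φ ε hab h' h).le

/-- changing `ε` by a transposition between two components -/
theorem genus_eps_join (φ ε : Perm D) {a b : D} (h : ¬ Conn φ ε a b) :
    genus φ (ε * swap a b) = genus φ ε := by
  have h1 := ncyc_mul_swap_of_not_sameCycle ε fun h' => h (conn_of_sameCycle_eps φ h')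
  have h2 := ncyc_mul_swap_of_not_sameCycle (φ * ε) fun h' => h (conn_of_sameCycle_mul h')
  have h3 := ncomp_mul_swap_of_join h
  unfold genus
  rw [← mul_assoc, ← h1, ← h2, ← h3]
  push_cast
  ring

omit [DecidableEq D] in
theorem genus_one (φ : Perm D) : genus φ 1 = 0 := by
  unfold genus
  rw [ncomp_one, ncyc_one, mul_one]
  ring

theorem genus_nonneg (φ ε : Perm D) : 0 ≤ genus φ ε := by
  induction hn : Nat.card D - ncyc ε using Nat.strong_induction_on generalizing ε with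
  | _ n ih =>
    by_cases h1 : ε = 1
    · rw [h1, genus_one]
    · obtain ⟨a, ha⟩ : ∃ a, ε a ≠ a := by
        by_contra hcon
        push Not at hcon
        exact h1 (Equiv.ext hcon)
      have hs : ε.SameCycle a (ε a) := Perm.sameCycle_apply_right.2 (Perm.SameCycle.refl _ _)
      have h2 := ncyc_mul_swap_of_sameCycle ε ha.symm hs
      have h3 := ncyc_le_card (ε * swap a (ε a))
      exact (ih _ (by omega) (ε * swap a (ε a)) rfl).trans (genus_eps_split φ ε ha.symm hs)

/-- changing `φ` by a transposition that splits a cycle of `φ` -/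
theorem genus_phi_split (φ ε : Perm D) {a b : D} (hab : a ≠ b) (h : φ.SameCycle a b) :
    genus (φ * swap a b) ε ≤ genus φ ε := by
  rw [genus_comm _ ε, genus_comm φ ε]
  exact genus_eps_split ε φ hab h

/-- changing `φ` by a transposition that splits a cycle of `φ * ε` -/
theorem genus_phi_split' (φ ε : Perm D) {a b : D} (hab : a ≠ b)
    (h : (φ * ε).SameCycle (ε⁻¹ a) (ε⁻¹ b)) :
    genus (φ * swap a b) ε ≤ genus φ ε := by
  rw [genus_comm _ ε, genus_comm φ ε]
  refine genus_eps_split' ε φ hab ?_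
  have : ε * φ = ε * (φ * ε) * ε⁻¹ := by group
  rw [this]
  exact Perm.sameCycle_conj.2 h

/-- changing `φ` by a transposition between two components -/
theorem genus_phi_join (φ ε : Perm D) {a b : D} (h : ¬ Conn φ ε a b) :
    genus (φ * swap a b) ε = genus φ ε := by
  rw [genus_comm _ ε, genus_comm φ ε]
  exact genus_eps_join ε φ fun h' => h h'.comm

/-! ### Cutting an edge -/

/-- in a planar map, cutting an edge whose two darts are on one cycle of `φ * ε` disconnects them -/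
theorem not_conn_of_cut (φ ε : Perm D) (hε : ∀ x, ε (ε x) = x) (h0 : genus φ ε = 0) {d : D}
    (hd : ε d ≠ d) (h : (φ * ε).SameCycle d (ε d)) : ¬ Conn φ (ε * swap d (ε d)) d (ε d) := by
  intro hc
  have _ := hε
  have hs : ε.SameCycle d (ε d) := Perm.sameCycle_apply_right.2 (Perm.SameCycle.refl _ _)
  have h1 := genus_split_split φ ε hd.symm hs h
  have h2 := ncomp_mul_swap_of_conn (conn_eps φ ε d) hc
  have h3 := genus_nonneg φ (ε * swap d (ε d))
  omega

/-- cutting an edge whose two darts are on different cycles of `φ * ε` keeps the components -/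
theorem conn_cut_iff (φ ε : Perm D) (hε : ∀ x, ε (ε x) = x) {d : D}
    (h : ¬ (φ * ε).SameCycle d (ε d)) (x y : D) :
    Conn φ (ε * swap d (ε d)) x y ↔ Conn φ ε x y := by
  have _ := hε
  refine conn_mul_swap_iff (conn_eps φ ε d) ?_ x y
  apply conn_of_sameCycle_mul
  rw [← mul_assoc]
  exact sameCycle_mul_swap_of_not _ h

/-- Cutting an edge that starts on a hole, or that lies in a component without holes. -/
theorem DiscLike.cut {φ ε : Perm D} (hε : ∀ x, ε (ε x) = x) (h : DiscLike φ ε) {d : D}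
    (hd : (∃ u, ε u = u ∧ (φ * ε).SameCycle u d) ∨ ∀ u, ε u = u → ¬ Conn φ ε u d) :
    DiscLike φ (ε * swap d (ε d)) := by
  by_cases hde : ε d = d
  · have : swap d (ε d) = 1 := by rw [hde]; exact swap_self d
    rw [this, mul_one]
    exact h
  have hs : ε.SameCycle d (ε d) := Perm.sameCycle_apply_right.2 (Perm.SameCycle.refl _ _)
  have hcd : Conn φ ε d (ε d) := conn_eps φ ε d
  refine ⟨le_antisymm (h.1 ▸ genus_eps_split φ ε (Ne.symm hde) hs) (genus_nonneg _ _), ?_⟩
  -- fixed points of the new involution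
  have hfix : ∀ u, (ε * swap d (ε d)) u = u → u = d ∨ u = ε d ∨ ε u = u := by
    intro u hu
    by_cases h1 : u = d
    · exact Or.inl h1
    by_cases h2 : u = ε d
    · exact Or.inr (Or.inl h2)
    rw [Perm.mul_apply, swap_apply_of_ne_of_ne h1 h2] at hu
    exact Or.inr (Or.inr hu)
  have key : ∀ u, (ε * swap d (ε d)) u = u → Conn φ ε u d →
      (φ * ε).SameCycle u d ∨ (φ * ε).SameCycle u (ε d) := by
    intro u hu hc
    rcases hfix u hu with rfl | rfl | hu'
    · exact Or.inl (Perm.SameCycle.refl _ _)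
    · exact Or.inr (Perm.SameCycle.refl _ _)
    · rcases hd with ⟨u₀, hu₀, hs₀⟩ | hd
      · exact Or.inl ((h.2 u u₀ hu' hu₀ (hc.trans (conn_of_sameCycle_mul hs₀).symm)).trans hs₀)
      · exact absurd hc (hd u hu')
  intro u v hu hv huv
  have huv' : Conn φ ε u v := conn_of_conn_mul_swap hcd huv
  rw [← mul_assoc]
  have hconn : ∀ {x y : D}, (φ * ε * swap d (ε d)).SameCycle x y →
      Conn φ (ε * swap d (ε d)) x y := by
    intro x y hxy
    rw [mul_assoc] at hxy
    exact conn_of_sameCycle_mul hxy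
  by_cases hud : Conn φ ε u d
  · have hku := key u hu hud
    have hkv := key v hv (huv'.symm.trans hud)
    by_cases hsp : (φ * ε).SameCycle d (ε d)
    · have hnc := not_conn_of_cut φ ε hε h.1 hde hsp
      have hm : Mrg (φ * ε * swap d (ε d)).SameCycle d (ε d) u v :=
        (mrg_sameCycle_mul_swap_iff _ _ _ _ _).2 (Or.inr ⟨hku, hkv⟩)
      rcases hm with hm | ⟨h1 | h1, h2 | h2⟩
      · exact hm
      · exact h1.trans h2.symm
      · exact absurd ((hconn h1).symm.trans (huv.trans (hconn h2))) hnc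
      · exact absurd ((hconn h2).symm.trans (huv.symm.trans (hconn h1))) hnc
      · exact h1.trans h2.symm
    · exact (sameCycle_iff_of_merge _ hsp u v).2 (Or.inr ⟨hku, hkv⟩)
  · have hfix' : ∀ w, (ε * swap d (ε d)) w = w → ¬ Conn φ ε w d → ε w = w := by
      intro w hw hwd
      rcases hfix w hw with rfl | rfl | hw'
      · exact absurd (Conn.refl _ _ _) hwd
      · exact absurd hcd.symm hwd
      · exact hw'
    have hσ := h.2 u v (hfix' u hu hud) (hfix' v hv fun hvd => hud (huv'.trans hvd)) huv'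
    have hm : Mrg (φ * ε * swap d (ε d)).SameCycle d (ε d) u v :=
      (mrg_sameCycle_mul_swap_iff _ _ _ _ _).2 (Or.inl hσ)
    rcases hm with hm | ⟨h1 | h1, -⟩
    · exact hm
    · exact absurd (conn_of_conn_mul_swap hcd (hconn h1)) hud
    · exact absurd ((conn_of_conn_mul_swap hcd (hconn h1)).trans hcd.symm) hud

/-! ### Embeddings and disjoint unions -/

section Embed

variable {D₀ D₁ D₂ : Type}

/-- connectivity is reflected and preserved by an equivariant injection -/
theorem conn_embed_iff {φ ε : Perm D₀} {φ' ε' : Perm D₁} (ι : D₁ → D₀)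
    (hι : Function.Injective ι) (hφ : ∀ x, ι (φ' x) = φ (ι x)) (hε : ∀ x, ι (ε' x) = ε (ι x))
    (x y : D₁) : Conn φ ε (ι x) (ι y) ↔ Conn φ' ε' x y := by
  constructor
  · intro h
    let s : D₀ → D₀ → Prop := fun u v =>
      (u ∉ Set.range ι ∧ v ∉ Set.range ι) ∨ ∃ x y, u = ι x ∧ v = ι y ∧ Conn φ' ε' x y
    have hs : Equivalence s := by
      refine ⟨fun u => ?_, ?_, ?_⟩
      · by_cases hu : u ∈ Set.range ι
        · obtain ⟨x, rfl⟩ := hu
          exact Or.inr ⟨x, x, rfl, rfl, Conn.refl _ _ _⟩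
        · exact Or.inl ⟨hu, hu⟩
      · rintro u v (⟨h1, h2⟩ | ⟨x, y, rfl, rfl, h⟩)
        · exact Or.inl ⟨h2, h1⟩
        · exact Or.inr ⟨y, x, rfl, rfl, h.symm⟩
      · rintro u v w (⟨h1, h2⟩ | ⟨x, y, rfl, rfl, h⟩) (⟨h1', h2'⟩ | ⟨x', y', hx', rfl, h'⟩)
        · exact Or.inl ⟨h1, h2'⟩
        · exact absurd ⟨x', hx'.symm⟩ h2
        · exact absurd ⟨y, rfl⟩ h1'
        · obtain rfl := hι hx'
          exact Or.inr ⟨x, y', rfl, rfl, h.trans h'⟩
    have step : ∀ (σ : Perm D₀) (σ' : Perm D₁), (∀ x, ι (σ' x) = σ (ι x)) →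
        (∀ x, Conn φ' ε' x (σ' x)) → ∀ u, s u (σ u) := by
      intro σ σ' hσ hc u
      by_cases hu : u ∈ Set.range ι
      · obtain ⟨x, rfl⟩ := hu
        exact Or.inr ⟨x, σ' x, rfl, (hσ x).symm, hc x⟩
      · refine Or.inl ⟨hu, ?_⟩
        rintro ⟨x, hx⟩
        apply hu
        refine ⟨σ'⁻¹ x, σ.injective ?_⟩
        rw [← hσ, ← hx]
        simp
    rcases h.le hs (step φ φ' hφ (conn_phi φ' ε')) (step ε ε' hε (conn_eps φ' ε')) with
      ⟨h1, -⟩ | ⟨x', y', hx', hy', h'⟩
    · exact absurd ⟨x, rfl⟩ h1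
    · obtain rfl := hι hx'
      obtain rfl := hι hy'
      exact h'
  · intro h
    refine h.le (s := fun x y => Conn φ ε (ι x) (ι y))
      ⟨fun _ => Conn.refl _ _ _, fun h => h.symm, fun h h' => h.trans h'⟩ ?_ ?_
    · intro x; show Conn φ ε (ι x) (ι (φ' x)); rw [hφ]; exact conn_phi _ _ _
    · intro x; show Conn φ ε (ι x) (ι (ε' x)); rw [hε]; exact conn_eps _ _ _

/-- the image of an equivariant injection is a union of components -/
theorem mem_range_of_conn {φ ε : Perm D₀} {φ' ε' : Perm D₁} (ι : D₁ → D₀)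
    (hφ : ∀ x, ι (φ' x) = φ (ι x)) (hε : ∀ x, ι (ε' x) = ε (ι x)) {u v : D₀}
    (h : Conn φ ε u v) : u ∈ Set.range ι ↔ v ∈ Set.range ι := by
  have step : ∀ (σ : Perm D₀) (σ' : Perm D₁), (∀ x, ι (σ' x) = σ (ι x)) →
      ∀ u, u ∈ Set.range ι ↔ σ u ∈ Set.range ι := by
    intro σ σ' hσ u
    constructor
    · rintro ⟨x, rfl⟩
      exact ⟨σ' x, hσ x⟩
    · rintro ⟨x, hx⟩
      refine ⟨σ'⁻¹ x, σ.injective ?_⟩
      rw [← hσ, ← hx]
      simp
  exact h.le (s := fun u v => u ∈ Set.range ι ↔ v ∈ Set.range ι)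
    ⟨fun _ => Iff.rfl, Iff.symm, Iff.trans⟩ (step φ φ' hφ) (step ε ε' hε)

theorem sameCycle_embed_iff {σ : Perm D₀} {σ' : Perm D₁} (ι : D₁ → D₀)
    (hι : Function.Injective ι) (hσ : ∀ x, ι (σ' x) = σ (ι x)) (x y : D₁) :
    σ.SameCycle (ι x) (ι y) ↔ σ'.SameCycle x y := by
  have hinv : ∀ x, ι (σ'⁻¹ x) = σ⁻¹ (ι x) := by
    intro x
    apply σ.injective
    rw [← hσ]
    simp
  have hz : ∀ (k : ℤ) (x : D₁), ι ((σ' ^ k) x) = (σ ^ k) (ι x) := by
    intro k
    induction k using Int.induction_on with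
    | zero => intro x; simp
    | succ k ih => intro x; rw [zpow_add_one, zpow_add_one, Perm.mul_apply, Perm.mul_apply, ih, hσ]
    | pred k ih =>
      intro x; rw [zpow_sub_one, zpow_sub_one, Perm.mul_apply, Perm.mul_apply, ih, hinv]
  constructor
  · rintro ⟨k, hk⟩
    exact ⟨k, hι (by rw [hz, hk])⟩
  · rintro ⟨k, hk⟩
    exact ⟨k, by rw [← hz, hk]⟩

/-- counting classes over a partition into two invariant parts -/
theorem card_quotient_add [Finite D₁] [Finite D₂] (s : Setoid D₀) (r₁ : Setoid D₁)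
    (r₂ : Setoid D₂) (ι₁ : D₁ → D₀) (ι₂ : D₂ → D₀) (h₁ : ∀ x y, s (ι₁ x) (ι₁ y) ↔ r₁ x y)
    (h₂ : ∀ x y, s (ι₂ x) (ι₂ y) ↔ r₂ x y) (h₁₂ : ∀ x y, ¬ s (ι₁ x) (ι₂ y))
    (hcov : ∀ u, u ∈ Set.range ι₁ ∨ u ∈ Set.range ι₂) :
    Nat.card (Quotient s) = Nat.card (Quotient r₁) + Nat.card (Quotient r₂) := by
  let f₁ : Quotient r₁ → Quotient s := Quotient.map' ι₁ fun x y h => (h₁ x y).2 h
  let f₂ : Quotient r₂ → Quotient s := Quotient.map' ι₂ fun x y h => (h₂ x y).2 h
  have hf : Function.Bijective (Sum.elim f₁ f₂) := by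
    constructor
    · rintro (q | q) (q' | q') hq <;> obtain ⟨x, rfl⟩ := Quotient.exists_rep q <;>
        obtain ⟨y, rfl⟩ := Quotient.exists_rep q'
      · exact congrArg Sum.inl (Quotient.sound ((h₁ x y).1 (Quotient.exact hq)))
      · exact absurd (Quotient.exact hq) (h₁₂ x y)
      · exact absurd (Quotient.exact hq.symm) (h₁₂ y x)
      · exact congrArg Sum.inr (Quotient.sound ((h₂ x y).1 (Quotient.exact hq)))
    · intro q
      obtain ⟨u, rfl⟩ := Quotient.exists_rep q
      rcases hcov u with ⟨x, rfl⟩ | ⟨x, rfl⟩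
      · exact ⟨Sum.inl (Quotient.mk r₁ x), rfl⟩
      · exact ⟨Sum.inr (Quotient.mk r₂ x), rfl⟩
  rw [← Nat.card_congr (Equiv.ofBijective _ hf), Nat.card_sum]

theorem ncomp_add_of_embed [Finite D₁] [Finite D₂] {φ ε : Perm D₀} {φ₁ ε₁ : Perm D₁}
    {φ₂ ε₂ : Perm D₂} (ι₁ : D₁ → D₀) (ι₂ : D₂ → D₀) (hι₁ : Function.Injective ι₁)
    (hι₂ : Function.Injective ι₂) (hne : ∀ x y, ι₁ x ≠ ι₂ y)
    (hcov : ∀ u, u ∈ Set.range ι₁ ∨ u ∈ Set.range ι₂)
    (hφ₁ : ∀ x, ι₁ (φ₁ x) = φ (ι₁ x)) (hε₁ : ∀ x, ι₁ (ε₁ x) = ε (ι₁ x))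
    (hφ₂ : ∀ x, ι₂ (φ₂ x) = φ (ι₂ x)) (hε₂ : ∀ x, ι₂ (ε₂ x) = ε (ι₂ x)) :
    ncomp φ ε = ncomp φ₁ ε₁ + ncomp φ₂ ε₂ := by
  refine card_quotient_add _ _ _ ι₁ ι₂ (conn_embed_iff ι₁ hι₁ hφ₁ hε₁)
    (conn_embed_iff ι₂ hι₂ hφ₂ hε₂) ?_ hcov
  intro x y h
  obtain ⟨z, hz⟩ := (mem_range_of_conn ι₁ hφ₁ hε₁ h).1 ⟨x, rfl⟩
  exact hne z y hz

theorem ncyc_add_of_embed [Finite D₀] [Finite D₁] [Finite D₂] {σ : Perm D₀} {σ₁ : Perm D₁}
    {σ₂ : Perm D₂} (ι₁ : D₁ → D₀) (ι₂ : D₂ → D₀) (hι₁ : Function.Injective ι₁)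
    (hι₂ : Function.Injective ι₂) (hne : ∀ x y, ι₁ x ≠ ι₂ y)
    (hcov : ∀ u, u ∈ Set.range ι₁ ∨ u ∈ Set.range ι₂)
    (hσ₁ : ∀ x, ι₁ (σ₁ x) = σ (ι₁ x)) (hσ₂ : ∀ x, ι₂ (σ₂ x) = σ (ι₂ x)) :
    ncyc σ = ncyc σ₁ + ncyc σ₂ := by
  have := Fintype.ofFinite D₀
  have := Fintype.ofFinite D₁
  have := Fintype.ofFinite D₂
  rw [← ncomp_self, ← ncomp_self, ← ncomp_self]
  exact ncomp_add_of_embed ι₁ ι₂ hι₁ hι₂ hne hcov hσ₁ hσ₁ hσ₂ hσ₂

/-- the genus is additive over a partition into two invariant parts -/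
theorem genus_add_of_embed [Finite D₀] [Finite D₁] [Finite D₂] {φ ε : Perm D₀} {φ₁ ε₁ : Perm D₁}
    {φ₂ ε₂ : Perm D₂} (ι₁ : D₁ → D₀) (ι₂ : D₂ → D₀) (hι₁ : Function.Injective ι₁)
    (hι₂ : Function.Injective ι₂) (hne : ∀ x y, ι₁ x ≠ ι₂ y)
    (hcov : ∀ u, u ∈ Set.range ι₁ ∨ u ∈ Set.range ι₂)
    (hφ₁ : ∀ x, ι₁ (φ₁ x) = φ (ι₁ x)) (hε₁ : ∀ x, ι₁ (ε₁ x) = ε (ι₁ x))
    (hφ₂ : ∀ x, ι₂ (φ₂ x) = φ (ι₂ x)) (hε₂ : ∀ x, ι₂ (ε₂ x) = ε (ι₂ x)) :
    genus φ ε = genus φ₁ ε₁ + genus φ₂ ε₂ := by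
  have h1 := ncomp_add_of_embed ι₁ ι₂ hι₁ hι₂ hne hcov hφ₁ hε₁ hφ₂ hε₂
  have h2 := ncyc_add_of_embed ι₁ ι₂ hι₁ hι₂ hne hcov hφ₁ hφ₂
  have h3 := ncyc_add_of_embed ι₁ ι₂ hι₁ hι₂ hne hcov hε₁ hε₂
  have h4 := ncyc_add_of_embed (σ := φ * ε) (σ₁ := φ₁ * ε₁) (σ₂ := φ₂ * ε₂) ι₁ ι₂ hι₁ hι₂ hne hcov
    (fun x => by rw [Perm.mul_apply, Perm.mul_apply, hφ₁, hε₁])
    (fun x => by rw [Perm.mul_apply, Perm.mul_apply, hφ₂, hε₂])
  have h5 := ncyc_add_of_embed (σ := (1 : Perm D₀)) (σ₁ := 1) (σ₂ := 1) ι₁ ι₂ hι₁ hι₂ hne hcov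
    (fun _ => rfl) (fun _ => rfl)
  rw [ncyc_one, ncyc_one, ncyc_one] at h5
  unfold genus
  rw [h1, h2, h3, h4, h5]
  push_cast
  ring

/-- the genus is invariant under relabelling -/
theorem genus_congr {φ ε : Perm D₀} {φ' ε' : Perm D₁} (e : D₁ ≃ D₀)
    (hφ : ∀ x, e (φ' x) = φ (e x)) (hε : ∀ x, e (ε' x) = ε (e x)) :
    genus φ ε = genus φ' ε' := by
  have hc : ∀ (σ : Perm D₀) (σ' : Perm D₁), (∀ x, e (σ' x) = σ (e x)) → ncyc σ = ncyc σ' :=
    fun σ σ' h => (Nat.card_congr (Quotient.congr e fun x y =>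
      (sameCycle_embed_iff e e.injective h x y).symm)).symm
  have h1 : ncomp φ ε = ncomp φ' ε' := (Nat.card_congr (Quotient.congr e fun x y =>
      (conn_embed_iff e e.injective hφ hε x y).symm)).symm
  unfold genus
  rw [h1, hc φ φ' hφ, hc ε ε' hε, hc (φ * ε) (φ' * ε')
    (fun x => by rw [Perm.mul_apply, Perm.mul_apply, hφ, hε]), Nat.card_congr e]

end Embed

/-- genus of a disjoint union -/
theorem genus_sumCongr {D' : Type} [Fintype D'] [DecidableEq D'] (φ ε : Perm D) (φ' ε' : Perm D') :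
    genus (Perm.sumCongr φ φ') (Perm.sumCongr ε ε') = genus φ ε + genus φ' ε' :=
  genus_add_of_embed Sum.inl Sum.inr Sum.inl_injective Sum.inr_injective
    (fun _ _ => Sum.inl_ne_inr)
    (fun u => by rcases u with x | x; exacts [Or.inl ⟨x, rfl⟩, Or.inr ⟨x, rfl⟩])
    (fun _ => rfl) (fun _ => rfl) (fun _ => rfl) (fun _ => rfl)

/-- the genus of a union of components is at most the genus of the whole map -/
theorem genus_le_of_embed {D' : Type} [Fintype D'] [DecidableEq D'] {φ ε : Perm D}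
    {φ' ε' : Perm D'} (ι : D' → D) (hι : Function.Injective ι) (hφ : ∀ x, ι (φ' x) = φ (ι x))
    (hε : ∀ x, ι (ε' x) = ε (ι x)) : genus φ' ε' ≤ genus φ ε := by
  classical
  have hφ'' : ∀ u, φ u ∉ Set.range ι ↔ u ∉ Set.range ι := fun u =>
    (mem_range_of_conn ι hφ hε (conn_phi φ ε u)).symm.not
  have hε'' : ∀ u, ε u ∉ Set.range ι ↔ u ∉ Set.range ι := fun u =>
    (mem_range_of_conn ι hφ hε (conn_eps φ ε u)).symm.not
  let φ₂ : Perm {u // u ∉ Set.range ι} := φ.subtypePerm (p := fun u => u ∉ Set.range ι) hφ''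
  let ε₂ : Perm {u // u ∉ Set.range ι} := ε.subtypePerm (p := fun u => u ∉ Set.range ι) hε''
  have := genus_add_of_embed (φ := φ) (ε := ε) (φ₂ := φ₂)
    (ε₂ := ε₂) ι Subtype.val hι Subtype.val_injective
    (fun x y h => y.2 ⟨x, h⟩)
    (fun u => by
      by_cases hu : u ∈ Set.range ι
      exacts [Or.inl hu, Or.inr ⟨⟨u, hu⟩, rfl⟩])
    hφ hε (fun _ => rfl) (fun _ => rfl)
  have h2 := genus_nonneg φ₂ ε₂
  omega

/-- a union of components of a planar map is planar -/
theorem genus_eq_zero_of_embed {D' : Type} [Fintype D'] [DecidableEq D'] {φ ε : Perm D}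
    {φ' ε' : Perm D'} (ι : D' → D) (hι : Function.Injective ι) (hφ : ∀ x, ι (φ' x) = φ (ι x))
    (hε : ∀ x, ι (ε' x) = ε (ι x)) (h : genus φ ε = 0) : genus φ' ε' = 0 :=
  le_antisymm (h ▸ genus_le_of_embed ι hι hφ hε) (genus_nonneg _ _)

theorem DiscLike.of_embed {D' : Type} [Fintype D'] [DecidableEq D'] {φ ε : Perm D}
    {φ' ε' : Perm D'} (ι : D' → D) (hι : Function.Injective ι) (hφ : ∀ x, ι (φ' x) = φ (ι x))
    (hε : ∀ x, ι (ε' x) = ε (ι x)) (h : DiscLike φ ε) : DiscLike φ' ε' := by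
  refine ⟨genus_eq_zero_of_embed ι hι hφ hε h.1, fun u v hu hv huv => ?_⟩
  refine (sameCycle_embed_iff (σ := φ * ε) ι hι
    (fun x => by rw [Perm.mul_apply, Perm.mul_apply, hφ, hε]) u v).1 ?_
  exact h.2 _ _ (by rw [← hε, hu]) (by rw [← hε, hv]) ((conn_embed_iff ι hι hφ hε u v).2 huv)

end Crest.Agent.R177
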