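import Crest.Agent.R177.Defs

/-! Chain-level algebra of a triangular presentation (task ALG). -/

set_option autoImplicit false

namespace Crest.Agent.R177

/-- left translation on chains indexed by `G × Y` -/
noncomputable def tr {G : Type} [Group G] (Y : Type) (h : G) :
    ((G × Y) →₀ ℤ) →ₗ[ℤ] ((G × Y) →₀ ℤ) :=
  Finsupp.lmapDomain ℤ ℤ fun p => (h * p.1, p.2)

/-- left translation on `0`-chains -/
noncomputable def tr0 {G : Type} [Group G] (h : G) : (G →₀ ℤ) →ₗ[ℤ] (G →₀ ℤ) :=
  Finsupp.lmapDomain ℤ ℤ fun p => h * p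

@[simp] theorem tr_single {G : Type} [Group G] {Y : Type} (h g : G) (y : Y) (n : ℤ) :
    tr Y h (Finsupp.single (g, y) n) = Finsupp.single (h * g, y) n := by
  simp [tr, Finsupp.mapDomain_single]

@[simp] theorem tr0_single {G : Type} [Group G] (h g : G) (n : ℤ) :
    tr0 h (Finsupp.single g n) = Finsupp.single (h * g) n := by
  simp [tr0, Finsupp.mapDomain_single]

theorem tr_one {G : Type} [Group G] {Y : Type} (z : (G × Y) →₀ ℤ) : tr Y (1 : G) z = z := by
  induction z using Finsupp.induction_linear with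
  | zero => simp
  | add a b ha hb => rw [map_add, ha, hb]
  | single p n => rcases p with ⟨g, y⟩; simp

theorem tr_tr {G : Type} [Group G] {Y : Type} (h k : G) (z : (G × Y) →₀ ℤ) :
    tr Y h (tr Y k z) = tr Y (h * k) z := by
  induction z using Finsupp.induction_linear with
  | zero => simp
  | add a b ha hb => simp only [map_add, ha, hb]
  | single p n => rcases p with ⟨g, y⟩; simp [mul_assoc]

/-- augmentation -/
noncomputable def aug {G : Type} : (G →₀ ℤ) →ₗ[ℤ] ℤ := Finsupp.linearCombination ℤ fun _ => 1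

@[simp] theorem aug_single {G : Type} (g : G) (n : ℤ) : aug (Finsupp.single g n) = n := by
  simp [aug]

theorem aug_tr0 {G : Type} [Group G] (h : G) (x : G →₀ ℤ) : aug (tr0 h x) = aug x := by
  induction x using Finsupp.induction_linear with
  | zero => simp
  | add a b ha hb => simp only [map_add, ha, hb]
  | single p n => simp

@[simp] theorem linv_linv {α : Type} (x : α × Bool) : linv (linv x) = x := by
  simp [linv]

namespace TriPres

variable {α T : Type} (Q : TriPres α T)

/-- the projection from the free group -/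
def proj : FreeGroup α →* Q.Grp := PresentedGroup.mk Q.rels

@[simp] theorem proj_of (x : α) : Q.proj (FreeGroup.of x) = Q.gen x := rfl

theorem proj_surjective : Function.Surjective Q.proj := PresentedGroup.mk_surjective Q.rels

theorem gen_rel (t : T) : Q.gen (Q.a t) * Q.gen (Q.b t) = Q.gen (Q.c t) := by
  have h : Q.proj (FreeGroup.of (Q.a t) * FreeGroup.of (Q.b t) * (FreeGroup.of (Q.c t))⁻¹) = 1 :=
    PresentedGroup.one_of_mem ⟨t, rfl⟩
  rw [map_mul, map_mul, map_inv, mul_inv_eq_one] at h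
  exact h

@[simp] theorem ev_nil : Q.ev [] = 1 := rfl

@[simp] theorem ev_cons (x : α × Bool) (w : List (α × Bool)) :
    Q.ev (x :: w) = Q.letter x * Q.ev w := by
  simp [ev]

@[simp] theorem ev_append (w w' : List (α × Bool)) : Q.ev (w ++ w') = Q.ev w * Q.ev w' := by
  simp [ev]

@[simp] theorem letter_true (x : α) : Q.letter (x, true) = Q.gen x := rfl

@[simp] theorem letter_false (x : α) : Q.letter (x, false) = (Q.gen x)⁻¹ := rfl

theorem letter_linv (x : α × Bool) : Q.letter (linv x) = (Q.letter x)⁻¹ := by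
  rcases x with ⟨x, _ | _⟩ <;> simp [linv]

theorem mk_single_true (x : α) : FreeGroup.mk [(x, true)] = FreeGroup.of x := rfl

theorem mk_single_false (x : α) : FreeGroup.mk [(x, false)] = (FreeGroup.of x)⁻¹ := rfl

theorem proj_mk_single (x : α × Bool) : Q.proj (FreeGroup.mk [x]) = Q.letter x := by
  rcases x with ⟨x, _ | _⟩
  · rw [mk_single_false, map_inv]; rfl
  · rfl

theorem mk_cons (x : α × Bool) (w : List (α × Bool)) :
    FreeGroup.mk (x :: w) = FreeGroup.mk [x] * FreeGroup.mk w := by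
  rw [FreeGroup.mul_mk]; rfl

theorem proj_mk (w : List (α × Bool)) : Q.proj (FreeGroup.mk w) = Q.ev w := by
  induction w with
  | nil => exact map_one Q.proj
  | cons x w ih => rw [mk_cons, map_mul, ih, proj_mk_single, ev_cons]

theorem ev_invRev (w : List (α × Bool)) : Q.ev (FreeGroup.invRev w) = (Q.ev w)⁻¹ := by
  rw [← proj_mk, ← proj_mk, ← FreeGroup.inv_mk, map_inv]

theorem ev_side (τ : T × Bool) : Q.ev [Q.side τ 0, Q.side τ 1, Q.side τ 2] = 1 := by
  rcases τ with ⟨t, _ | _⟩
  · simp [side, ← Q.gen_rel t]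
  · simp [side, ← Q.gen_rel t]

@[simp] theorem ch_nil (g : Q.Grp) : Q.ch g [] = 0 := rfl

@[simp] theorem ch_cons (g : Q.Grp) (x : α × Bool) (w : List (α × Bool)) :
    Q.ch g (x :: w) = Q.edgeCh g x + Q.ch (g * Q.letter x) w := rfl

@[simp] theorem edgeCh_true (g : Q.Grp) (x : α) :
    Q.edgeCh g (x, true) = Finsupp.single (g, x) 1 := rfl

@[simp] theorem edgeCh_false (g : Q.Grp) (x : α) :
    Q.edgeCh g (x, false) = - Finsupp.single (g * (Q.gen x)⁻¹, x) 1 := rfl

theorem ch_append (g : Q.Grp) (w w' : List (α × Bool)) :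
    Q.ch g (w ++ w') = Q.ch g w + Q.ch (g * Q.ev w) w' := by
  induction w generalizing g with
  | nil => simp
  | cons x w ih => simp [ih, add_assoc, mul_assoc]

theorem edgeCh_linv (g : Q.Grp) (x : α × Bool) :
    Q.edgeCh (g * Q.letter x) (linv x) = - Q.edgeCh g x := by
  rcases x with ⟨x, _ | _⟩ <;> simp [linv]

theorem ch_pair (g : Q.Grp) (x : α × Bool) : Q.ch g [x, linv x] = 0 := by
  simp [edgeCh_linv]

theorem ev_pair (x : α × Bool) : Q.ev [x, linv x] = 1 := by
  simp [letter_linv]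

theorem tr_edgeCh (h g : Q.Grp) (x : α × Bool) :
    tr α h (Q.edgeCh g x) = Q.edgeCh (h * g) x := by
  rcases x with ⟨x, _ | _⟩ <;> simp [mul_assoc]

theorem tr_ch (h g : Q.Grp) (w : List (α × Bool)) : tr α h (Q.ch g w) = Q.ch (h * g) w := by
  induction w generalizing g with
  | nil => simp
  | cons x w ih => simp [ih, tr_edgeCh, mul_assoc]

theorem d2_single (g : Q.Grp) (t : T) (n : ℤ) :
    Q.d2 (Finsupp.single (g, t) n) = n • (Finsupp.single (g, Q.a t) 1 +
      Finsupp.single (g * Q.gen (Q.a t), Q.b t) 1 - Finsupp.single (g, Q.c t) 1) := by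
  rw [d2, Finsupp.linearCombination_single]

theorem d2_tr (h : Q.Grp) (z : (Q.Grp × T) →₀ ℤ) : Q.d2 (tr T h z) = tr α h (Q.d2 z) := by
  induction z using Finsupp.induction_linear with
  | zero => simp
  | add a b ha hb => simp only [map_add, ha, hb]
  | single p n =>
    rcases p with ⟨g, y⟩
    rw [tr_single, d2_single, d2_single, map_zsmul, map_sub, map_add, tr_single, tr_single,
      tr_single, mul_assoc]

theorem ch_side (g : Q.Grp) (τ : T × Bool) :
    Q.ch g [Q.side τ 0, Q.side τ 1, Q.side τ 2] = Q.d2 (Finsupp.single (g, τ.1) (sgn τ.2)) := by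
  rcases τ with ⟨t, _ | _⟩
  · rw [d2_single]
    simp [side, sgn, ← Q.gen_rel t, mul_assoc]
    abel
  · rw [d2_single]
    simp [side, sgn, ← Q.gen_rel t, mul_assoc]
    abel

/-- boundary map from 1-chains to 0-chains; the edge `(g, s)` goes from `g` to `g * s`. -/
noncomputable def d1 : ((Q.Grp × α) →₀ ℤ) →ₗ[ℤ] (Q.Grp →₀ ℤ) :=
  Finsupp.linearCombination ℤ fun p =>
    Finsupp.single (p.1 * Q.gen p.2) 1 - Finsupp.single p.1 1

theorem d1_single (g : Q.Grp) (s : α) (n : ℤ) :
    Q.d1 (Finsupp.single (g, s) n) =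
      n • (Finsupp.single (g * Q.gen s) 1 - Finsupp.single g 1) := by
  rw [d1, Finsupp.linearCombination_single]

theorem d1_tr (h : Q.Grp) (c : (Q.Grp × α) →₀ ℤ) : Q.d1 (tr α h c) = tr0 h (Q.d1 c) := by
  induction c using Finsupp.induction_linear with
  | zero => simp
  | add a b ha hb => simp only [map_add, ha, hb]
  | single p n =>
    rcases p with ⟨g, y⟩
    rw [tr_single, d1_single, d1_single, map_zsmul, map_sub, tr0_single, tr0_single, mul_assoc]

theorem d1_d2 (z : (Q.Grp × T) →₀ ℤ) : Q.d1 (Q.d2 z) = 0 := by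
  induction z using Finsupp.induction_linear with
  | zero => simp
  | add a b ha hb => simp only [map_add, ha, hb, add_zero]
  | single p n =>
    rcases p with ⟨g, y⟩
    rw [d2_single, map_zsmul, map_sub, map_add, d1_single, d1_single, d1_single, mul_assoc,
      Q.gen_rel]
    simp

theorem aug_d1 (c : (Q.Grp × α) →₀ ℤ) : aug (Q.d1 c) = 0 := by
  induction c using Finsupp.induction_linear with
  | zero => simp
  | add a b ha hb => simp only [map_add, ha, hb, add_zero]
  | single p n =>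
    rcases p with ⟨g, y⟩
    rw [d1_single, map_zsmul, map_sub]
    simp

theorem d1_edgeCh (g : Q.Grp) (x : α × Bool) :
    Q.d1 (Q.edgeCh g x) = Finsupp.single (g * Q.letter x) 1 - Finsupp.single g 1 := by
  rcases x with ⟨x, _ | _⟩
  · rw [edgeCh_false, map_neg, d1_single]; simp
  · rw [edgeCh_true, d1_single]; simp

theorem d1_ch (g : Q.Grp) (w : List (α × Bool)) :
    Q.d1 (Q.ch g w) = Finsupp.single (g * Q.ev w) 1 - Finsupp.single g 1 := by
  induction w generalizing g with
  | nil => simp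
  | cons x w ih => rw [ch_cons, map_add, ih, d1_edgeCh, ev_cons, mul_assoc]; abel

theorem Null.ev_eq {w : List (α × Bool)} {z : (Q.Grp × T) →₀ ℤ} (h : Q.Null w z) :
    Q.ev w = 1 := by
  induction h with
  | nil => rfl
  | ins w₁ w₂ x z _ ih => rw [ev_append, ev_append, ev_pair, mul_one, ← ev_append, ih]
  | del w₁ w₂ x z _ ih => rw [ev_append, ev_append, ev_pair, mul_one, ← ev_append] at ih; exact ih
  | tri w₁ w₂ τ z _ ih => rw [ev_append, ev_append, ev_side, mul_one, ← ev_append, ih]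

theorem Null.d2_eq {w : List (α × Bool)} {z : (Q.Grp × T) →₀ ℤ} (h : Q.Null w z) :
    Q.d2 z = Q.ch 1 w := by
  induction h with
  | nil => simp
  | ins w₁ w₂ x z _ ih =>
    rw [ih, ch_append, ch_append, ch_append, ch_pair, ev_append, ev_pair, mul_one, add_zero]
  | del w₁ w₂ x z _ ih =>
    rw [ih, ch_append, ch_append, ch_append, ch_pair, ev_append, ev_pair, mul_one, add_zero]
  | tri w₁ w₂ τ z _ ih =>
    rw [map_add, ih, ch_append, ch_append, ch_append, ch_side, ev_append, ev_side, mul_one,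
      one_mul]
    abel

variable {Q}

/-- inserting a null-homotopic word -/
theorem Null.insert {u v w : List (α × Bool)} {z₀ z : (Q.Grp × T) →₀ ℤ}
    (h₀ : Q.Null (u ++ v) z₀) (h : Q.Null w z) :
    Q.Null (u ++ w ++ v) (z₀ + tr T (Q.ev u) z) := by
  induction h with
  | nil => simpa using h₀
  | ins w₁ w₂ x z _ ih =>
    have := Null.ins (Q := Q) (u ++ w₁) (w₂ ++ v) x _ (by simpa using ih)
    simpa using this
  | del w₁ w₂ x z _ ih =>
    have := Null.del (Q := Q) (u ++ w₁) (w₂ ++ v) x _ (by simpa using ih)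
    simpa using this
  | tri w₁ w₂ τ z _ ih =>
    have := Null.tri (Q := Q) (u ++ w₁) (w₂ ++ v) τ _ (by simpa using ih)
    rw [map_add, tr_single, ← add_assoc, ← ev_append]
    simpa using this

theorem Null.append {w w' : List (α × Bool)} {z z' : (Q.Grp × T) →₀ ℤ}
    (h : Q.Null w z) (h' : Q.Null w' z') : Q.Null (w ++ w') (z + z') := by
  have := Null.insert (u := w) (v := []) (by simpa using h) h'
  rw [h.ev_eq, tr_one] at this
  simpa using this

theorem invRev_pair (x : α × Bool) : FreeGroup.invRev [x, linv x] = [x, linv x] := by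
  simp [FreeGroup.invRev, linv]

theorem invRev_side (τ : T × Bool) : FreeGroup.invRev [Q.side τ 0, Q.side τ 1, Q.side τ 2] =
    [Q.side (τ.1, !τ.2) 0, Q.side (τ.1, !τ.2) 1, Q.side (τ.1, !τ.2) 2] := by
  rcases τ with ⟨t, _ | _⟩ <;> simp [FreeGroup.invRev, side]

theorem Null.invRev {w : List (α × Bool)} {z : (Q.Grp × T) →₀ ℤ} (h : Q.Null w z) :
    Q.Null (FreeGroup.invRev w) (-z) := by
  induction h with
  | nil => simpa using Null.nil
  | ins w₁ w₂ x z _ ih =>
    rw [FreeGroup.invRev_append] at ih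
    rw [FreeGroup.invRev_append, FreeGroup.invRev_append, invRev_pair, ← List.append_assoc]
    exact Null.ins _ _ _ _ ih
  | del w₁ w₂ x z _ ih =>
    rw [FreeGroup.invRev_append, FreeGroup.invRev_append, invRev_pair, ← List.append_assoc] at ih
    rw [FreeGroup.invRev_append]
    exact Null.del _ _ _ _ ih
  | tri w₁ w₂ τ z h ih =>
    rw [FreeGroup.invRev_append] at ih
    rw [FreeGroup.invRev_append, FreeGroup.invRev_append, invRev_side, ← List.append_assoc]
    have h1 := Null.tri _ _ (τ.1, !τ.2) _ ih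
    have h2 : Q.ev (FreeGroup.invRev w₂) = Q.ev w₁ := by
      have := h.ev_eq
      rw [ev_append] at this
      rw [ev_invRev]
      exact (eq_inv_of_mul_eq_one_left this).symm
    have h3 : sgn (!τ.2) = - sgn τ.2 := by cases τ.2 <;> simp [sgn]
    rw [h2, h3, Finsupp.single_neg] at h1
    rw [neg_add]
    exact h1

theorem null_step {w w' : List (α × Bool)} (h : FreeGroup.Red.Step w w')
    (z : (Q.Grp × T) →₀ ℤ) : Q.Null w z ↔ Q.Null w' z := by
  cases h with
  | @not L₁ L₂ x b =>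
    constructor
    · intro h
      exact Null.del L₁ L₂ (x, b) z (by simpa [linv] using h)
    · intro h
      simpa [linv] using Null.ins L₁ L₂ (x, b) z h

theorem Null.of_mk_eq {w w' : List (α × Bool)} {z : (Q.Grp × T) →₀ ℤ} (h : Q.Null w z)
    (e : FreeGroup.mk w = FreeGroup.mk w') : Q.Null w' z := by
  have h1 : Relation.EqvGen FreeGroup.Red.Step w w' := Quot.eqvGen_exact e
  have h2 : Q.Null w z ↔ Q.Null w' z := by
    clear h e
    induction h1 with
    | rel a b hab => exact null_step hab z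
    | refl a => exact Iff.rfl
    | symm a b _ ih => exact ih.symm
    | trans a b c _ _ ih1 ih2 => exact ih1.trans ih2
  exact h2.1 h

variable (Q)

/-- the chain of a path, as a function on the free group -/
noncomputable def fch (g : Q.Grp) : FreeGroup α → ((Q.Grp × α) →₀ ℤ) :=
  Quot.lift (Q.ch g) (by
    intro w w' h
    cases h with
    | @not L₁ L₂ x b =>
      have : L₁ ++ (x, b) :: (x, !b) :: L₂ = L₁ ++ [(x, b), linv (x, b)] ++ L₂ := by simp [linv]
      rw [this, ch_append, ch_append, ch_append, ch_pair, ev_append, ev_pair, mul_one, add_zero])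

@[simp] theorem fch_mk (g : Q.Grp) (w : List (α × Bool)) :
    Q.fch g (FreeGroup.mk w) = Q.ch g w := rfl

@[simp] theorem fch_one (g : Q.Grp) : Q.fch g 1 = 0 := rfl

theorem fch_mul (g : Q.Grp) (x y : FreeGroup α) :
    Q.fch g (x * y) = Q.fch g x + Q.fch (g * Q.proj x) y := by
  rcases x with ⟨x⟩
  rcases y with ⟨y⟩
  change Q.fch g (FreeGroup.mk x * FreeGroup.mk y) =
    Q.fch g (FreeGroup.mk x) + Q.fch (g * Q.proj (FreeGroup.mk x)) (FreeGroup.mk y)
  rw [FreeGroup.mul_mk, fch_mk, fch_mk, fch_mk, ch_append, proj_mk]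

theorem fch_inv (g : Q.Grp) (x : FreeGroup α) :
    Q.fch (g * Q.proj x) x⁻¹ = - Q.fch g x := by
  have := Q.fch_mul g x x⁻¹
  rw [mul_inv_cancel, fch_one] at this
  exact (neg_eq_of_add_eq_zero_right this.symm).symm

theorem fch_of (g : Q.Grp) (s : α) : Q.fch g (FreeGroup.of s) = Finsupp.single (g, s) 1 := by
  rw [← mk_single_true, fch_mk]; simp

theorem d1_fch (g : Q.Grp) (x : FreeGroup α) :
    Q.d1 (Q.fch g x) = Finsupp.single (g * Q.proj x) 1 - Finsupp.single g 1 := by
  rcases x with ⟨x⟩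
  change Q.d1 (Q.fch g (FreeGroup.mk x)) = Finsupp.single (g * Q.proj (FreeGroup.mk x)) 1 - _
  rw [fch_mk, d1_ch, proj_mk]

/-- null-homotopies for elements of the free group -/
def NF (x : FreeGroup α) (z : (Q.Grp × T) →₀ ℤ) : Prop :=
  ∀ w, FreeGroup.mk w = x → Q.Null w z

variable {Q}

theorem Null.nf {w : List (α × Bool)} {z : (Q.Grp × T) →₀ ℤ} (h : Q.Null w z) :
    Q.NF (FreeGroup.mk w) z := fun _ e => h.of_mk_eq e.symm

theorem NF.one : Q.NF 1 0 := Null.nf Null.nil

theorem NF.mul {x y : FreeGroup α} {z z' : (Q.Grp × T) →₀ ℤ} (h : Q.NF x z) (h' : Q.NF y z') :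
    Q.NF (x * y) (z + z') := by
  rcases x with ⟨x⟩
  rcases y with ⟨y⟩
  exact ((h x rfl).append (h' y rfl)).nf

theorem NF.inv {x : FreeGroup α} {z : (Q.Grp × T) →₀ ℤ} (h : Q.NF x z) : Q.NF x⁻¹ (-z) := by
  rcases x with ⟨x⟩
  exact (h x rfl).invRev.nf

theorem NF.conj {x : FreeGroup α} {z : (Q.Grp × T) →₀ ℤ} (h : Q.NF x z) (u : FreeGroup α) :
    Q.NF (u * x * u⁻¹) (tr T (Q.proj u) z) := by
  rcases x with ⟨x⟩
  rcases u with ⟨u⟩
  have h0 : Q.Null (u ++ FreeGroup.invRev u) 0 := NF.one _ (by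
    rw [← FreeGroup.mul_mk, ← FreeGroup.inv_mk, mul_inv_cancel])
  have h1 := (h0.insert (h x rfl)).nf
  rw [zero_add, ← FreeGroup.mul_mk, ← FreeGroup.mul_mk, ← FreeGroup.inv_mk, ← proj_mk] at h1
  exact h1

theorem NF.rel (t : T) :
    Q.NF (FreeGroup.of (Q.a t) * FreeGroup.of (Q.b t) * (FreeGroup.of (Q.c t))⁻¹)
      (Finsupp.single (1, t) 1) := by
  have h := (Null.tri (Q := Q) [] [] (t, true) 0 Null.nil).nf
  simp only [List.nil_append, List.append_nil, zero_add, ev_nil, sgn, if_true] at h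
  exact h

theorem NF.proj_eq {x : FreeGroup α} {z : (Q.Grp × T) →₀ ℤ} (h : Q.NF x z) : Q.proj x = 1 := by
  rcases x with ⟨x⟩
  exact (Q.proj_mk x).trans (h x rfl).ev_eq

theorem NF.d2_eq {x : FreeGroup α} {z : (Q.Grp × T) →₀ ℤ} (h : Q.NF x z) :
    Q.d2 z = Q.fch 1 x := by
  rcases x with ⟨x⟩
  exact (h x rfl).d2_eq

variable (Q)

theorem nf_of_proj {x : FreeGroup α} (h : Q.proj x = 1) : ∃ z, Q.NF x z := by
  let K : Subgroup (FreeGroup α) :=
    { carrier := {x | ∃ z, Q.NF x z}
      mul_mem' := fun ⟨z, hz⟩ ⟨z', hz'⟩ => ⟨_, hz.mul hz'⟩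
      one_mem' := ⟨_, NF.one⟩
      inv_mem' := fun ⟨z, hz⟩ => ⟨_, hz.inv⟩ }
  have : K.Normal := ⟨fun n ⟨z, hz⟩ g => ⟨_, hz.conj g⟩⟩
  have h1 : Subgroup.normalClosure Q.rels ≤ K :=
    Subgroup.normalClosure_le_normal (by rintro _ ⟨t, rfl⟩; exact ⟨_, NF.rel t⟩)
  exact h1 (PresentedGroup.mk_eq_one_iff.1 h)

theorem null_of_ev {w : List (α × Bool)} (h : Q.ev w = 1) : ∃ z, Q.Null w z := by
  obtain ⟨z, hz⟩ := Q.nf_of_proj (x := FreeGroup.mk w) (by rw [proj_mk, h])
  exact ⟨z, hz w rfl⟩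

theorem exists_nf (z : (Q.Grp × T) →₀ ℤ) : ∃ x, Q.NF x z := by
  let K : AddSubgroup ((Q.Grp × T) →₀ ℤ) :=
    { carrier := {z | ∃ x, Q.NF x z}
      add_mem' := fun ⟨z, hz⟩ ⟨z', hz'⟩ => ⟨_, hz.mul hz'⟩
      zero_mem' := ⟨_, NF.one⟩
      neg_mem' := fun ⟨z, hz⟩ => ⟨_, hz.inv⟩ }
  change z ∈ K
  induction z using Finsupp.induction_linear with
  | zero => exact K.zero_mem
  | add a b ha hb => exact K.add_mem ha hb
  | single p n =>
    rcases p with ⟨g, t⟩
    obtain ⟨u, rfl⟩ := Q.proj_surjective g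
    have h := (NF.rel (Q := Q) t).conj u
    rw [tr_single, mul_one] at h
    have h2 : Finsupp.single (Q.proj u, t) n = n • Finsupp.single (Q.proj u, t) (1 : ℤ) := by simp
    rw [h2]
    exact K.zsmul_mem ⟨_, h⟩ n

open Classical in
/-- a set-theoretic section of the projection with `sec 1 = 1` -/
noncomputable def sec (g : Q.Grp) : FreeGroup α :=
  if g = 1 then 1 else Function.surjInv Q.proj_surjective g

@[simp] theorem sec_one : Q.sec 1 = 1 := by simp [sec]

@[simp] theorem proj_sec (g : Q.Grp) : Q.proj (Q.sec g) = g := by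
  unfold sec
  split_ifs with h
  · rw [h, map_one]
  · exact Function.surjInv_eq _ _

theorem exists_fill (p : Q.Grp × α) :
    ∃ z, Q.NF (Q.sec p.1 * FreeGroup.of p.2 * (Q.sec (p.1 * Q.gen p.2))⁻¹) z :=
  Q.nf_of_proj (by simp)

/-- the contraction `C₁ → C₂` -/
noncomputable def rho : ((Q.Grp × α) →₀ ℤ) →ₗ[ℤ] ((Q.Grp × T) →₀ ℤ) :=
  Finsupp.linearCombination ℤ fun p => (Q.exists_fill p).choose

/-- the contraction `C₀ → C₁` -/
noncomputable def sig : (Q.Grp →₀ ℤ) →ₗ[ℤ] ((Q.Grp × α) →₀ ℤ) :=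
  Finsupp.linearCombination ℤ fun g => Q.fch 1 (Q.sec g)

theorem sig_single (g : Q.Grp) (n : ℤ) : Q.sig (Finsupp.single g n) = n • Q.fch 1 (Q.sec g) := by
  rw [sig, Finsupp.linearCombination_single]

theorem nf_rho_single (g : Q.Grp) (s : α) :
    Q.NF (Q.sec g * FreeGroup.of s * (Q.sec (g * Q.gen s))⁻¹) (Q.rho (Finsupp.single (g, s) 1)) := by
  rw [rho, Finsupp.linearCombination_single, one_smul]
  exact (Q.exists_fill (g, s)).choose_spec

theorem nf_rho_edge (g : Q.Grp) (x : α × Bool) :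
    Q.NF (Q.sec g * FreeGroup.mk [x] * (Q.sec (g * Q.letter x))⁻¹) (Q.rho (Q.edgeCh g x)) := by
  rcases x with ⟨s, _ | _⟩
  · have h := (Q.nf_rho_single (g * (Q.gen s)⁻¹) s).inv
    rw [edgeCh_false, map_neg, mk_single_false, letter_false]
    rw [inv_mul_cancel_right] at h
    convert h using 1
    group
  · exact Q.nf_rho_single g s

theorem nf_rho_ch (g : Q.Grp) (w : List (α × Bool)) :
    Q.NF (Q.sec g * FreeGroup.mk w * (Q.sec (g * Q.ev w))⁻¹) (Q.rho (Q.ch g w)) := by
  induction w generalizing g with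
  | nil =>
    have : Q.sec g * FreeGroup.mk [] * (Q.sec (g * Q.ev []))⁻¹ = 1 := by
      rw [← FreeGroup.one_eq_mk]; simp
    rw [this, ch_nil, map_zero]
    exact NF.one
  | cons x w ih =>
    have h := (Q.nf_rho_edge g x).mul (ih (g * Q.letter x))
    rw [ch_cons, map_add, mk_cons, ev_cons, ← mul_assoc g]
    convert h using 1
    group

/-- every closed path is filled by `rho` of its chain -/
theorem nf_rho {x : FreeGroup α} (h : Q.proj x = 1) : Q.NF x (Q.rho (Q.fch 1 x)) := by
  rcases x with ⟨w⟩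
  have h1 := Q.nf_rho_ch 1 w
  have h2 : Q.ev w = 1 := (Q.proj_mk w).symm.trans h
  rw [h2, mul_one, sec_one, one_mul, inv_one, mul_one] at h1
  exact h1

theorem null_rho {w : List (α × Bool)} (h : Q.ev w = 1) : Q.Null w (Q.rho (Q.ch 1 w)) :=
  Q.nf_rho (x := FreeGroup.mk w) (by rw [proj_mk, h]) w rfl

/-- every 2-cycle is spherical -/
theorem null_nil_of_d2 {z : (Q.Grp × T) →₀ ℤ} (h : Q.d2 z = 0) : Q.Null [] z := by
  obtain ⟨x, hx⟩ := Q.exists_nf z
  have h1 := Q.nf_rho hx.proj_eq
  rw [← hx.d2_eq, h, map_zero] at h1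
  have h2 := hx.mul h1.inv
  rw [mul_inv_cancel, neg_zero, add_zero] at h2
  exact h2 [] rfl

/-- contracting homotopy in degree one -/
theorem d2_rho (c : (Q.Grp × α) →₀ ℤ) : Q.d2 (Q.rho c) + Q.sig (Q.d1 c) = c := by
  induction c using Finsupp.induction_linear with
  | zero => simp
  | add a b ha hb =>
    simp only [map_add]
    rw [add_add_add_comm, ha, hb]
  | single p n =>
    rcases p with ⟨g, s⟩
    have h2 : Finsupp.single (g, s) n = n • Finsupp.single (g, s) (1 : ℤ) := by simp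
    rw [h2, map_zsmul, map_zsmul, map_zsmul, map_zsmul, ← smul_add]
    congr 1
    have h3 := Q.fch_inv 1 (Q.sec (g * Q.gen s))
    rw [one_mul, proj_sec] at h3
    rw [(Q.nf_rho_single g s).d2_eq, d1_single, one_smul, map_sub, sig_single, sig_single,
      fch_mul, fch_mul, fch_of, map_mul, proj_sec, proj_of, one_mul, one_mul, h3]
    simp only [one_smul]
    abel

/-- contracting homotopy in degree zero -/
theorem d1_sig (x : Q.Grp →₀ ℤ) : Q.d1 (Q.sig x) = x - Finsupp.single 1 (aug x) := by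
  induction x using Finsupp.induction_linear with
  | zero => simp
  | add a b ha hb =>
    simp only [map_add, ha, hb, Finsupp.single_add]
    abel
  | single g n =>
    rw [sig_single, map_zsmul, d1_fch, proj_sec, one_mul, smul_sub]
    simp

/-- exactness at `C₁` -/
theorem exact_C1 {c : (Q.Grp × α) →₀ ℤ} (h : Q.d1 c = 0) : ∃ z, Q.d2 z = c := by
  refine ⟨Q.rho c, ?_⟩
  have := Q.d2_rho c
  rwa [h, map_zero, add_zero] at this

/-- exactness at `C₀` -/
theorem exact_C0 {x : Q.Grp →₀ ℤ} (h : aug x = 0) : ∃ c, Q.d1 c = x :=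
  ⟨Q.sig x, by rw [d1_sig, h]; simp⟩

variable {Q}

/-- `rho` is a retraction of `d2` for aspherical presentations -/
theorem Asph.rho_d2 (h : Q.Asph) (z : (Q.Grp × T) →₀ ℤ) : Q.rho (Q.d2 z) = z := by
  apply h
  have := Q.d2_rho (Q.d2 z)
  rwa [d1_d2, map_zero, add_zero] at this

end TriPres

/-! ### Vanishing of Tate cohomology for free permutation modules -/

section Tate

variable {M : Type} [AddCommGroup M]

theorem tate_inv (A P : Module.End ℤ M) (n : ℕ)
    (h : ∑ i ∈ Finset.range n, A ^ (i + 1) * P * A ^ (n - 1 - i) = 1) (x : M) (hx : A x = x) :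
    ∃ y, x = (∑ i ∈ Finset.range n, A ^ i) y := by
  have hk : ∀ k : ℕ, (A ^ k) x = x := by
    intro k
    induction k with
    | zero => simp
    | succ k ih => rw [pow_succ, Module.End.mul_apply, hx, ih]
  refine ⟨A (P x), ?_⟩
  have := congrArg (fun f : Module.End ℤ M => f x) h
  simp only [LinearMap.sum_apply, Module.End.mul_apply, hk, Module.End.one_apply, pow_succ] at this
  rw [LinearMap.sum_apply]
  exact this.symm

theorem tate_norm (A P : Module.End ℤ M) (n : ℕ)
    (h : ∑ i ∈ Finset.range n, A ^ (i + 1) * P * A ^ (n - 1 - i) = 1) (x : M)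
    (hx : (∑ i ∈ Finset.range n, A ^ i) x = 0) : ∃ y, x = A y - y := by
  have hk : ∀ (k : ℕ) (u : M), (A ^ k) u - u ∈ LinearMap.range (A - 1) := by
    intro k u
    refine ⟨(∑ i ∈ Finset.range k, A ^ i) u, ?_⟩
    rw [← Module.End.mul_apply, mul_geom_sum]
    simp
  have h1 := congrArg (fun f : Module.End ℤ M => f x) h
  simp only [LinearMap.sum_apply, Module.End.mul_apply, Module.End.one_apply] at h1
  have h2 : ∑ i ∈ Finset.range n, P ((A ^ (n - 1 - i)) x) = 0 := by
    rw [← map_sum, ← LinearMap.sum_apply, Finset.sum_range_reflect (fun i => A ^ i) n, hx, map_zero]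
  have h3 : x ∈ LinearMap.range (A - 1) := by
    rw [← sub_zero x, ← h2]
    nth_rewrite 1 [← h1]
    rw [← Finset.sum_sub_distrib]
    exact Submodule.sum_mem _ fun i _ => hk _ _
  obtain ⟨y, hy⟩ := h3
  exact ⟨y, by rw [← hy]; simp⟩

theorem exists_transversal_fun {G : Type} [Group G] (g : G) (hg : IsOfFinOrder g) :
    ∃ f : G → ℤ, ∀ h : G, ∑ i ∈ Finset.range (orderOf g), f (g ^ i * h) = 1 := by
  classical
  let S : Setoid G := QuotientGroup.rightRel (Subgroup.zpowers g)
  let rep : G → G := fun h => (Quotient.mk S h).out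
  have hrep : ∀ (i : ℕ) (h : G), rep (g ^ i * h) = rep h := by
    intro i h
    have : Quotient.mk S (g ^ i * h) = Quotient.mk S h := by
      apply Quotient.sound
      change (QuotientGroup.rightRel (Subgroup.zpowers g)) _ _
      rw [QuotientGroup.rightRel_apply]
      have : h * (g ^ i * h)⁻¹ = (g ^ i)⁻¹ := by group
      rw [this]
      exact Subgroup.inv_mem _ (Subgroup.npow_mem_zpowers g i)
    simp only [rep, this]
  refine ⟨fun h => if h = rep h then 1 else 0, fun h => ?_⟩
  have h1 : rep h * h⁻¹ ∈ Subgroup.zpowers g := by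
    have : (QuotientGroup.rightRel (Subgroup.zpowers g)) h (rep h) :=
      S.symm (Quotient.mk_out (s := S) h)
    rwa [QuotientGroup.rightRel_apply] at this
  rw [← hg.mem_powers_iff_mem_zpowers, hg.mem_powers_iff_mem_range_orderOf] at h1
  obtain ⟨k, hk, hk'⟩ := Finset.mem_image.1 h1
  simp only [hrep]
  rw [Finset.sum_eq_single_of_mem k hk]
  · rw [if_pos]
    rw [hk']; simp
  · intro j hj hjk
    rw [if_neg]
    intro e
    apply hjk
    have : g ^ j = g ^ k := by rw [hk', ← e]; simp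
    exact pow_injOn_Iio_orderOf (Finset.mem_range.1 hj) (Finset.mem_range.1 hk) this

theorem exists_tate_proj {G X : Type} [Group G] (g : G) (hg : IsOfFinOrder g) (γ : X → X)
    (p : X → G) (hp : ∀ x, p (γ x) = g * p x) (hγ : ∀ x, γ^[orderOf g] x = x) :
    ∃ P : Module.End ℤ (X →₀ ℤ), ∑ i ∈ Finset.range (orderOf g),
      (Finsupp.lmapDomain ℤ ℤ γ : Module.End ℤ (X →₀ ℤ)) ^ (i + 1) * P *
        (Finsupp.lmapDomain ℤ ℤ γ : Module.End ℤ (X →₀ ℤ)) ^ (orderOf g - 1 - i) = 1 := by
  obtain ⟨f, hf⟩ := exists_transversal_fun g hg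
  have hpow : ∀ (k : ℕ) (x : X) (a : ℤ),
      ((Finsupp.lmapDomain ℤ ℤ γ : Module.End ℤ (X →₀ ℤ)) ^ k) (Finsupp.single x a) =
        Finsupp.single (γ^[k] x) a := by
    intro k
    induction k with
    | zero => intro x a; simp
    | succ k ih =>
      intro x a
      rw [pow_succ, Module.End.mul_apply, Finsupp.lmapDomain_apply, Finsupp.mapDomain_single, ih,
        Function.iterate_succ_apply]
  have hpk : ∀ (k : ℕ) (x : X), p (γ^[k] x) = g ^ k * p x := by
    intro k
    induction k with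
    | zero => intro x; simp
    | succ k ih => intro x; rw [Function.iterate_succ_apply, ih, hp, pow_succ, mul_assoc]
  refine ⟨Finsupp.linearCombination ℤ fun x => Finsupp.single x (f (p x)), ?_⟩
  apply Finsupp.lhom_ext
  intro x a
  rw [LinearMap.sum_apply, Module.End.one_apply]
  have : ∀ i ∈ Finset.range (orderOf g),
      ((Finsupp.lmapDomain ℤ ℤ γ : Module.End ℤ (X →₀ ℤ)) ^ (i + 1) *
        (Finsupp.linearCombination ℤ fun x => Finsupp.single x (f (p x)) :
          Module.End ℤ (X →₀ ℤ)) *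
        (Finsupp.lmapDomain ℤ ℤ γ : Module.End ℤ (X →₀ ℤ)) ^ (orderOf g - 1 - i))
        (Finsupp.single x a) = Finsupp.single x (a * f (g ^ (orderOf g - 1 - i) * p x)) := by
    intro i hi
    have hi' := Finset.mem_range.1 hi
    rw [Module.End.mul_apply, Module.End.mul_apply, hpow, Finsupp.linearCombination_single,
      Finsupp.smul_single, hpow, ← Function.iterate_add_apply, hpk,
      show i + 1 + (orderOf g - 1 - i) = orderOf g by omega, hγ, smul_eq_mul]
  rw [Finset.sum_congr rfl this, ← Finsupp.single_finsetSum, ← Finset.mul_sum,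
    Finset.sum_range_reflect (fun i => f (g ^ i * p x)) (orderOf g), hf, mul_one]

theorem exists_tate_proj_tr {G : Type} [Group G] (Y : Type) (g : G) (hg : IsOfFinOrder g) :
    ∃ P : Module.End ℤ ((G × Y) →₀ ℤ), ∑ i ∈ Finset.range (orderOf g),
      (tr Y g : Module.End ℤ ((G × Y) →₀ ℤ)) ^ (i + 1) * P *
        (tr Y g : Module.End ℤ ((G × Y) →₀ ℤ)) ^ (orderOf g - 1 - i) = 1 := by
  refine exists_tate_proj g hg (fun q : G × Y => (g * q.1, q.2)) Prod.fst (fun _ => rfl) ?_
  have : ∀ (k : ℕ) (q : G × Y), (fun q : G × Y => (g * q.1, q.2))^[k] q = (g ^ k * q.1, q.2) := by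
    intro k
    induction k with
    | zero => intro q; simp
    | succ k ih => intro q; rw [Function.iterate_succ_apply, ih, pow_succ, mul_assoc]
  intro q
  rw [this, pow_orderOf_eq_one, one_mul]

theorem exists_tate_proj_tr0 {G : Type} [Group G] (g : G) (hg : IsOfFinOrder g) :
    ∃ P : Module.End ℤ (G →₀ ℤ), ∑ i ∈ Finset.range (orderOf g),
      (tr0 g : Module.End ℤ (G →₀ ℤ)) ^ (i + 1) * P *
        (tr0 g : Module.End ℤ (G →₀ ℤ)) ^ (orderOf g - 1 - i) = 1 := by
  refine exists_tate_proj g hg (fun q : G => g * q) id (fun _ => rfl) ?_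
  intro q
  rw [mul_left_iterate, pow_orderOf_eq_one]
  exact one_mul q

theorem comm_geom_sum {N : Type} [AddCommGroup N] (A : Module.End ℤ M) (B : Module.End ℤ N)
    (d : M →ₗ[ℤ] N) (h : ∀ x, d (A x) = B (d x)) (n : ℕ) (x : M) :
    d ((∑ i ∈ Finset.range n, A ^ i) x) = (∑ i ∈ Finset.range n, B ^ i) (d x) := by
  have hk : ∀ (k : ℕ) (x : M), d ((A ^ k) x) = (B ^ k) (d x) := by
    intro k
    induction k with
    | zero => intro x; simp
    | succ k ih => intro x; rw [pow_succ, pow_succ, Module.End.mul_apply, Module.End.mul_apply, ih, h]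
  rw [LinearMap.sum_apply, LinearMap.sum_apply, map_sum]
  exact Finset.sum_congr rfl fun i _ => hk i x

end Tate

namespace TriPres

variable {α T : Type} (Q : TriPres α T)

theorem Asph.torsionFree (h : Q.Asph) (g : Q.Grp) (hg : IsOfFinOrder g) : g = 1 := by
  obtain ⟨P2, hP2⟩ := exists_tate_proj_tr T g hg
  obtain ⟨P1, hP1⟩ := exists_tate_proj_tr α g hg
  obtain ⟨P0, hP0⟩ := exists_tate_proj_tr0 g hg
  set n := orderOf g with hn
  set A2 : Module.End ℤ ((Q.Grp × T) →₀ ℤ) := tr T g with hA2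
  set A1 : Module.End ℤ ((Q.Grp × α) →₀ ℤ) := tr α g with hA1
  set A0 : Module.End ℤ (Q.Grp →₀ ℤ) := tr0 g with hA0
  have e2 : ∀ z, Q.d2 (A2 z) = A1 (Q.d2 z) := Q.d2_tr g
  have e1 : ∀ c, Q.d1 (A1 c) = A0 (Q.d1 c) := Q.d1_tr g
  have hA1n : A1 ^ n = 1 := by
    have : ∀ (k : ℕ) (c : (Q.Grp × α) →₀ ℤ), (A1 ^ k) c = tr α (g ^ k) c := by
      intro k
      induction k with
      | zero => intro c; simp [tr_one]
      | succ k ih => intro c; rw [pow_succ, Module.End.mul_apply, ih, hA1, tr_tr, pow_succ]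
    apply LinearMap.ext
    intro c
    rw [this, hn, pow_orderOf_eq_one, tr_one]
    rfl
  have hA0k : ∀ k : ℕ, (A0 ^ k) (Finsupp.single 1 1) = Finsupp.single (g ^ k) 1 := by
    intro k
    induction k with
    | zero => simp
    | succ k ih => rw [pow_succ', Module.End.mul_apply, ih, hA0, tr0_single, pow_succ']
  let x0 : Q.Grp →₀ ℤ := Finsupp.single 1 1
  obtain ⟨c1, hc1⟩ := Q.exact_C0 (x := A0 x0 - x0) (by rw [map_sub, hA0, aug_tr0, sub_self])
  obtain ⟨c2, hc2⟩ := Q.exact_C1 (c := (∑ i ∈ Finset.range n, A1 ^ i) c1) (by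
    rw [comm_geom_sum A1 A0 Q.d1 e1, hc1]
    have : A0 x0 - x0 = (A0 - 1) x0 := by simp
    rw [this, ← Module.End.mul_apply, geom_sum_mul, LinearMap.sub_apply, hA0k, hn,
      pow_orderOf_eq_one]
    simp [x0])
  have hinv2 : A2 c2 = c2 := by
    apply h
    rw [e2, hc2, ← sub_eq_zero]
    have : A1 ((∑ i ∈ Finset.range n, A1 ^ i) c1) - (∑ i ∈ Finset.range n, A1 ^ i) c1 =
        ((A1 - 1) * ∑ i ∈ Finset.range n, A1 ^ i) c1 := by simp
    rw [this, mul_geom_sum, hA1n]
    simp
  obtain ⟨c2', hc2'⟩ := tate_inv A2 P2 n hP2 c2 hinv2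
  obtain ⟨c1', hc1'⟩ := tate_norm A1 P1 n hP1 (c1 - Q.d2 c2') (by
    rw [map_sub, ← comm_geom_sum A2 A1 Q.d2 e2, ← hc2', hc2, sub_self])
  have hinv0 : A0 (x0 - Q.d1 c1') = x0 - Q.d1 c1' := by
    have := congrArg Q.d1 hc1'
    rw [map_sub, map_sub, d1_d2, sub_zero, hc1, e1] at this
    rw [map_sub, sub_eq_sub_iff_sub_eq_sub, this]
  obtain ⟨c0, hc0⟩ := tate_inv A0 P0 n hP0 _ hinv0
  have h1 := congrArg aug hc0
  rw [map_sub, aug_d1, sub_zero, comm_geom_sum A0 1 aug (fun x => aug_tr0 g x)] at h1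
  simp only [x0, aug_single, one_pow, Finset.sum_const, Finset.card_range, nsmul_eq_mul] at h1
  have h2 : (n : ℤ) ∣ 1 := ⟨aug c0, by simpa using h1⟩
  have h3 : n = 1 := by
    have := Int.eq_one_of_dvd_one (by positivity) h2
    exact_mod_cast this
  exact orderOf_eq_one_iff.1 h3

/-- central extension by `ℤ/2` with prescribed twisting of the relations -/
theorem Asph.central_ext [Fintype α] (h : Q.Asph) (ω : T → Bool) :
    ∃ (H : Type) (_ : Group H) (z : H) (f : α → H), Group.FG H ∧ z ≠ 1 ∧ z * z = 1 ∧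
      (∀ x : H, x * z = z * x) ∧
      ∀ t, f (Q.a t) * f (Q.b t) = f (Q.c t) * (if ω t then z else 1) := by
  let Ω : ((Q.Grp × T) →₀ ℤ) →ₗ[ℤ] ZMod 2 :=
    Finsupp.linearCombination ℤ fun p => if ω p.2 then 1 else 0
  have hΩ : ∀ (g : Q.Grp) (z : (Q.Grp × T) →₀ ℤ), Ω (tr T g z) = Ω z := by
    intro g z
    induction z using Finsupp.induction_linear with
    | zero => simp
    | add a b ha hb => simp only [map_add, ha, hb]
    | single p n => rcases p with ⟨k, t⟩; simp [Ω]
  let K : Subgroup (FreeGroup α × Multiplicative (ZMod 2)) :=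
    { carrier := {p | ∃ z, Q.NF p.1 z ∧ p.2 = Multiplicative.ofAdd (Ω z)}
      mul_mem' := by
        rintro p q ⟨z, hz, e⟩ ⟨z', hz', e'⟩
        exact ⟨z + z', hz.mul hz', by rw [Prod.snd_mul, e, e', map_add, ofAdd_add]⟩
      one_mem' := ⟨0, NF.one, by simp⟩
      inv_mem' := by
        rintro p ⟨z, hz, e⟩
        exact ⟨-z, hz.inv, by rw [Prod.snd_inv, e, map_neg, ofAdd_neg]⟩ }
  have hK : K.Normal := ⟨by
    rintro p ⟨z, hz, e⟩ u
    exact ⟨_, hz.conj u.1, by rw [hΩ, ← e]; simp⟩⟩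
  let π : FreeGroup α × Multiplicative (ZMod 2) →* _ := QuotientGroup.mk' K
  refine ⟨(FreeGroup α × Multiplicative (ZMod 2)) ⧸ K, inferInstance,
    π (1, Multiplicative.ofAdd 1), fun s => π (FreeGroup.of s, 1), inferInstance, ?_, ?_, ?_, ?_⟩
  · intro e
    obtain ⟨z, hz, e'⟩ := (QuotientGroup.eq_one_iff _).1 e
    have h1 : z = 0 := h (by rw [hz.d2_eq, map_zero]; rfl)
    rw [h1, map_zero] at e'
    have e'' : (Multiplicative.ofAdd 1 : Multiplicative (ZMod 2)) = Multiplicative.ofAdd 0 := e'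
    exact absurd e'' (by decide)
  · rw [← map_mul]
    have : ((1, Multiplicative.ofAdd 1) * (1, Multiplicative.ofAdd 1) :
        FreeGroup α × Multiplicative (ZMod 2)) = 1 := by
      refine Prod.ext (by simp) ?_
      change (Multiplicative.ofAdd 1 * Multiplicative.ofAdd 1 : Multiplicative (ZMod 2)) = 1
      decide
    rw [this, map_one]
  · intro x
    obtain ⟨p, rfl⟩ := QuotientGroup.mk'_surjective K x
    change π p * π _ = π _ * π p
    rw [← map_mul, ← map_mul]
    congr 1
    ext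
    · simp
    · simp [mul_comm]
  · intro t
    have h1 : (if ω t then π (1, Multiplicative.ofAdd 1) else 1) =
        π (1, Multiplicative.ofAdd (if ω t then 1 else 0)) := by
      split_ifs
      · rfl
      · exact (map_one π).symm
    rw [h1, ← map_mul, ← map_mul]
    apply QuotientGroup.eq_iff_div_mem.2
    refine ⟨Finsupp.single (1, t) 1, ?_, ?_⟩
    · have := NF.rel (Q := Q) t
      simpa [div_eq_mul_inv] using this
    · simp only [Ω, Finsupp.linearCombination_single, one_smul]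
      change (1 * 1 / (1 * Multiplicative.ofAdd (if ω t then 1 else 0)) :
        Multiplicative (ZMod 2)) = Multiplicative.ofAdd (if ω t then 1 else 0)
      cases ω t <;> decide

end TriPres

/-- group algebras of residually finite groups over fields are directly finite -/
theorem directlyFinite_of_residuallyFinite {K G : Type} [Field K] [Group G]
    [Group.ResiduallyFinite G] (a b : MonoidAlgebra K G) (h : a * b = 1) : b * a = 1 := by
  classical
  have hsep : ∀ S : Finset G, ∃ N : FiniteIndexNormalSubgroup G, ∀ x ∈ S, x ≠ 1 → x ∉ N := by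
    intro S
    induction S using Finset.induction_on with
    | empty => exact ⟨.ofSubgroup ⊤, by simp⟩
    | insert a S _ ih =>
      obtain ⟨N, hN⟩ := ih
      by_cases ha : a = 1
      · refine ⟨N, fun x hx hx1 => ?_⟩
        rcases Finset.mem_insert.1 hx with rfl | hx
        · exact absurd ha hx1
        · exact hN x hx hx1
      · obtain ⟨N', hN'⟩ := Group.exists_finiteIndexNormalSubgroup_notMem a ha
        refine ⟨N ⊓ N', fun x hx hx1 hmem => ?_⟩
        rcases Finset.mem_insert.1 hx with rfl | hx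
        · exact hN' ((inf_le_right : N ⊓ N' ≤ N') hmem)
        · exact hN x hx hx1 ((inf_le_left : N ⊓ N' ≤ N) hmem)
  let S : Finset G := (b * a - 1).coeff.support
  obtain ⟨N, hN⟩ := hsep (Finset.image₂ (fun x y => x⁻¹ * y) S S)
  let π : G →* G ⧸ N.toSubgroup := QuotientGroup.mk' N.toSubgroup
  have hinj : Set.InjOn π (S : Set G) := by
    intro x hx y hy e
    by_contra hne
    refine hN (x⁻¹ * y) (Finset.mem_image₂_of_mem hx hy) (fun e' => hne ?_) ?_
    · exact eq_of_inv_mul_eq_one e'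
    · exact QuotientGroup.eq.1 e
  let φ := MonoidAlgebra.mapDomainRingHom K π
  have h1 : φ a * φ b = 1 := by rw [← map_mul, h, map_one]
  have : IsArtinianRing (MonoidAlgebra K (G ⧸ N.toSubgroup)) := IsArtinianRing.of_finite K _
  have h2 : φ b * φ a = 1 := mul_eq_one_comm.1 h1
  have h3 : φ (b * a - 1) = 0 := by rw [map_sub, map_mul, h2, map_one, sub_self]
  have h4 : Finsupp.mapDomain π (b * a - 1).coeff = Finsupp.mapDomain π 0 := by
    rw [Finsupp.mapDomain_zero]
    exact congrArg MonoidAlgebra.coeff h3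
  have h5 : (b * a - 1).coeff = 0 :=
    Finsupp.mapDomain_injOn (S : Set G) hinj (by simp [S]) (by simp) h4
  rw [MonoidAlgebra.coeff_eq_zero, sub_eq_zero] at h5
  exact h5

end Crest.Agent.R177
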