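import Crest.Agent.R177.ChainsAux4

/-! Small maps over a graph of large girth have bounded complexity (task CHAINS). -/

set_option autoImplicit false

namespace Crest.Agent.R177

open BGraph

/-- A vertex of the graph is good for the map if every fan passing through it passes through it
in its interior and always along the same two edges. -/
def GoodV {P U W T : Type} {Γ : BGraph P U W T} (M : RMap Γ.pres) (x : U ⊕ W) : Prop :=
  (∀ i, Γ.tgt (M.ty i) = x → M.ε (i, 2) ≠ (i, 2)) ∧
  (∀ i, Γ.src (M.ty i) = x → M.ε (i, 0) ≠ (i, 0)) ∧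
  ∃ h h' : T, ∀ i, (Γ.src (M.ty i) = x ∨ Γ.tgt (M.ty i) = x) → (M.ty i).1 = h ∨ (M.ty i).1 = h'

open Classical in
theorem few_bad (K : ℕ) : ∃ B : ℕ, ∀ {P U W T : Type} (Γ : BGraph P U W T) (g : ℕ), 2 ≤ g →
    Γ.Girth g → ∀ M : RMap Γ.pres, M.area ≤ K * g → nArcs M ≤ K →
    (∀ t : T, (Finset.univ.filter fun i : M.I => (M.ty i).1 = t).card ≤ B) ∧
    (Finset.univ.filter fun i : M.I =>
      ¬ GoodV M (Γ.src (M.ty i)) ∨ ¬ GoodV M (Γ.tgt (M.ty i))).card ≤ B := by
  refine ⟨7 * K + (7 * K + 7 * K + 7 * K * (7 * K) + 7 * K * (7 * K)) * (7 * K + 7 * K), ?_⟩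
  intro P U W T Γ g hg2 hg M ha hK
  rcases isEmpty_or_nonempty M.I with hem | ⟨⟨i₀⟩⟩
  · simp
  obtain ⟨len, c, r, h, hlen⟩ := exists_chains hg2 hg M ha hK
  obtain ⟨X, E, hW, hE⟩ := h.exists_walks i₀
  generalize 7 * K = N at *
  have hlen2 : ∀ a a', len a + len a' ≤ g := fun a a' => by
    have := hlen a; have := hlen a'; omega
  have hlen1 : ∀ a, len a ≤ g := fun a => by have := hlen a; omega
  have htgt : ∀ i, Γ.tgt (M.ty i) = X (c i) (r i) := fun i => by
    simpa [endpt] using h.endpt_eq hW hE i false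
  have hsrc : ∀ i, Γ.src (M.ty i) = X (c i) (r i + 1) := fun i => by
    simpa [endpt] using h.endpt_eq hW hE i true
  have hinj : ∀ i j k l, c i = c j → k ≤ len (c i) → l ≤ len (c j) → X (c i) k = X (c j) l →
      k = l := fun i j k l hij hk hl hx => by
    rw [← hij] at hl hx
    exact (hW (c i)).inj hg (hlen1 _) hk hl hx
  have hcard : ∀ S : Finset M.I, (∀ i ∈ S, ∀ j ∈ S, c i = c j → r i = r j) → S.card ≤ N := by
    intro S hS
    have : S.card ≤ (Finset.univ : Finset (Fin N)).card :=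
      Finset.card_le_card_of_injOn c (fun _ _ => Finset.mem_univ _)
        (fun i hi j hj hij => h.inj i j hij (hS i hi j hj hij))
    simpa using this
  refine ⟨fun t => le_trans (hcard _ ?_) (Nat.le_add_right _ _), le_trans ?_ (Nat.le_add_left _ _)⟩
  · intro i hi j hj hij
    simp only [Finset.mem_filter, Finset.mem_univ, true_and] at hi hj
    have hi' := h.lt i
    have hj' := h.lt j
    by_cases hs : (M.ty i).2 = (M.ty j).2
    · have : M.ty i = M.ty j := Prod.ext (hi.trans hj.symm) hs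
      exact hinj i j _ _ hij hi'.le hj'.le (by rw [← htgt, ← htgt, this])
    · have : M.ty j = crev (M.ty i) := by
        refine Prod.ext (hj.trans hi.symm) ?_
        simp only [crev]
        revert hs
        cases (M.ty i).2 <;> cases (M.ty j).2 <;> simp
      have h1 := hinj i j _ _ hij hi' hj'.le (by rw [← hsrc, ← htgt, this, tgt_crev])
      have h2 := hinj i j _ _ hij hi'.le hj' (by rw [← hsrc, ← htgt, this, src_crev])
      omega
  let S1 : Finset (U ⊕ W) := Finset.univ.image fun a => X a 0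
  let S2 : Finset (U ⊕ W) := Finset.univ.image fun a => X a (len a)
  let S3 : Finset (U ⊕ W) := Finset.univ.image fun p : Fin N × Fin N =>
    X p.1 (sInf (ovl (X p.1) (X p.2) (len p.1) (len p.2)))
  let S4 : Finset (U ⊕ W) := Finset.univ.image fun p : Fin N × Fin N =>
    X p.1 (sSup (ovl (X p.1) (X p.2) (len p.1) (len p.2)))
  have hSV : (S1 ∪ S2 ∪ S3 ∪ S4).card ≤ N + N + N * N + N * N := by
    have h1 : S1.card ≤ N := Finset.card_image_le.trans (by simp)
    have h2 : S2.card ≤ N := Finset.card_image_le.trans (by simp)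
    have h3 : S3.card ≤ N * N := Finset.card_image_le.trans (by simp)
    have h4 : S4.card ≤ N * N := Finset.card_image_le.trans (by simp)
    have h5 := Finset.card_union_le S1 S2
    have h6 := Finset.card_union_le (S1 ∪ S2) S3
    have h7 := Finset.card_union_le (S1 ∪ S2 ∪ S3) S4
    omega
  have hgood : ∀ a k, k ≤ len a → X a k ∉ S1 ∪ S2 ∪ S3 ∪ S4 → GoodV M (X a k) := by
    intro a k hk hn
    simp only [Finset.mem_union, not_or, S1, S2, S3, S4, Finset.mem_image, Finset.mem_univ,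
      true_and, not_exists] at hn
    obtain ⟨⟨⟨h1, h2⟩, h3⟩, h4⟩ := hn
    refine ⟨fun i hi => ?_, fun i hi => ?_, (E a k).1, (E a (k - 1)).1, fun i hi => ?_⟩
    · have h5 : r i ≠ 0 := fun h0 => h1 (c i) (by rw [← hi, htgt, h0])
      obtain ⟨j, -, -, hj⟩ := h.exists_nxt i (Nat.pos_of_ne_zero h5)
      rw [hj]; simp
    · have h5 : r i + 1 ≠ len (c i) := fun h0 => h2 (c i) (by rw [← hi, hsrc, h0])
      obtain ⟨j, hj1, hj2⟩ := h.surj (c i) (r i + 1) (by have := h.lt i; omega)
      have h6 := h.nxt j i hj1.symm hj2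
      have h7 : M.ε (i, 0) = (j, 2) := by rw [← h6, M.invol]
      rw [h7]; simp
    · have hlo : k ≠ sInf (ovl (X a) (X (c i)) (len a) (len (c i))) := fun h0 =>
        h3 (a, c i) (by rw [← h0])
      have hhi : k ≠ sSup (ovl (X a) (X (c i)) (len a) (len (c i))) := fun h0 =>
        h4 (a, c i) (by rw [← h0])
      have h5 : (M.ty i).1 = (E (c i) (r i)).1 := by rw [hE, crev_fst]
      rw [h5]
      rcases hi with hi | hi
      · exact (hW a).inner_edges hg (hW (c i)) (hlen2 _ _) hk (h.lt i)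
          (by rw [← hi, hsrc]) hlo hhi (Or.inr rfl)
      · exact (hW a).inner_edges hg (hW (c i)) (hlen2 _ _) hk (h.lt i).le
          (by rw [← hi, htgt]) hlo hhi (Or.inl rfl)
  calc _ ≤ ((S1 ∪ S2 ∪ S3 ∪ S4).biUnion fun x =>
        (Finset.univ.filter fun i : M.I => Γ.src (M.ty i) = x) ∪
          (Finset.univ.filter fun i : M.I => Γ.tgt (M.ty i) = x)).card := by
        apply Finset.card_le_card
        intro i hi
        simp only [Finset.mem_filter, Finset.mem_univ, true_and] at hi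
        rw [Finset.mem_biUnion]
        rcases hi with hi | hi
        · refine ⟨Γ.src (M.ty i), ?_, by simp⟩
          by_contra h1
          rw [hsrc] at h1 hi
          exact hi (hgood _ _ (h.lt i) h1)
        · refine ⟨Γ.tgt (M.ty i), ?_, by simp⟩
          by_contra h1
          rw [htgt] at h1 hi
          exact hi (hgood _ _ (h.lt i).le h1)
    _ ≤ (S1 ∪ S2 ∪ S3 ∪ S4).card * (N + N) := by
        apply Finset.card_biUnion_le_card_mul
        intro x _
        refine (Finset.card_union_le _ _).trans (Nat.add_le_add (hcard _ ?_) (hcard _ ?_))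
        · intro i hi j hj hij
          simp only [Finset.mem_filter, Finset.mem_univ, true_and] at hi hj
          have := hinj i j _ _ hij (h.lt i) (h.lt j) (by rw [← hsrc, ← hsrc, hi, hj])
          omega
        · intro i hi j hj hij
          simp only [Finset.mem_filter, Finset.mem_univ, true_and] at hi hj
          exact hinj i j _ _ hij (h.lt i).le (h.lt j).le (by rw [← htgt, ← htgt, hi, hj])
    _ ≤ _ := Nat.mul_le_mul_right _ hSV

/-- Up to the data used by the first-moment bound there are only polynomially many (in `g`) small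
maps. -/
theorem skeleton_count (K : ℕ) (J : Type) [Fintype J] : ∃ B : ℕ, ∀ (g : ℕ), 2 ≤ g →
    ∀ {P U W T : Type} (c₀ : U) (ιU : U → J) (ιW : W → J),
    ∃ (Sk : Type) (_ : Fintype Sk), Fintype.card Sk ≤ (g + 2) ^ B ∧
      ∃ sk : (Γ : BGraph P U W T) → RMap Γ.pres → Sk,
      ∀ (Γ Γ' : BGraph P U W T) (M : RMap Γ.pres) (M' : RMap Γ'.pres),
        Γ.Girth g → Γ'.Girth g → (∀ t, ιW (Γ.w t) = ιU (Γ.u t)) → (∀ t, ιW (Γ'.w t) = ιU (Γ'.u t)) →
        M.area ≤ K * g → nArcs M ≤ K → nIrr M ≤ K →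
        M'.area ≤ K * g → nArcs M' ≤ K → nIrr M' ≤ K →
        sk Γ M = sk Γ' M' →
        ∃ θ : M.I → M'.I,
          (∀ i i', Γ.u (M.ty i).1 = Γ.u (M.ty i').1 ↔
            Γ'.u (M'.ty (θ i)).1 = Γ'.u (M'.ty (θ i')).1) ∧
          (∀ i i', Γ.w (M.ty i).1 = Γ.w (M.ty i').1 ↔
            Γ'.w (M'.ty (θ i)).1 = Γ'.w (M'.ty (θ i')).1) ∧
          (∀ i i', M.ε (i, 1) = (i', 1) →
            Γ'.lab (M'.ty (θ i)).1 = Γ'.lab (M'.ty (θ i')).1) ∧
          (∀ i, Γ.u (M.ty i).1 = c₀ → Γ'.u (M'.ty (θ i)).1 = c₀) ∧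
          (∀ i, ιU (Γ'.u (M'.ty (θ i)).1) = ιU (Γ.u (M.ty i).1)) := by
  classical
  obtain ⟨B, hB⟩ := skCode_card (7 * K) (15 * K) J
  refine ⟨B, fun g hg2 P U W T c₀ ιU ιW => ⟨Option (SkCode (7 * K) (15 * K) J g), inferInstance,
    by convert hB g, fun Γ M =>
      if h : ∃ s : SkCode (7 * K) (15 * K) J g, ∃ c r, Describes c₀ ιU s M c r then some h.choose
      else none, ?_⟩⟩
  intro Γ Γ' M M' hg hg' hι hι' ha hK hI ha' hK' hI' hsk
  rcases isEmpty_or_nonempty M.I with hem | ⟨⟨i₀⟩⟩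
  · exact ⟨isEmptyElim, isEmptyElim, isEmptyElim, isEmptyElim, isEmptyElim, isEmptyElim⟩
  have h1 := exists_describes hg2 hg c₀ hι M ha hK hI i₀
  simp only [dif_pos h1] at hsk
  split_ifs at hsk with h2
  obtain ⟨c, r, h3⟩ := h1.choose_spec
  obtain ⟨c', r', h4⟩ := h2.choose_spec
  rw [← Option.some.inj hsk] at h4
  exact h3.exists_theta h4

end Crest.Agent.R177
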