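import Crest.Agent.R177.Defs

/-! Auxiliary material for the task CHAINS: cutting a partial injection into short chains, and
non-backtracking walks in graphs of large girth. -/

set_option autoImplicit false

namespace Crest.Agent.R177

open Function

/-! ## Cutting a partial injection into short chains -/

section Decomp

variable {I : Type} (f : I → I)

theorem chains_iter_fixed {i : I} (h : f i = i) (n : ℕ) : f^[n] i = i :=
  Function.iterate_fixed h n

/-- a periodic point whose orbit contains a fixed point is fixed -/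
theorem chains_periodic_fixed {i : I} {n k : ℕ} (hn : 0 < n) (hp : f^[n] i = i)
    (hk : f (f^[k] i) = f^[k] i) : f i = i := by
  have h1 : f^[n * k] i = i := by
    have : IsPeriodicPt f n i := hp
    exact this.mul_const k
  have h2 : f^[n * k] i = f^[k] i := by
    obtain ⟨m, hm⟩ : ∃ m, n * k = m + k := ⟨n * k - k, by
      have : k ≤ n * k := Nat.le_mul_of_pos_left k hn
      omega⟩
    rw [hm, Function.iterate_add_apply]
    exact chains_iter_fixed f hk m
  have h3 : f^[k] i = i := h2.symm.trans h1
  rw [h3] at hk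
  exact hk

theorem chains_exists_base [Finite I] (ord : I → ℕ) (i : I) :
    ∃ n, (∃ m, 0 < m ∧ f^[m] (f^[n] i) = f^[n] i) ∧ ∀ m, ord (f^[n] i) ≤ ord (f^[m] (f^[n] i)) := by
  classical
  obtain ⟨a, b, hab, h⟩ : ∃ a b : ℕ, a < b ∧ f^[a] i = f^[b] i := by
    obtain ⟨a, b, hne, h⟩ := Finite.exists_ne_map_eq_of_infinite (fun n : ℕ => f^[n] i)
    rcases lt_or_gt_of_ne hne with h1 | h1
    · exact ⟨a, b, h1, h⟩
    · exact ⟨b, a, h1, h.symm⟩
  have hper : f^[b - a] (f^[a] i) = f^[a] i := by
    rw [← Function.iterate_add_apply, Nat.sub_add_cancel hab.le, h]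
  have hex : ∃ v, ∃ m, ord (f^[m] (f^[a] i)) = v := ⟨_, 0, rfl⟩
  obtain ⟨m, hm⟩ := Nat.find_spec hex
  refine ⟨m + a, ⟨b - a, by omega, ?_⟩, fun k => ?_⟩
  · rw [Function.iterate_add_apply f m a]
    have : IsPeriodicPt f (b - a) (f^[a] i) := hper
    exact this.apply_iterate m
  · rw [Function.iterate_add_apply f m a, hm, ← Function.iterate_add_apply]
    exact Nat.find_min' hex ⟨k + m, rfl⟩

theorem chains_decomp [Fintype I] [DecidableEq I] (s : ℕ) (hs : 0 < s)
    (hinj : ∀ i j, f i ≠ i → f j ≠ j → f i = f j → i = j)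
    (hcyc : ∀ i n, f i ≠ i → 0 < n → n < s → f^[n] i ≠ i) :
    ∃ (C : Finset I) (e : I → I) (r : I → ℕ),
      C.card * s ≤ (Finset.univ.filter fun i => f i = i).card * s + 2 * Fintype.card I ∧
      (∀ i, e i ∈ C) ∧ (∀ i, r i < s) ∧ (∀ i j, e i = e j → r i = r j → i = j) ∧
      (∀ i, 0 < r i → f i ≠ i ∧ e (f i) = e i ∧ r (f i) + 1 = r i) := by
  classical
  let ord : I → ℕ := fun i => (Fintype.equivFin I i : ℕ)
  have ord_inj : ∀ i j, ord i = ord j → i = j := fun i j h =>
    (Fintype.equivFin I).injective (Fin.ext h)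
  let Bs : I → Prop := fun i => (∃ m, 0 < m ∧ f^[m] i = i) ∧ ∀ m, ord i ≤ ord (f^[m] i)
  have hex : ∀ i, ∃ n, Bs (f^[n] i) := fun i => chains_exists_base f ord i
  let d : I → ℕ := fun i => Nat.find (hex i)
  have hd0 : ∀ i, d i = 0 ↔ Bs i := fun i => by
    simp only [d, Nat.find_eq_zero, Function.iterate_zero, id]
  have hfix : ∀ i, f i = i → Bs i := fun i h =>
    ⟨⟨1, one_pos, h⟩, fun m => by rw [chains_iter_fixed f h]⟩
  have hdS : ∀ i, 0 < d i → d (f i) + 1 = d i := by
    intro i hi
    have hnb : ¬ Bs i := fun h => by rw [(hd0 i).2 h] at hi; exact lt_irrefl _ hi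
    apply le_antisymm
    · have h1 : Bs (f^[d i] i) := Nat.find_spec (hex i)
      obtain ⟨k, hk⟩ : ∃ k, d i = k + 1 := ⟨d i - 1, by omega⟩
      rw [hk, Function.iterate_succ_apply] at h1
      have : d (f i) ≤ k := Nat.find_min' (hex (f i)) h1
      omega
    · have h1 : Bs (f^[d (f i)] (f i)) := Nat.find_spec (hex (f i))
      rw [← Function.iterate_succ_apply] at h1
      exact Nat.find_min' (hex i) h1
  have hdne : ∀ i, 0 < d i → f i ≠ i := fun i hi h => by
    rw [(hd0 i).2 (hfix i h)] at hi; exact lt_irrefl _ hi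
  have hdit : ∀ k i, k ≤ d i → d (f^[k] i) + k = d i := by
    intro k
    induction k with
    | zero => intro i _; simp
    | succ k ih =>
      intro i hk
      have h1 := hdS i (by omega)
      have h2 := ih (f i) (by omega)
      rw [Function.iterate_succ_apply]; omega
  have hitinj : ∀ k i j, k ≤ d i → k ≤ d j → f^[k] i = f^[k] j → i = j := by
    intro k
    induction k with
    | zero => intro i j _ _ h; simpa using h
    | succ k ih =>
      intro i j hi hj h
      rw [Function.iterate_succ_apply, Function.iterate_succ_apply] at h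
      have h1 := hdS i (by omega)
      have h2 := hdS j (by omega)
      exact hinj i j (hdne i (by omega)) (hdne j (by omega))
        (ih (f i) (f j) (by omega) (by omega) h)
  refine ⟨Finset.univ.filter fun x => d x % s = 0, fun i => f^[d i % s] i, fun i => d i % s,
    ?_, ?_, ?_, ?_, ?_⟩
  · -- counting
    let C1 : Finset I := Finset.univ.filter fun i => f i = i
    let C2 : Finset I := Finset.univ.filter fun i => f i ≠ i ∧ Bs i
    let C3 : Finset I := Finset.univ.filter fun i => 0 < d i ∧ d i % s = 0
    have hsub : (Finset.univ.filter fun x => d x % s = 0) ⊆ C1 ∪ C2 ∪ C3 := by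
      intro x hx
      simp only [Finset.mem_filter, Finset.mem_univ, true_and, Finset.mem_union, C1, C2, C3] at hx ⊢
      by_cases h0 : d x = 0
      · by_cases h1 : f x = x
        · exact Or.inl (Or.inl h1)
        · exact Or.inl (Or.inr ⟨h1, (hd0 x).1 h0⟩)
      · exact Or.inr ⟨Nat.pos_of_ne_zero h0, hx⟩
    have h2 : C2.card * s ≤ Fintype.card I := by
      have : (C2 ×ˢ Finset.range s).card ≤ (Finset.univ : Finset I).card := by
        apply Finset.card_le_card_of_injOn (fun p => f^[p.2] p.1) (fun _ _ => Finset.mem_univ _)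
        rintro ⟨x, k⟩ hx ⟨y, l⟩ hy h
        simp only [Finset.coe_product, Set.mem_prod, Finset.mem_coe, Finset.mem_filter,
          Finset.mem_univ, true_and, Finset.mem_range, C2] at hx hy h
        obtain ⟨⟨hxf, ⟨m, hm, hmx⟩, hxo⟩, hk⟩ := hx
        obtain ⟨⟨hyf, ⟨n, hn, hny⟩, hyo⟩, hl⟩ := hy
        have key : ∀ (x y : I) (k l n : ℕ), 0 < n → f^[n] y = y → f^[k] x = f^[l] y →
            ∃ t, f^[t] x = y := by
          intro x y k l n hn hny h
          have h1 : f^[n * l] y = y := (show IsPeriodicPt f n y from hny).mul_const l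
          have h2 : l ≤ n * l := Nat.le_mul_of_pos_left l hn
          refine ⟨(n * l - l) + k, ?_⟩
          rw [Function.iterate_add_apply, h, ← Function.iterate_add_apply, Nat.sub_add_cancel h2, h1]
        obtain ⟨t, ht⟩ := key x y k l n hn hny h
        obtain ⟨t', ht'⟩ := key y x l k m hm hmx h.symm
        have hxy : x = y := by
          apply ord_inj
          apply le_antisymm
          · have := hxo t; rwa [ht] at this
          · have := hyo t'; rwa [ht'] at this
        subst hxy
        have key2 : ∀ k l : ℕ, k < l → l < s → f^[k] x ≠ f^[l] x := by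
          intro k l hkl hl h
          have hne : f (f^[k] x) ≠ f^[k] x := fun h' => hxf (chains_periodic_fixed f hm hmx h')
          apply hcyc (f^[k] x) (l - k) hne (by omega) (by omega)
          rw [← Function.iterate_add_apply, Nat.sub_add_cancel hkl.le, h]
        rcases lt_trichotomy k l with h1 | h1 | h1
        · exact absurd h (key2 k l h1 hl)
        · rw [h1]
        · exact absurd h.symm (key2 l k h1 hk)
      rwa [Finset.card_product, Finset.card_range, Finset.card_univ] at this
    have h3 : C3.card * s ≤ Fintype.card I := by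
      have : (C3 ×ˢ Finset.range s).card ≤ (Finset.univ : Finset I).card := by
        apply Finset.card_le_card_of_injOn (fun p => f^[p.2] p.1) (fun _ _ => Finset.mem_univ _)
        rintro ⟨x, k⟩ hx ⟨y, l⟩ hy h
        simp only [Finset.coe_product, Set.mem_prod, Finset.mem_coe, Finset.mem_filter,
          Finset.mem_univ, true_and, Finset.mem_range, C3] at hx hy h
        obtain ⟨⟨hx0, hxs⟩, hk⟩ := hx
        obtain ⟨⟨hy0, hys⟩, hl⟩ := hy
        have hxs' : s ≤ d x := Nat.le_of_dvd hx0 (Nat.dvd_of_mod_eq_zero hxs)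
        have hys' : s ≤ d y := Nat.le_of_dvd hy0 (Nat.dvd_of_mod_eq_zero hys)
        have e1 := hdit k x (by omega)
        have e2 := hdit l y (by omega)
        rw [h] at e1
        obtain ⟨a, ha⟩ := Nat.dvd_of_mod_eq_zero hxs
        obtain ⟨b, hb⟩ := Nat.dvd_of_mod_eq_zero hys
        have hab : a = b := by
          rcases lt_trichotomy a b with h1 | h1 | h1
          · have : s * (a + 1) ≤ s * b := Nat.mul_le_mul_left s h1
            rw [Nat.mul_succ] at this; omega
          · exact h1
          · have : s * (b + 1) ≤ s * a := Nat.mul_le_mul_left s h1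
            rw [Nat.mul_succ] at this; omega
        subst hab
        have hkl : k = l := by omega
        subst hkl
        rw [hitinj k x y (by omega) (by omega) h]
      rwa [Finset.card_product, Finset.card_range, Finset.card_univ] at this
    have h4 := Finset.card_le_card hsub
    have h5 : (C1 ∪ C2 ∪ C3).card ≤ C1.card + C2.card + C3.card :=
      (Finset.card_union_le _ _).trans (Nat.add_le_add_right (Finset.card_union_le _ _) _)
    calc _ ≤ (C1.card + C2.card + C3.card) * s := Nat.mul_le_mul_right s (h4.trans h5)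
      _ = C1.card * s + C2.card * s + C3.card * s := by ring
      _ ≤ _ := by simp only [C1]; omega
  · intro i
    simp only [Finset.mem_filter, Finset.mem_univ, true_and]
    have h1 := hdit (d i % s) i (Nat.mod_le _ _)
    have h2 := Nat.div_add_mod (d i) s
    have h3 : d (f^[d i % s] i) = s * (d i / s) := by omega
    rw [h3]; simp
  · intro i; exact Nat.mod_lt _ hs
  · intro i j he hr
    simp only at he hr
    rw [← hr] at he
    exact hitinj _ i j (Nat.mod_le _ _) (hr ▸ Nat.mod_le _ _) he
  · intro i hi
    simp only at hi ⊢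
    have hd : 0 < d i := lt_of_lt_of_le hi (Nat.mod_le _ _)
    have h1 := hdS i hd
    have h2 : d (f i) % s + 1 = d i % s := by
      rw [← h1] at hi ⊢
      have h3 := Nat.mod_lt (d (f i)) hs
      rcases Nat.lt_or_ge (d (f i) % s + 1) s with h4 | h4
      · rw [Nat.add_mod, Nat.mod_eq_of_lt (show 1 < s by omega), Nat.mod_eq_of_lt h4]
      · exfalso
        have h5 : d (f i) % s + 1 = s := by omega
        have h6 : (d (f i) + 1) % s = 0 := by
          have := Nat.div_add_mod (d (f i)) s
          have h7 : d (f i) + 1 = s * (d (f i) / s + 1) := by rw [Nat.mul_succ]; omega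
          rw [h7]; simp
        omega
    refine ⟨hdne i hd, ?_, h2⟩
    rw [← h2, Function.iterate_succ_apply]

end Decomp

/-! ## Non-backtracking walks as functions -/

namespace BGraph

variable {P U W T : Type} (Γ : BGraph P U W T)

/-- the reversed oriented edge -/
def crev (e : T × Bool) : T × Bool := (e.1, !e.2)

@[simp] theorem crev_crev (e : T × Bool) : crev (crev e) = e := by simp [crev]
@[simp] theorem crev_fst (e : T × Bool) : (crev e).1 = e.1 := rfl
@[simp] theorem src_crev (e : T × Bool) : Γ.src (crev e) = Γ.tgt e := by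
  obtain ⟨t, b⟩ := e; cases b <;> rfl
@[simp] theorem tgt_crev (e : T × Bool) : Γ.tgt (crev e) = Γ.src e := by
  obtain ⟨t, b⟩ := e; cases b <;> rfl

/-- a non-backtracking walk with `n` edges `e 0, …` through the vertices `x 0, …, x n` -/
structure NBW (x : ℕ → U ⊕ W) (e : ℕ → T × Bool) (n : ℕ) : Prop where
  hs : ∀ k, k < n → Γ.src (e k) = x k
  ht : ∀ k, k < n → Γ.tgt (e k) = x (k + 1)
  nb : ∀ k, k + 1 < n → e (k + 1) ≠ crev (e k)

variable {Γ}

theorem NBW.shift {x : ℕ → U ⊕ W} {e : ℕ → T × Bool} {n : ℕ} (h : Γ.NBW x e n) (a m : ℕ)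
    (ham : a + m ≤ n) : Γ.NBW (fun k => x (a + k)) (fun k => e (a + k)) m :=
  ⟨fun k hk => h.hs _ (by omega), fun k hk => h.ht _ (by omega),
    fun k hk => h.nb (a + k) (by omega)⟩

theorem NBW.rev {x : ℕ → U ⊕ W} {e : ℕ → T × Bool} {n : ℕ} (h : Γ.NBW x e n) (a m : ℕ)
    (ha : a ≤ n) (hm : m ≤ a) :
    Γ.NBW (fun k => x (a - k)) (fun k => crev (e (a - k - 1))) m := by
  refine ⟨fun k hk => ?_, fun k hk => ?_, fun k hk => ?_⟩
  · rw [src_crev, h.ht _ (by omega)]; congr 1; omega
  · rw [tgt_crev, h.hs _ (by omega)]; congr 1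
  · intro h1
    rw [crev_crev] at h1
    have h2 := h.nb (a - (k + 1) - 1) (by omega)
    apply h2
    rw [h1]; congr 1; omega

theorem NBW.ne_of_girth {g : ℕ} (hg : Γ.Girth g) {x : ℕ → U ⊕ W} {e : ℕ → T × Bool} {n : ℕ}
    (h : Γ.NBW x e n) (hn : 0 < n) (hng : n ≤ g) : x 0 ≠ x n := by
  intro hx
  obtain ⟨m, rfl⟩ : ∃ m, n = m + 1 := ⟨n - 1, by omega⟩
  have hl : e 0 :: (List.range m).map (fun k => e (k + 1)) = (List.range (m + 1)).map e := by
    rw [List.range_succ_eq_map, List.map_cons, List.map_map]; rfl
  have := hg (e 0) ((List.range m).map fun k => e (k + 1)) ?_ ?_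
  · simp only [List.length_map, List.length_range] at this; omega
  · rw [hl, List.isChain_map, List.isChain_range_succ]
    intro k hk
    exact ⟨by rw [h.ht k (by omega), h.hs (k + 1) (by omega)], h.nb k (by omega)⟩
  · have : (e 0 :: (List.range m).map (fun k => e (k + 1))).getLast (List.cons_ne_nil _ _) = e m := by
      simp only [hl]
      rw [List.getLast_map]
      simp [List.getLast_range]
    rw [this, h.ht m (by omega), h.hs 0 (by omega), hx]

theorem NBW.inj {g : ℕ} (hg : Γ.Girth g) {x : ℕ → U ⊕ W} {e : ℕ → T × Bool} {n : ℕ}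
    (h : Γ.NBW x e n) (hng : n ≤ g) {k l : ℕ} (hk : k ≤ n) (hl : l ≤ n) (hx : x k = x l) :
    k = l := by
  have key : ∀ k l, k < l → l ≤ n → x k ≠ x l := by
    intro k l hkl hl
    have := (h.shift k (l - k) (by omega)).ne_of_girth hg (by omega) (by omega)
    simpa [Nat.add_sub_cancel' hkl.le] using this
  rcases lt_trichotomy k l with h1 | h1 | h1
  · exact absurd hx (key k l h1 hl)
  · exact h1
  · exact absurd hx.symm (key l k h1 hk)

theorem NBW.unique {g : ℕ} (hg : Γ.Girth g) :
    ∀ (n m : ℕ) (x y : ℕ → U ⊕ W) (e f : ℕ → T × Bool), Γ.NBW x e n → Γ.NBW y f m →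
      x 0 = y 0 → x n = y m → n + m ≤ g → n = m ∧ ∀ k, k < n → e k = f k := by
  intro n
  induction n with
  | zero =>
    intro m x y e f _ hy h0 h1 hnm
    refine ⟨?_, fun k hk => absurd hk (Nat.not_lt_zero _)⟩
    exact hy.inj hg (by omega) (Nat.zero_le _) le_rfl (h0.symm.trans h1)
  | succ n ih =>
    intro m x y e f hx hy h0 h1 hnm
    rcases Nat.eq_zero_or_pos m with rfl | hm
    · exact absurd (h0.trans h1.symm) (hx.ne_of_girth hg (by omega) (by omega))
    obtain ⟨m, rfl⟩ : ∃ m', m = m' + 1 := ⟨m - 1, by omega⟩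
    by_cases he : e 0 = f 0
    · have := ih m (fun k => x (1 + k)) (fun k => y (1 + k)) (fun k => e (1 + k))
        (fun k => f (1 + k)) (hx.shift 1 n (by omega)) (hy.shift 1 m (by omega))
        (by simp only [Nat.add_zero]; rw [← hx.ht 0 (by omega), ← hy.ht 0 (by omega), he])
        (by simp only [Nat.add_comm 1]; exact h1) (by omega)
      refine ⟨by omega, fun k hk => ?_⟩
      rcases Nat.eq_zero_or_pos k with rfl | hk0
      · exact he
      · have h2 := this.2 (k - 1) (by omega)
        simpa [Nat.add_sub_cancel' hk0] using h2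
    · exfalso
      have hr := hx.rev (n + 1) (n + 1) le_rfl le_rfl
      have hw : Γ.NBW (fun k => if k ≤ n + 1 then x (n + 1 - k) else y (k - (n + 1)))
          (fun k => if k < n + 1 then crev (e (n + 1 - k - 1)) else f (k - (n + 1)))
          (n + 1 + (m + 1)) := by
        refine ⟨fun k hk => ?_, fun k hk => ?_, fun k hk => ?_⟩
        · by_cases h2 : k < n + 1
          · simp only [if_pos h2, if_pos h2.le]; exact hr.hs k h2
          · simp only [if_neg h2]
            rw [hy.hs _ (by omega)]
            split_ifs with h3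
            · have : k = n + 1 := by omega
              subst this; simpa using h0.symm
            · rfl
        · by_cases h2 : k < n + 1
          · simp only [if_pos h2, if_pos (show k + 1 ≤ n + 1 from h2)]; exact hr.ht k h2
          · simp only [if_neg h2, if_neg (show ¬ k + 1 ≤ n + 1 from h2)]
            rw [hy.ht _ (by omega)]; congr 1; omega
        · by_cases h2 : k + 1 < n + 1
          · simp only [if_pos h2, if_pos (show k < n + 1 by omega)]; exact hr.nb k h2
          · by_cases h3 : k < n + 1
            · have : k = n := by omega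
              subst this
              simp only [if_neg h2, if_pos h3, crev_crev]
              simpa using fun h => he h.symm
            · simp only [if_neg h2, if_neg h3]
              have := hy.nb (k - (n + 1)) (by omega)
              rwa [show k - (n + 1) + 1 = k + 1 - (n + 1) by omega] at this
      have := hw.ne_of_girth hg (by omega) hnm
      apply this
      simp only [Nat.zero_le, if_true, Nat.sub_zero, if_neg (show ¬ n + 1 + (m + 1) ≤ n + 1 by omega)]
      rw [h1]; congr 1; omega

/-- two common vertices of two short walks: the parts between them coincide -/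
theorem NBW.overlap {g : ℕ} (hg : Γ.Girth g) {n m : ℕ} {x y : ℕ → U ⊕ W} {e f : ℕ → T × Bool}
    (hx : Γ.NBW x e n) (hy : Γ.NBW y f m) (hnm : n + m ≤ g) {k l k' l' : ℕ} (hkl : k ≤ l)
    (hl : l ≤ n) (hk' : k' ≤ m) (hl' : l' ≤ m) (h0 : x k = y k') (h1 : x l = y l') :
    (l' = k' + (l - k) ∧ (∀ j, j < l - k → e (k + j) = f (k' + j)) ∧
        ∀ j, j ≤ l - k → x (k + j) = y (k' + j)) ∨
      (k' = l' + (l - k) ∧ (∀ j, j < l - k → e (k + j) = crev (f (k' - j - 1))) ∧
        ∀ j, j ≤ l - k → x (k + j) = y (k' - j)) := by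
  have hx' := hx.shift k (l - k) (by omega)
  rcases le_total k' l' with h | h
  · left
    have hy' := hy.shift k' (l' - k') (by omega)
    have := NBW.unique hg _ _ _ _ _ _ hx' hy' (by simpa using h0)
      (by simpa [Nat.add_sub_cancel' hkl, Nat.add_sub_cancel' h] using h1) (by omega)
    refine ⟨by omega, this.2, fun j hj => ?_⟩
    rcases Nat.eq_zero_or_pos j with rfl | hj0
    · simpa using h0
    · obtain ⟨j, rfl⟩ : ∃ j', j = j' + 1 := ⟨j - 1, by omega⟩
      have h2 := hx'.ht j (by omega)
      have h3 := hy'.ht j (by omega)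
      rw [← h2, ← h3, this.2 j (by omega)]
  · right
    have hy' := hy.rev k' (k' - l') hk' (by omega)
    have := NBW.unique hg _ _ _ _ _ _ hx' hy' (by simpa using h0)
      (by simpa [Nat.add_sub_cancel' hkl, Nat.sub_sub_self h] using h1) (by omega)
    refine ⟨by omega, this.2, fun j hj => ?_⟩
    rcases Nat.eq_zero_or_pos j with rfl | hj0
    · simpa using h0
    · obtain ⟨j, rfl⟩ : ∃ j', j = j' + 1 := ⟨j - 1, by omega⟩
      have h2 := hx'.ht j (by omega)
      have h3 := hy'.ht j (by omega)
      rw [← h2, ← h3, this.2 j (by omega)]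

end BGraph

end Crest.Agent.R177
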