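import Crest.Agent.R177.ChainsAux1

/-! Auxiliary material for the task CHAINS: the chain decomposition of a small map. -/

set_option autoImplicit false

namespace Crest.Agent.R177

namespace BGraph

variable {P U W T : Type} {Γ : BGraph P U W T}

theorem ch_side0 (τ : T × Bool) : Γ.pres.side τ 0 = (Sum.inr (Γ.src τ), true) := by
  obtain ⟨t, b⟩ := τ; cases b <;> rfl

theorem ch_side1 (τ : T × Bool) : Γ.pres.side τ 1 = (Sum.inl (Γ.lab τ.1), τ.2) := by
  obtain ⟨t, b⟩ := τ; cases b <;> rfl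

theorem ch_side2 (τ : T × Bool) : Γ.pres.side τ 2 = (Sum.inr (Γ.tgt τ), false) := by
  obtain ⟨t, b⟩ := τ; cases b <;> rfl

/-- the next triangle of a fan (junk: itself, if there is none) -/
def cnxt (M : RMap Γ.pres) (i : M.I) : M.I := (M.ε (i, 2)).1

/-- the triangle glued along the label side (itself if there is none) -/
def cmat (M : RMap Γ.pres) (i : M.I) : M.I := (M.ε (i, 1)).1

theorem step_ne {e e' : T × Bool} (h : Γ.Step e e') : e'.2 = !e.2 := by
  obtain ⟨t, b⟩ := e; obtain ⟨t', b'⟩ := e'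
  have := h.1
  cases b <;> cases b' <;> simp_all [src, tgt]

theorem eps_two (M : RMap Γ.pres) (i : M.I) (h : M.ε (i, 2) ≠ (i, 2)) :
    M.ε (i, 2) = (cnxt M i, 0) ∧ Γ.Step (M.ty i) (M.ty (cnxt M i)) := by
  have h1 := M.lab_inv (i, 2) h
  have h2 := M.red (i, 2) h
  unfold cnxt
  generalize M.ε (i, 2) = d at h1 h2 ⊢
  obtain ⟨j, k⟩ := d
  simp only [ch_side2, linv] at h1 h2 ⊢
  fin_cases k
  · simp only [Fin.zero_eta, ch_side0, Prod.mk.injEq, Sum.inr.injEq] at h1 h2 ⊢
    refine ⟨by simp, h1.1.symm, fun h3 => h2 ⟨h3, rfl⟩⟩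
  · simp [ch_side1] at h1
  · simp [ch_side2] at h1

theorem eps_one (M : RMap Γ.pres) (i : M.I) :
    M.ε (i, 1) = (cmat M i, 1) ∧ Γ.lab (M.ty (cmat M i)).1 = Γ.lab (M.ty i).1 := by
  by_cases h : M.ε (i, 1) = (i, 1)
  · have : cmat M i = i := by unfold cmat; rw [h]
    rw [this]; exact ⟨h, rfl⟩
  have h1 := M.lab_inv (i, 1) h
  unfold cmat
  generalize M.ε (i, 1) = d at h1 ⊢
  obtain ⟨j, k⟩ := d
  simp only [ch_side1, linv] at h1 ⊢
  fin_cases k
  · simp [ch_side0] at h1
  · simp only [Fin.mk_one, ch_side1, Prod.mk.injEq, Sum.inl.injEq] at h1 ⊢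
    exact ⟨by simp, h1.1⟩
  · simp [ch_side2] at h1

theorem cnxt_eq_iff (M : RMap Γ.pres) (i : M.I) : cnxt M i = i ↔ M.ε (i, 2) = (i, 2) := by
  constructor
  · intro h
    by_contra h1
    have h2 := step_ne (eps_two M i h1).2
    rw [h] at h2
    simp at h2
  · intro h; unfold cnxt; rw [h]

theorem cmat_inj (M : RMap Γ.pres) : Function.Injective (cmat M) := by
  intro i j h
  have : M.ε (i, 1) = M.ε (j, 1) := by rw [(eps_one M i).1, (eps_one M j).1, h]
  exact (Prod.mk.inj (M.ε.injective this)).1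

theorem step_of_eps (M : RMap Γ.pres) {i j : M.I} (h : M.ε (i, 2) = (j, 0)) :
    Γ.Step (M.ty i) (M.ty j) := by
  have h1 : M.ε (i, 2) ≠ (i, 2) := by rw [h]; simp
  have h2 := eps_two M i h1
  have : cnxt M i = j := by unfold cnxt; rw [h]
  rw [← this]; exact h2.2

theorem cnxt_cyc {g : ℕ} (hg : Γ.Girth g) (M : RMap Γ.pres) (i : M.I) (n : ℕ)
    (hi : cnxt M i ≠ i) (hn : 0 < n) (hng : n ≤ g) : (cnxt M)^[n] i ≠ i := by
  intro h
  have hne : ∀ k, M.ε ((cnxt M)^[k] i, 2) ≠ ((cnxt M)^[k] i, 2) := fun k hk =>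
    hi (chains_periodic_fixed (cnxt M) hn h ((cnxt_eq_iff M _).2 hk))
  have hw : Γ.NBW (fun k => Γ.src (M.ty ((cnxt M)^[k] i))) (fun k => M.ty ((cnxt M)^[k] i)) n := by
    refine ⟨fun k _ => rfl, fun k _ => ?_, fun k _ => ?_⟩
    · rw [Function.iterate_succ_apply']; exact (eps_two M _ (hne k)).2.1
    · rw [Function.iterate_succ_apply']; exact (eps_two M _ (hne k)).2.2
  apply hw.ne_of_girth hg hn hng
  simp only [Function.iterate_zero, id, h]

/-- A decomposition of the triangles of a map into chains; `c` is the chain, `r` the distance to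
the end of the chain. -/
structure IsChains (M : RMap Γ.pres) {A : Type} (len : A → ℕ) (c : M.I → A) (r : M.I → ℕ) :
    Prop where
  lt : ∀ i, r i < len (c i)
  inj : ∀ i j, c i = c j → r i = r j → i = j
  surj : ∀ a k, k < len a → ∃ i, c i = a ∧ r i = k
  nxt : ∀ i j, c j = c i → r i = r j + 1 → M.ε (i, 2) = (j, 0)

theorem exists_chains {g K : ℕ} (hg2 : 2 ≤ g) (hg : Γ.Girth g) (M : RMap Γ.pres)
    (ha : M.area ≤ K * g) (hK : nArcs M ≤ K) :
    ∃ (len : Fin (7 * K) → ℕ) (c : M.I → Fin (7 * K)) (r : M.I → ℕ),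
      IsChains M len c r ∧ ∀ a, len a ≤ g / 2 := by
  classical
  obtain ⟨C, e, r, hC, he, hr, hinj, hstep⟩ := chains_decomp (cnxt M) (g / 2) (by omega)
    (fun i j hi hj h => by
      have h1 := (eps_two M i (fun h => hi ((cnxt_eq_iff M i).2 h))).1
      have h2 := (eps_two M j (fun h => hj ((cnxt_eq_iff M j).2 h))).1
      have : M.ε (i, 2) = M.ε (j, 2) := by rw [h1, h2, h]
      exact (Prod.mk.inj (M.ε.injective this)).1)
    (fun i n hi hn hns => cnxt_cyc hg M i n hi hn (by omega))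
  have hcard : C.card ≤ 7 * K := by
    have h1 : (Finset.univ.filter fun i => cnxt M i = i).card = nArcs M := by
      unfold nArcs
      congr 1
      ext i
      simp [cnxt_eq_iff]
    rw [h1] at hC
    have h2 : Fintype.card M.I ≤ K * g := ha
    have h3 : g ≤ 3 * (g / 2) := by omega
    have h4 : C.card * (g / 2) ≤ (7 * K) * (g / 2) := by
      calc C.card * (g / 2) ≤ nArcs M * (g / 2) + 2 * Fintype.card M.I := hC
        _ ≤ K * (g / 2) + 2 * (K * (3 * (g / 2))) := by
          gcongr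
          exact h2.trans (Nat.mul_le_mul_left K h3)
        _ = (7 * K) * (g / 2) := by ring
    exact Nat.le_of_mul_le_mul_right h4 (by omega)
  let c : M.I → Fin (7 * K) := fun i => Fin.castLE hcard (C.equivFin ⟨e i, he i⟩)
  have hc : ∀ i j, c i = c j ↔ e i = e j := by
    intro i j
    constructor
    · intro h
      have := C.equivFin.injective (Fin.castLE_injective hcard h)
      exact congrArg Subtype.val this
    · intro h; simp only [c, h]
  let len : Fin (7 * K) → ℕ := fun a => (Finset.univ.filter fun i => c i = a).sup fun i => r i + 1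
  have hdown : ∀ n i k, r i = k + n → ∃ j, c j = c i ∧ r j = k := by
    intro n
    induction n with
    | zero => intro i k h; exact ⟨i, rfl, h⟩
    | succ n ih =>
      intro i k h
      obtain ⟨_, h2, h3⟩ := hstep i (by omega)
      obtain ⟨j, hj1, hj2⟩ := ih (cnxt M i) k (by omega)
      exact ⟨j, hj1.trans ((hc _ _).2 h2), hj2⟩
  refine ⟨len, c, r, ⟨fun i => ?_, fun i j h1 h2 => hinj i j ((hc i j).1 h1) h2, fun a k hk => ?_,
    fun i j h1 h2 => ?_⟩, fun a => ?_⟩
  · have : r i + 1 ≤ len (c i) :=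
      Finset.le_sup (f := fun i => r i + 1) (Finset.mem_filter.2 ⟨Finset.mem_univ i, rfl⟩)
    omega
  · rw [Finset.lt_sup_iff] at hk
    obtain ⟨i, hi, hk⟩ := hk
    obtain ⟨j, hj1, hj2⟩ := hdown (r i - k) i k (by omega)
    exact ⟨j, hj1.trans (Finset.mem_filter.1 hi).2, hj2⟩
  · obtain ⟨h3, h4, h5⟩ := hstep i (by omega)
    have : cnxt M i = j := hinj _ _ (h4.trans ((hc _ _).1 h1).symm) (by omega)
    rw [← this]
    exact (eps_two M i (fun h => h3 ((cnxt_eq_iff M i).2 h))).1
  · apply Finset.sup_le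
    intro i _
    exact hr i

/-- the walks traced by the chains (in the direction opposite to the fans) -/
theorem IsChains.exists_walks {M : RMap Γ.pres} {A : Type} {len : A → ℕ} {c : M.I → A}
    {r : M.I → ℕ} (h : IsChains M len c r) (i₀ : M.I) :
    ∃ (X : A → ℕ → U ⊕ W) (E : A → ℕ → T × Bool), (∀ a, Γ.NBW (X a) (E a) (len a)) ∧
      (∀ i, E (c i) (r i) = crev (M.ty i)) := by
  classical
  let dart : A → ℕ → M.I := fun a k => if h : ∃ i, c i = a ∧ r i = k then h.choose else i₀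
  have hd : ∀ a k, k < len a → c (dart a k) = a ∧ r (dart a k) = k := by
    intro a k hk
    have := h.surj a k hk
    simp only [dart, dif_pos this]
    exact this.choose_spec
  have hst : ∀ a k, k + 1 < len a → Γ.Step (M.ty (dart a (k + 1))) (M.ty (dart a k)) := by
    intro a k hk
    obtain ⟨h1, h2⟩ := hd a (k + 1) hk
    obtain ⟨h3, h4⟩ := hd a k (by omega)
    exact step_of_eps M (h.nxt _ _ (h3.trans h1.symm) (by omega))
  refine ⟨fun a k => if k = 0 then Γ.tgt (M.ty (dart a 0)) else Γ.src (M.ty (dart a (k - 1))),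
    fun a k => crev (M.ty (dart a k)), fun a => ⟨fun k hk => ?_, fun k hk => ?_, fun k hk => ?_⟩,
    fun i => ?_⟩
  · rw [src_crev]
    beta_reduce
    split_ifs with h0
    · rw [h0]
    · obtain ⟨k, rfl⟩ : ∃ k', k = k' + 1 := ⟨k - 1, by omega⟩
      exact (hst a k hk).1
  · rw [tgt_crev]; beta_reduce; rw [if_neg (by omega)]; rfl
  · rw [crev_crev]
    intro h1
    exact (hst a k hk).2 h1.symm
  · obtain ⟨h1, h2⟩ := hd (c i) (r i) (h.lt i)
    simp only [h.inj _ _ h1 h2]

end BGraph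

end Crest.Agent.R177
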