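import Crest.Agent.R177.ChainsAux2

/-! Auxiliary material for the task CHAINS: overlaps of chains, codes of small maps. -/

set_option autoImplicit false

namespace Crest.Agent.R177

namespace BGraph

variable {P U W T : Type} {Γ : BGraph P U W T}

/-- positions on the first walk that are vertices of the second walk -/
def ovl (x y : ℕ → U ⊕ W) (n m : ℕ) : Set ℕ := {k | k ≤ n ∧ ∃ k', k' ≤ m ∧ x k = y k'}

theorem ovl_bdd (x y : ℕ → U ⊕ W) (n m : ℕ) : BddAbove (ovl x y n m) := ⟨n, fun _ h => h.1⟩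

/-- at an inner common vertex the second walk uses the two edges of the first walk -/
theorem NBW.inner_edges {g : ℕ} (hg : Γ.Girth g) {n m : ℕ} {x y : ℕ → U ⊕ W}
    {e f : ℕ → T × Bool} (hx : Γ.NBW x e n) (hy : Γ.NBW y f m) (hnm : n + m ≤ g) {k k' j : ℕ}
    (hk : k ≤ n) (hk' : k' ≤ m) (hxy : x k = y k')
    (hlo : k ≠ sInf (ovl x y n m)) (hhi : k ≠ sSup (ovl x y n m)) (hj : j = k' ∨ j + 1 = k') :
    (f j).1 = (e k).1 ∨ (f j).1 = (e (k - 1)).1 := by
  have hmem : k ∈ ovl x y n m := ⟨hk, k', hk', hxy⟩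
  have h1 : sInf (ovl x y n m) ≤ k := Nat.sInf_le hmem
  have h2 : k ≤ sSup (ovl x y n m) := le_csSup (ovl_bdd x y n m) hmem
  obtain ⟨ha, a', ha', haa⟩ := Nat.sInf_mem ⟨k, hmem⟩
  obtain ⟨hb, b', hb', hbb⟩ := Nat.sSup_mem ⟨k, hmem⟩ (ovl_bdd x y n m)
  generalize sInf (ovl x y n m) = a at *
  generalize sSup (ovl x y n m) = b at *
  obtain ⟨d, rfl⟩ : ∃ d, k = a + (d + 1) := ⟨k - a - 1, by omega⟩
  have e1 : a + (d + 1) - 1 = a + d := by omega
  rw [e1]
  rcases hx.overlap hg hy hnm (k := a) (l := b) (by omega) hb ha' hb' haa hbb with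
    ⟨h3, h4, h5⟩ | ⟨h3, h4, h5⟩
  · have h6 : k' = a' + (d + 1) :=
      hy.inj hg (by omega) hk' (by omega) (hxy.symm.trans (h5 (d + 1) (by omega)))
    rcases hj with hj | hj
    · left; rw [h4 (d + 1) (by omega), hj, h6]
    · right; rw [h4 d (by omega)]; congr 2; omega
  · have h6 : k' = a' - (d + 1) :=
      hy.inj hg (by omega) hk' (by omega) (hxy.symm.trans (h5 (d + 1) (by omega)))
    rcases hj with hj | hj
    · right; rw [h4 d (by omega), crev_fst]; congr 2; omega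
    · left; rw [h4 (d + 1) (by omega), crev_fst]; congr 2; omega

/-- the relation described by a code -/
def decRel {g : ℕ} (o : Option (Fin (g + 1) × Fin (g + 1) × Fin (g + 1) × Bool)) (k k' : ℕ) :
    Prop :=
  match o with
  | none => False
  | some (a, a', d, b) => ∃ j, j ≤ (d : ℕ) ∧ k = a + j ∧ (if b then k' = a' + j else k' + j = a')

theorem NBW.exists_code {g : ℕ} (hg : Γ.Girth g) {n m : ℕ} {x y : ℕ → U ⊕ W}
    {e f : ℕ → T × Bool} (hx : Γ.NBW x e n) (hy : Γ.NBW y f m) (hnm : n + m ≤ g) :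
    ∃ o : Option (Fin (g + 1) × Fin (g + 1) × Fin (g + 1) × Bool),
      ∀ k k', k ≤ n → k' ≤ m → (x k = y k' ↔ decRel o k k') := by
  rcases (ovl x y n m).eq_empty_or_nonempty with h0 | h0
  · refine ⟨none, fun k k' hk hk' => ⟨fun h => ?_, fun h => h.elim⟩⟩
    have : k ∈ ovl x y n m := ⟨hk, k', hk', h⟩
    rw [h0] at this
    exact this
  have h1 : ∀ k ∈ ovl x y n m, sInf (ovl x y n m) ≤ k := fun k hk => Nat.sInf_le hk
  have h2 : ∀ k ∈ ovl x y n m, k ≤ sSup (ovl x y n m) := fun k hk =>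
    le_csSup (ovl_bdd x y n m) hk
  have hab : sInf (ovl x y n m) ≤ sSup (ovl x y n m) := h2 _ (Nat.sInf_mem h0)
  obtain ⟨ha, a', ha', haa⟩ := Nat.sInf_mem h0
  obtain ⟨hb, b', hb', hbb⟩ := Nat.sSup_mem h0 (ovl_bdd x y n m)
  generalize sInf (ovl x y n m) = a at *
  generalize sSup (ovl x y n m) = b at *
  rcases hx.overlap hg hy hnm (k := a) (l := b) hab hb ha' hb' haa hbb with
    ⟨h3, -, h5⟩ | ⟨h3, -, h5⟩
  · refine ⟨some (⟨a, by omega⟩, ⟨a', by omega⟩, ⟨b - a, by omega⟩, true),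
      fun k k' hk hk' => ?_⟩
    simp only [decRel, if_true]
    constructor
    · intro h
      have h6 := h1 k ⟨hk, k', hk', h⟩
      have h7 := h2 k ⟨hk, k', hk', h⟩
      refine ⟨k - a, by omega, by omega, ?_⟩
      have h8 := h5 (k - a) (by omega)
      rw [Nat.add_sub_cancel' h6] at h8
      exact hy.inj hg (by omega) hk' (by omega) (h.symm.trans h8)
    · rintro ⟨j, hj, rfl, rfl⟩
      exact h5 j hj
  · refine ⟨some (⟨a, by omega⟩, ⟨a', by omega⟩, ⟨b - a, by omega⟩, false),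
      fun k k' hk hk' => ?_⟩
    simp only [decRel, Bool.false_eq_true, if_false]
    constructor
    · intro h
      have h6 := h1 k ⟨hk, k', hk', h⟩
      have h7 := h2 k ⟨hk, k', hk', h⟩
      refine ⟨k - a, by omega, by omega, ?_⟩
      have h8 := h5 (k - a) (by omega)
      rw [Nat.add_sub_cancel' h6] at h8
      have := hy.inj hg (by omega) hk' (by omega) (h.symm.trans h8)
      omega
    · rintro ⟨j, hj, rfl, h6⟩
      rw [h5 j hj]; congr 1; omega

/-- endpoints of a triangle's edge: `false` = target, `true` = source -/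
def endpt (M : RMap Γ.pres) (i : M.I) (b : Bool) : U ⊕ W :=
  if b then Γ.src (M.ty i) else Γ.tgt (M.ty i)

theorem endpt_sign (M : RMap Γ.pres) (i : M.I) :
    endpt M i (M.ty i).2 = Sum.inl (Γ.u (M.ty i).1) := by
  unfold endpt
  generalize M.ty i = e
  obtain ⟨t, b⟩ := e; cases b <;> rfl

theorem endpt_not_sign (M : RMap Γ.pres) (i : M.I) :
    endpt M i (!(M.ty i).2) = Sum.inr (Γ.w (M.ty i).1) := by
  unfold endpt
  generalize M.ty i = e
  obtain ⟨t, b⟩ := e; cases b <;> rfl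

theorem IsChains.endpt_eq {M : RMap Γ.pres} {A : Type} {len : A → ℕ} {c : M.I → A}
    {r : M.I → ℕ} (h : IsChains M len c r) {X : A → ℕ → U ⊕ W} {E : A → ℕ → T × Bool}
    (hW : ∀ a, Γ.NBW (X a) (E a) (len a)) (hE : ∀ i, E (c i) (r i) = crev (M.ty i)) (i : M.I)
    (b : Bool) : endpt M i b = X (c i) (r i + b.toNat) := by
  cases b
  · have := (hW (c i)).hs (r i) (h.lt i)
    rw [hE, src_crev] at this
    simpa [endpt] using this
  · have := (hW (c i)).ht (r i) (h.lt i)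
    rw [hE, tgt_crev] at this
    simpa [endpt] using this

/-- the position of the triangle glued along the label side -/
noncomputable def matI (M : RMap Γ.pres) {A : Type} (c : M.I → A) (r : M.I → ℕ) (i : M.I) :
    Option (A × ℕ) :=
  if M.ε (i, 1) = (i, 1) then none else some (c (cmat M i), r (cmat M i))

/-- codes of small maps -/
abbrev SkCode (N NE : ℕ) (J : Type) (g : ℕ) : Type :=
  (Fin N → Fin (g + 1)) × (Fin N → Bool) × (Fin N → J) ×
    (Fin N → Fin N → Option (Fin (g + 1) × Fin (g + 1) × Fin (g + 1) × Bool)) ×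
    Option (Fin N × Fin (g + 1)) ×
    (Fin NE → Option ((Fin N × Fin (g + 1)) × Option (Fin N × Fin (g + 1))))

/-- the map `M` with chain coordinates `c`, `r` is described by the code `s` -/
structure Describes {N NE : ℕ} {J : Type} {g : ℕ} (c₀ : U) (ιU : U → J) (s : SkCode N NE J g)
    (M : RMap Γ.pres) (c : M.I → Fin N) (r : M.I → ℕ) : Prop where
  chains : IsChains M (fun a => (s.1 a : ℕ)) c r
  sign : ∀ i, (M.ty i).2 = xor (s.2.1 (c i)) (decide (r i % 2 = 1))
  col : ∀ i, ιU (Γ.u (M.ty i).1) = s.2.2.1 (c i)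
  rel : ∀ i i' b b', endpt M i b = endpt M i' b' ↔
    decRel (s.2.2.2.1 (c i) (c i')) (r i + b.toNat) (r i' + b'.toNat)
  pin_none : s.2.2.2.2.1 = none → ∀ i, Γ.u (M.ty i).1 ≠ c₀
  pin_some : ∀ a k, s.2.2.2.2.1 = some (a, k) → ∃ i, c i = a ∧ r i = k ∧ Γ.u (M.ty i).1 = c₀
  mat_ex : ∀ n a k v, s.2.2.2.2.2 n = some ((a, k), v) → ∀ i, c i = a → r i = k →
    matI M c r i = v.map fun p => (p.1, (p.2 : ℕ))
  mat_rec : ∀ i, (∃ n k v, s.2.2.2.2.2 n = some ((c i, k), v) ∧ (k : ℕ) = r i) ∨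
    ∃ j, c j = c i ∧ r i = r j + 1 ∧
      matI M c r i = (matI M c r j).map fun p => (p.1, p.2 - 1)

/-- two maps with the same code correspond to each other -/
theorem Describes.exists_theta {N NE : ℕ} {J : Type} {g : ℕ} {c₀ : U} {ιU : U → J}
    {s : SkCode N NE J g} {Γ Γ' : BGraph P U W T} {M : RMap Γ.pres} {M' : RMap Γ'.pres}
    {c : M.I → Fin N} {r : M.I → ℕ} {c' : M'.I → Fin N} {r' : M'.I → ℕ}
    (h : Describes c₀ ιU s M c r) (h' : Describes c₀ ιU s M' c' r') :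
    ∃ θ : M.I → M'.I,
      (∀ i i', Γ.u (M.ty i).1 = Γ.u (M.ty i').1 ↔
        Γ'.u (M'.ty (θ i)).1 = Γ'.u (M'.ty (θ i')).1) ∧
      (∀ i i', Γ.w (M.ty i).1 = Γ.w (M.ty i').1 ↔
        Γ'.w (M'.ty (θ i)).1 = Γ'.w (M'.ty (θ i')).1) ∧
      (∀ i i', M.ε (i, 1) = (i', 1) →
        Γ'.lab (M'.ty (θ i)).1 = Γ'.lab (M'.ty (θ i')).1) ∧
      (∀ i, Γ.u (M.ty i).1 = c₀ → Γ'.u (M'.ty (θ i)).1 = c₀) ∧
      (∀ i, ιU (Γ'.u (M'.ty (θ i)).1) = ιU (Γ.u (M.ty i).1)) := by
  have hex : ∀ i, ∃ j, c' j = c i ∧ r' j = r i := fun i => h'.chains.surj _ _ (h.chains.lt i)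
  choose θ hc hr using hex
  have hsign : ∀ i, (M'.ty (θ i)).2 = (M.ty i).2 := fun i => by
    rw [h.sign, h'.sign, hc, hr]
  have hend : ∀ i i' b b', endpt M i b = endpt M i' b' ↔
      endpt M' (θ i) b = endpt M' (θ i') b' := fun i i' b b' => by
    rw [h.rel, h'.rel, hc, hc, hr, hr]
  have hu : ∀ i i', Γ.u (M.ty i).1 = Γ.u (M.ty i').1 ↔
      Γ'.u (M'.ty (θ i)).1 = Γ'.u (M'.ty (θ i')).1 := fun i i' => by
    have := hend i i' (M.ty i).2 (M.ty i').2
    rw [endpt_sign, endpt_sign, ← hsign i, ← hsign i', endpt_sign, endpt_sign] at this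
    simpa using this
  have hmat : ∀ k i i', c' i' = c i → r i = k → r' i' = k → matI M c r i = matI M' c' r' i' := by
    intro k
    induction k with
    | zero =>
      intro i i' h1 h2 h3
      rcases h.mat_rec i with ⟨n, k, v, h4, h5⟩ | ⟨j, _, h5, _⟩
      · rw [h.mat_ex n _ k v h4 i rfl h5.symm, h'.mat_ex n _ k v h4 i' h1 (by omega)]
      · omega
    | succ k ih =>
      intro i i' h1 h2 h3
      rcases h.mat_rec i with ⟨n, k, v, h4, h5⟩ | ⟨j, h4, h5, h6⟩
      · rw [h.mat_ex n _ k v h4 i rfl h5.symm, h'.mat_ex n _ k v h4 i' h1 (by omega)]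
      · rcases h'.mat_rec i' with ⟨n, k, v, h7, h8⟩ | ⟨j', h7, h8, h9⟩
        · rw [h'.mat_ex n _ k v h7 i' rfl h8.symm, h.mat_ex n _ k v h7 i h1.symm (by omega)]
        · rw [h6, h9, ih j j' (by rw [h7, h1, h4]) (by omega) (by omega)]
  refine ⟨θ, hu, fun i i' => ?_, fun i i' hi => ?_, fun i hi => ?_, fun i => ?_⟩
  · have := hend i i' (!(M.ty i).2) (!(M.ty i').2)
    rw [endpt_not_sign, endpt_not_sign, ← hsign i, ← hsign i', endpt_not_sign,
      endpt_not_sign] at this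
    simpa using this
  · by_cases hii : M.ε (i, 1) = (i, 1)
    · have : i' = i := (Prod.mk.inj (hi.symm.trans hii)).1
      rw [this]
    · have h1 : cmat M i = i' := by unfold cmat; rw [hi]
      have h2 := hmat (r i) i (θ i) (hc i) rfl (hr i)
      unfold matI at h2
      rw [if_neg hii, h1] at h2
      split_ifs at h2 with h3
      simp only [Option.some.injEq, Prod.mk.injEq] at h2
      have h4 : cmat M' (θ i) = θ i' :=
        h'.chains.inj _ _ (by rw [hc, h2.1]) (by rw [hr, h2.2])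
      rw [← h4]
      exact (eps_one M' (θ i)).2.symm
  · rcases hp : s.2.2.2.2.1 with _ | ⟨a, k⟩
    · exact absurd hi (h.pin_none hp i)
    · obtain ⟨j, hj1, hj2, hj3⟩ := h.pin_some a k hp
      obtain ⟨j', hj1', hj2', hj3'⟩ := h'.pin_some a k hp
      have : θ j = j' := h'.chains.inj _ _ (by rw [hc, hj1, hj1']) (by rw [hr, hj2, hj2'])
      rw [← hj3', ← this]
      exact (hu i j).1 (hi.trans hj3.symm)
  · rw [h.col, h'.col, hc]

end BGraph

/-! ## Polynomial bounds -/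

/-- bounded by a power of `g + 2` -/
def ChPoly (F : ℕ → ℕ) : Prop := ∃ B : ℕ, ∀ g, F g ≤ (g + 2) ^ B

theorem ChPoly.const (n : ℕ) : ChPoly fun _ => n :=
  ⟨n, fun g => (Nat.lt_two_pow_self).le.trans (Nat.pow_le_pow_left (by omega) n)⟩

theorem ChPoly.succ : ChPoly fun g => g + 1 := ⟨1, fun g => by simp⟩

theorem ChPoly.mul {F G : ℕ → ℕ} (hF : ChPoly F) (hG : ChPoly G) : ChPoly fun g => F g * G g := by
  obtain ⟨a, ha⟩ := hF
  obtain ⟨b, hb⟩ := hG
  exact ⟨a + b, fun g => by rw [pow_add]; exact Nat.mul_le_mul (ha g) (hb g)⟩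

theorem ChPoly.pow {F : ℕ → ℕ} (hF : ChPoly F) (n : ℕ) : ChPoly fun g => F g ^ n := by
  obtain ⟨a, ha⟩ := hF
  exact ⟨a * n, fun g => by rw [pow_mul]; exact Nat.pow_le_pow_left (ha g) n⟩

theorem ChPoly.add_one {F : ℕ → ℕ} (hF : ChPoly F) : ChPoly fun g => F g + 1 := by
  obtain ⟨a, ha⟩ := hF
  refine ⟨a + 1, fun g => ?_⟩
  have h1 := ha g
  have h2 : 0 < (g + 2) ^ a := Nat.pow_pos (by omega)
  rw [pow_succ]
  nlinarith

theorem skCode_card (N NE : ℕ) (J : Type) [Fintype J] :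
    ChPoly fun g => Fintype.card (Option (BGraph.SkCode N NE J g)) := by
  simp only [Fintype.card_option, Fintype.card_prod, Fintype.card_fun, Fintype.card_fin,
    Fintype.card_bool]
  have h1 := ChPoly.succ
  have h2 := (ChPoly.const N).mul h1
  exact ((h1.pow N).mul ((ChPoly.const _).mul ((ChPoly.const _).mul
    ((((h1.mul (h1.mul (h1.mul (ChPoly.const 2)))).add_one.pow N).pow N).mul
      (h2.add_one.mul ((h2.mul h2.add_one).add_one.pow NE)))))).add_one

end Crest.Agent.R177
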