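import Crest.Agent.R177.ChainsAux3

/-! Auxiliary material for the task CHAINS: every small map has a code. -/

set_option autoImplicit false

namespace Crest.Agent.R177

namespace BGraph

variable {P U W T : Type} {Γ : BGraph P U W T}

theorem IsChains.exists_nxt {M : RMap Γ.pres} {A : Type} {len : A → ℕ} {c : M.I → A}
    {r : M.I → ℕ} (h : IsChains M len c r) (i : M.I) (hi : 0 < r i) :
    ∃ j, c j = c i ∧ r i = r j + 1 ∧ M.ε (i, 2) = (j, 0) := by
  obtain ⟨j, h1, h2⟩ := h.surj (c i) (r i - 1) (by have := h.lt i; omega)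
  exact ⟨j, h1, by omega, h.nxt i j h1 (by omega)⟩

theorem IsChains.exists_base {M : RMap Γ.pres} {A : Type} {len : A → ℕ} {c : M.I → A}
    {r : M.I → ℕ} (h : IsChains M len c r) (i₀ : M.I) :
    ∃ b : A → M.I, ∀ i, c (b (c i)) = c i ∧ r (b (c i)) = 0 := by
  classical
  refine ⟨fun a => if h : ∃ i, c i = a ∧ r i = 0 then h.choose else i₀, fun i => ?_⟩
  have := h.surj (c i) 0 (by have := h.lt i; omega)
  simp only [dif_pos this]
  exact this.choose_spec

theorem step_col {J : Type} {ιU : U → J} {ιW : W → J} (hι : ∀ t, ιW (Γ.w t) = ιU (Γ.u t))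
    {e e' : T × Bool} (h : Γ.Step e e') : ιU (Γ.u e.1) = ιU (Γ.u e'.1) := by
  obtain ⟨t, b⟩ := e; obtain ⟨t', b'⟩ := e'
  have := h.1
  cases b <;> cases b' <;> simp only [src, tgt] at this <;> simp at this
  · rw [this]
  · rw [← hι, ← hι, this]

theorem IsChains.card_zero_le {M : RMap Γ.pres} {N : ℕ} {len : Fin N → ℕ} {c : M.I → Fin N}
    {r : M.I → ℕ} (h : IsChains M len c r) :
    (Finset.univ.filter fun i => r i = 0).card ≤ N := by
  have : (Finset.univ.filter fun i => r i = 0).card ≤ (Finset.univ : Finset (Fin N)).card := by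
    apply Finset.card_le_card_of_injOn c (fun _ _ => Finset.mem_univ _)
    intro i hi j hj hij
    simp only [Finset.coe_filter, Finset.mem_univ, true_and, Set.mem_ofPred_eq] at hi hj
    exact h.inj i j hij (by omega)
  simpa using this

theorem IsChains.card_exc_le {M : RMap Γ.pres} {N : ℕ} {len : Fin N → ℕ} {c : M.I → Fin N}
    {r : M.I → ℕ} (h : IsChains M len c r) :
    (Finset.univ.filter fun i => 0 < r i ∧ r (cmat M (cnxt M i)) = 0).card ≤ N := by
  have : (Finset.univ.filter fun i => 0 < r i ∧ r (cmat M (cnxt M i)) = 0).card ≤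
      (Finset.univ : Finset (Fin N)).card := by
    apply Finset.card_le_card_of_injOn (fun i => c (cmat M (cnxt M i)))
      (fun _ _ => Finset.mem_univ _)
    intro i hi j hj hij
    simp only [Finset.coe_filter, Finset.mem_univ, true_and, Set.mem_ofPred_eq] at hi hj
    have h1 := cmat_inj M (h.inj _ _ hij (by omega))
    obtain ⟨i', -, -, h2⟩ := h.exists_nxt i hi.1
    obtain ⟨j', -, -, h3⟩ := h.exists_nxt j hj.1
    have h4 : cnxt M i = i' := by unfold cnxt; rw [h2]
    have h5 : cnxt M j = j' := by unfold cnxt; rw [h3]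
    have : M.ε (i, 2) = M.ε (j, 2) := by rw [h2, h3, ← h4, ← h5, h1]
    exact (Prod.mk.inj (M.ε.injective this)).1
  simpa using this

theorem IsChains.mat_step {M : RMap Γ.pres} {A : Type} {len : A → ℕ} {c : M.I → A}
    {r : M.I → ℕ} (h : IsChains M len c r) (i : M.I) (h0 : r i ≠ 0) (h1 : ¬ Irr M i)
    (h2 : ¬ (0 < r i ∧ r (cmat M (cnxt M i)) = 0)) :
    ∃ j, c j = c i ∧ r i = r j + 1 ∧
      matI M c r i = (matI M c r j).map fun p => (p.1, p.2 - 1) := by
  obtain ⟨j, hj1, hj2, hj3⟩ := h.exists_nxt i (Nat.pos_of_ne_zero h0)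
  refine ⟨j, hj1, hj2, ?_⟩
  have h4 : cnxt M i = j := by unfold cnxt; rw [hj3]
  have h5 : M.ε (i, 2) ≠ (i, 2) := by rw [hj3]; simp
  rw [h4] at h2
  by_cases hreg : Reg M i
  · obtain ⟨-, h6, h7, h8⟩ := hreg
    rw [hj3] at h7 h8
    change M.ε (cmat M j, 2) = (cmat M i, 0) at h8
    obtain ⟨k, hk1, hk2, hk3⟩ := h.exists_nxt (cmat M j) (by omega)
    have h9 : k = cmat M i := (Prod.mk.inj (hk3.symm.trans h8)).1
    unfold matI
    rw [if_neg h6, if_neg h7, ← h9]
    simp only [Option.map_some, Option.some.injEq, Prod.mk.injEq]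
    exact ⟨hk1, by omega⟩
  · have h6 : M.ε (i, 1) = (i, 1) ∧ M.ε ((M.ε (i, 2)).1, 1) = ((M.ε (i, 2)).1, 1) := by
      by_contra h6
      exact h1 ⟨h5, hreg, h6⟩
    rw [hj3] at h6
    unfold matI
    rw [if_pos h6.1, if_pos h6.2]
    rfl

theorem exists_describes {g K : ℕ} {J : Type} (hg2 : 2 ≤ g) (hg : Γ.Girth g) (c₀ : U)
    {ιU : U → J} {ιW : W → J} (hι : ∀ t, ιW (Γ.w t) = ιU (Γ.u t)) (M : RMap Γ.pres)
    (ha : M.area ≤ K * g) (hK : nArcs M ≤ K) (hI : nIrr M ≤ K) (i₀ : M.I) :
    ∃ (s : SkCode (7 * K) (15 * K) J g) (c : M.I → Fin (7 * K)) (r : M.I → ℕ),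
      Describes c₀ ιU s M c r := by
  classical
  obtain ⟨len, c, r, h, hlen⟩ := exists_chains hg2 hg M ha hK
  obtain ⟨X, E, hW, hE⟩ := h.exists_walks i₀
  obtain ⟨b, hb⟩ := h.exists_base i₀
  have hr : ∀ i, r i < g + 1 := fun i => by
    have := h.lt i; have := hlen (c i); omega
  have hcode := fun a a' => NBW.exists_code hg (hW a) (hW a')
    (by have := hlen a; have := hlen a'; omega)
  choose rel hrel using hcode
  let Ex : Finset M.I := (Finset.univ.filter fun i => r i = 0) ∪
    (Finset.univ.filter fun i => Irr M i) ∪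
    (Finset.univ.filter fun i => 0 < r i ∧ r (cmat M (cnxt M i)) = 0)
  have hEx : Ex.card ≤ 15 * K := by
    have h1 := h.card_zero_le
    have h2 := h.card_exc_le
    have h3 : (Finset.univ.filter fun i => Irr M i).card ≤ K := hI
    have h4 := Finset.card_union_le (Finset.univ.filter fun i => r i = 0)
      (Finset.univ.filter fun i => Irr M i)
    have h5 := Finset.card_union_le ((Finset.univ.filter fun i => r i = 0) ∪
      (Finset.univ.filter fun i => Irr M i))
      (Finset.univ.filter fun i => 0 < r i ∧ r (cmat M (cnxt M i)) = 0)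
    simp only [Ex]
    omega
  let mc : M.I → Option (Fin (7 * K) × Fin (g + 1)) := fun i =>
    if M.ε (i, 1) = (i, 1) then none else some (c (cmat M i), ⟨r (cmat M i), hr _⟩)
  have hmc : ∀ i, matI M c r i = (mc i).map fun p => (p.1, (p.2 : ℕ)) := fun i => by
    unfold matI
    simp only [mc]
    split_ifs <;> rfl
  refine ⟨(fun a => ⟨len a, by have := hlen a; omega⟩, fun a => (M.ty (b a)).2,
    fun a => ιU (Γ.u (M.ty (b a)).1), rel,
    if hp : ∃ i, Γ.u (M.ty i).1 = c₀ then some (c hp.choose, ⟨r hp.choose, hr _⟩) else none,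
    fun n => (Ex.toList[(n : ℕ)]?).map fun i => ((c i, ⟨r i, hr i⟩), mc i)), c, r,
    ⟨h, ?_, ?_, ?_, ?_, ?_, ?_, ?_⟩⟩
  · suffices H : ∀ n i, r i = n → (M.ty i).2 = xor (M.ty (b (c i))).2 (decide (n % 2 = 1)) from
      fun i => H _ i rfl
    intro n
    induction n with
    | zero =>
      intro i hi
      have : b (c i) = i := h.inj _ _ (hb i).1 (by rw [(hb i).2, hi])
      rw [this]; simp
    | succ n ih =>
      intro i hi
      obtain ⟨j, hj1, hj2, hj3⟩ := h.exists_nxt i (by omega)
      have h1 := step_ne (step_of_eps M hj3)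
      have h2 := ih j (by omega)
      rw [hj1, h1] at h2
      have h3 : decide ((n + 1) % 2 = 1) = !decide (n % 2 = 1) := by
        rcases Nat.mod_two_eq_zero_or_one n with h4 | h4 <;> simp [Nat.add_mod, h4]
      rw [h3]
      revert h2
      cases (M.ty i).2 <;> cases (M.ty (b (c i))).2 <;> cases decide (n % 2 = 1) <;> simp
  · suffices H : ∀ n i, r i = n → ιU (Γ.u (M.ty i).1) = ιU (Γ.u (M.ty (b (c i))).1) from
      fun i => H _ i rfl
    intro n
    induction n with
    | zero =>
      intro i hi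
      have : b (c i) = i := h.inj _ _ (hb i).1 (by rw [(hb i).2, hi])
      rw [this]
    | succ n ih =>
      intro i hi
      obtain ⟨j, hj1, hj2, hj3⟩ := h.exists_nxt i (by omega)
      rw [step_col hι (step_of_eps M hj3), ih j (by omega), hj1]
  · intro i i' β β'
    rw [h.endpt_eq hW hE, h.endpt_eq hW hE]
    apply hrel
    · have := h.lt i; have := Bool.toNat_le β; omega
    · have := h.lt i'; have := Bool.toNat_le β'; omega
  · intro hp i hi
    have : ∃ i, Γ.u (M.ty i).1 = c₀ := ⟨i, hi⟩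
    simp only [dif_pos this] at hp
    exact absurd hp (by simp)
  · intro a k hp
    by_cases hq : ∃ i, Γ.u (M.ty i).1 = c₀
    · simp only [dif_pos hq, Option.some.injEq, Prod.mk.injEq] at hp
      exact ⟨hq.choose, hp.1, by rw [← hp.2], hq.choose_spec⟩
    · simp only [dif_neg hq] at hp
      exact absurd hp (by simp)
  · intro n a k v hv i hi1 hi2
    simp only [Option.map_eq_some_iff, Prod.mk.injEq] at hv
    obtain ⟨j, -, ⟨hj1, hj2⟩, hj3⟩ := hv
    have : i = j := h.inj _ _ (hi1.trans hj1.symm) (by rw [hi2, ← hj2])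
    rw [this, ← hj3, hmc]
  · intro i
    by_cases hi : i ∈ Ex
    · left
      obtain ⟨n, hn, hn'⟩ := List.mem_iff_getElem.1 (Finset.mem_toList.2 hi)
      refine ⟨⟨n, by rw [Finset.length_toList] at hn; omega⟩, ⟨r i, hr i⟩, mc i, ?_, rfl⟩
      simp only [List.getElem?_eq_getElem hn, hn', Option.map_some]
    · right
      simp only [Ex, Finset.mem_union, Finset.mem_filter, Finset.mem_univ, true_and,
        not_or] at hi
      exact h.mat_step i hi.1.1 hi.1.2 hi.2

end BGraph

end Crest.Agent.R177
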