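import Mathlib

/-!
Definitions shared by rows 177, 184, 199 (random labelled graphs, triangular presentations,
permutation maps).  See the blueprint in the team table `ideas`, row 177.
-/

set_option autoImplicit false

namespace Crest.Agent.R177

open Equiv

/-! ## Triangular presentations -/

/-- A triangular presentation: generators `α`, one relation `a t * b t = c t` for every `t : T`. -/
structure TriPres (α T : Type) where
  a : T → α
  b : T → α
  c : T → α

/-- formal inverse of a letter -/
def linv {α : Type} (x : α × Bool) : α × Bool := (x.1, !x.2)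

/-- `+1` for `true`, `-1` for `false` -/
def sgn (b : Bool) : ℤ := if b then 1 else -1

namespace TriPres

variable {α T : Type} (Q : TriPres α T)

def rels : Set (FreeGroup α) :=
  Set.range fun t => FreeGroup.of (Q.a t) * FreeGroup.of (Q.b t) * (FreeGroup.of (Q.c t))⁻¹

abbrev Grp : Type := PresentedGroup Q.rels

def gen (x : α) : Q.Grp := PresentedGroup.of x

def letter (x : α × Bool) : Q.Grp := if x.2 then Q.gen x.1 else (Q.gen x.1)⁻¹

/-- value of a word in the group -/
def ev (w : List (α × Bool)) : Q.Grp := (w.map Q.letter).prod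

/-- the signed edge of the Cayley graph read by the letter `x` at the vertex `g`;
the edge `(g, s)` goes from `g` to `g * s`. -/
noncomputable def edgeCh (g : Q.Grp) (x : α × Bool) : (Q.Grp × α) →₀ ℤ :=
  if x.2 then Finsupp.single (g, x.1) 1 else - Finsupp.single (g * (Q.gen x.1)⁻¹, x.1) 1

/-- the 1-chain of the path that starts at `g` and reads the word `w` -/
noncomputable def ch : Q.Grp → List (α × Bool) → ((Q.Grp × α) →₀ ℤ)
  | _, [] => 0
  | g, x :: w => Q.edgeCh g x + ch (g * Q.letter x) w

theorem ch_unfold_aux : True := by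
  have := @TriPres.ch.eq_def
  have := @TriPres.ch.eq_1
  have := @TriPres.ch.eq_2
  trivial

/-- boundary map of the Cayley 2-complex; the triangle `(g, t)` has vertices
`g`, `g * a t`, `g * c t`. -/
noncomputable def d2 : ((Q.Grp × T) →₀ ℤ) →ₗ[ℤ] ((Q.Grp × α) →₀ ℤ) :=
  Finsupp.linearCombination ℤ fun p =>
    Finsupp.single (p.1, Q.a p.2) 1 + Finsupp.single (p.1 * Q.gen (Q.a p.2), Q.b p.2) 1
      - Finsupp.single (p.1, Q.c p.2) 1

/-- homological asphericity -/
def Asph : Prop := Function.Injective Q.d2

/-- homological linear isoperimetric inequality -/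
def LinIso : Prop :=
  ∃ C : ℕ, ∀ w : List (α × Bool), Q.ev w = 1 →
    ∃ z : (Q.Grp × T) →₀ ℤ, Q.d2 z = Q.ch 1 w ∧ (z.sum fun _ n => n.natAbs) ≤ C * w.length

/-- The three sides of an oriented triangle (`true` = positive orientation), read from its
first vertex. -/
def side (τ : T × Bool) : Fin 3 → α × Bool :=
  if τ.2 then ![(Q.a τ.1, true), (Q.b τ.1, true), (Q.c τ.1, false)]
  else ![(Q.c τ.1, true), (Q.b τ.1, false), (Q.a τ.1, false)]

/-- Null-homotopies of words (based at `1`), recording the 2-chain that is swept out. -/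
inductive Null : List (α × Bool) → ((Q.Grp × T) →₀ ℤ) → Prop
  | nil : Null [] 0
  | ins (w₁ w₂ : List (α × Bool)) (x : α × Bool) (z : (Q.Grp × T) →₀ ℤ) :
      Null (w₁ ++ w₂) z → Null (w₁ ++ [x, linv x] ++ w₂) z
  | del (w₁ w₂ : List (α × Bool)) (x : α × Bool) (z : (Q.Grp × T) →₀ ℤ) :
      Null (w₁ ++ [x, linv x] ++ w₂) z → Null (w₁ ++ w₂) z
  | tri (w₁ w₂ : List (α × Bool)) (τ : T × Bool) (z : (Q.Grp × T) →₀ ℤ) :
      Null (w₁ ++ w₂) z →
      Null (w₁ ++ [Q.side τ 0, Q.side τ 1, Q.side τ 2] ++ w₂)
        (z + Finsupp.single (Q.ev w₁, τ.1) (sgn τ.2))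

end TriPres

/-! ## Permutation maps (hypermaps) and their genus -/

section Perms

variable {D : Type}

/-- number of cycles of a permutation, fixed points included -/
noncomputable def ncyc (σ : Perm D) : ℕ := Nat.card (Quotient (Perm.SameCycle.setoid σ))

/-- two darts lie in the same connected component of the map `(φ, ε)` -/
def Conn (φ ε : Perm D) : D → D → Prop := Relation.EqvGen fun x y => y = φ x ∨ y = ε x

/-- number of connected components of the map `(φ, ε)` -/
noncomputable def ncomp (φ ε : Perm D) : ℕ :=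
  Nat.card (Quotient (Relation.EqvGen.setoid fun x y => y = φ x ∨ y = ε x))

/-- twice the total genus of the map with face permutation `φ`, edge permutation `ε` and vertex
permutation `φ * ε` (always `≥ 0`). -/
noncomputable def genus (φ ε : Perm D) : ℤ :=
  (Nat.card D : ℤ) + 2 * ncomp φ ε - ncyc φ - ncyc ε - ncyc (φ * ε)

/-- Planar, and every component has at most one hole.  Darts fixed by `ε` are the unmatched
(boundary) darts; a hole is a cycle of `φ * ε` that contains an unmatched dart. -/
def DiscLike (φ ε : Perm D) : Prop :=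
  genus φ ε = 0 ∧ ∀ u v : D, ε u = u → ε v = v → Conn φ ε u v → (φ * ε).SameCycle u v

end Perms

/-- the face permutation of a family of triangles -/
def rot (I : Type) : Perm (I × Fin 3) := Equiv.prodCongr (Equiv.refl I) (finRotate 3)

/-- A reduced map (van Kampen diagram, possibly with holes and of any genus) over a triangular
presentation: a finite family of oriented triangles whose sides are partially glued in pairs by the
involution `ε`; glued sides carry inverse letters and no two glued triangles are mirror images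
across the glued side. -/
structure RMap {α T : Type} (Q : TriPres α T) where
  I : Type
  [fin : Fintype I]
  [dec : DecidableEq I]
  ty : I → T × Bool
  ε : Perm (I × Fin 3)
  invol : ∀ d, ε (ε d) = d
  lab_inv : ∀ d, ε d ≠ d → Q.side (ty (ε d).1) (ε d).2 = linv (Q.side (ty d.1) d.2)
  red : ∀ d, ε d ≠ d → ¬ (ty (ε d).1 = ((ty d.1).1, !(ty d.1).2) ∧ (ε d).2 = Fin.rev d.2)

attribute [instance] RMap.fin RMap.dec

namespace RMap

variable {α T : Type} {Q : TriPres α T} (M : RMap Q)

/-- the letter on a dart -/
def lab (d : M.I × Fin 3) : α × Bool := Q.side (M.ty d.1) d.2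

def area : ℕ := Fintype.card M.I

/-- weighted length of the boundary -/
def bw (wt : α → ℕ) : ℕ := ∑ d ∈ Finset.univ.filter (fun d => M.ε d = d), wt (M.lab d).1

def Disc : Prop := DiscLike (rot M.I) M.ε

end RMap

/-! ## Folded bipartite labelled graphs -/

/-- A bipartite graph with edge set `T`, edges going from `U` to `W` and labelled by `P`, folded
at both ends. -/
structure BGraph (P U W T : Type) where
  u : T → U
  w : T → W
  lab : T → P
  foldU : ∀ t t', u t = u t' → lab t = lab t' → t = t'
  foldW : ∀ t t', w t = w t' → lab t = lab t' → t = t'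

namespace BGraph

variable {P U W T : Type} (Γ : BGraph P U W T)

/-- source of an oriented edge (`true` = from `U` to `W`) -/
def src (e : T × Bool) : U ⊕ W := if e.2 then Sum.inl (Γ.u e.1) else Sum.inr (Γ.w e.1)

def tgt (e : T × Bool) : U ⊕ W := if e.2 then Sum.inr (Γ.w e.1) else Sum.inl (Γ.u e.1)

/-- consecutive oriented edges of a non-backtracking walk -/
def Step (e e' : T × Bool) : Prop := Γ.tgt e = Γ.src e' ∧ e' ≠ (e.1, !e.2)

/-- every nonempty closed non-backtracking walk has more than `g` edges -/
def Girth (g : ℕ) : Prop :=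
  ∀ (e : T × Bool) (l : List (T × Bool)), List.IsChain Γ.Step (e :: l) →
    Γ.tgt ((e :: l).getLast (List.cons_ne_nil _ _)) = Γ.src e → g < l.length + 1

/-- The presentation `⟨P, c_x | c_{u t} * lab t = c_{w t}⟩`.  For an oriented triangle `τ`,
side `0` is `c_{src τ}`, side `1` is the label, side `2` is `c_{tgt τ}⁻¹`. -/
def pres : TriPres (P ⊕ (U ⊕ W)) T where
  a t := Sum.inr (Sum.inl (Γ.u t))
  b t := Sum.inl (Γ.lab t)
  c t := Sum.inr (Sum.inr (Γ.w t))

/-- weights: labels weigh `1`, cone letters weigh `g` -/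
def wt (P U W : Type) (g : ℕ) : P ⊕ (U ⊕ W) → ℕ := Sum.elim (fun _ => 1) (fun _ => g)

variable {Γ}

/-- number of unmatched label sides -/
def nUS (M : RMap Γ.pres) : ℕ := (Finset.univ.filter fun i : M.I => M.ε (i, 1) = (i, 1)).card

/-- number of unmatched incoming cone sides (= number of fans that do not close up) -/
def nArcs (M : RMap Γ.pres) : ℕ := (Finset.univ.filter fun i : M.I => M.ε (i, 2) = (i, 2)).card

/-- The corner at the end of the label side of `i` is regular: `j = next i`, both label sides are
matched and `next (mat j) = mat i`. -/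
def Reg (M : RMap Γ.pres) (i : M.I) : Prop :=
  M.ε (i, 2) ≠ (i, 2) ∧ M.ε (i, 1) ≠ (i, 1) ∧
    M.ε ((M.ε (i, 2)).1, 1) ≠ ((M.ε (i, 2)).1, 1) ∧
    M.ε ((M.ε ((M.ε (i, 2)).1, 1)).1, 2) = ((M.ε (i, 1)).1, 0)

/-- irregular corner: `next i` exists, the corner is not regular, and it is not a corner between
two unmatched label sides. -/
def Irr (M : RMap Γ.pres) (i : M.I) : Prop :=
  M.ε (i, 2) ≠ (i, 2) ∧ ¬ Reg M i ∧
    ¬ (M.ε (i, 1) = (i, 1) ∧ M.ε ((M.ε (i, 2)).1, 1) = ((M.ε (i, 2)).1, 1))

open Classical in
noncomputable def nIrr (M : RMap Γ.pres) : ℕ := (Finset.univ.filter fun i : M.I => Irr M i).card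

open Classical in
/-- `1` if some triangle of the map uses an edge at the pinned vertex `c₀`, else `0` -/
noncomputable def nPin (M : RMap Γ.pres) (c₀ : U) : ℕ :=
  if ∃ i : M.I, Γ.u (M.ty i).1 = c₀ then 1 else 0

variable (Γ)

/-- The local isoperimetric inequality for small maps of bounded complexity. -/
def Loc (K C g : ℕ) (c₀ : U) : Prop :=
  ∀ M : RMap Γ.pres, M.area ≤ K * g → nArcs M ≤ K → nIrr M ≤ K →
    2 * M.area ≤ C * (nUS M + g * (nArcs M - nPin M c₀)) + g

end BGraph

/-! ## Vertex slots and random matchings -/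

/-- Vertices with prescribed sets of labels; `J` indexes the graphs. -/
structure Slots (P J : Type) where
  U : Type
  W : Type
  [fU : Fintype U]
  [dU : DecidableEq U]
  [fW : Fintype W]
  [dW : DecidableEq W]
  τU : U → Finset P
  τW : W → Finset P
  ιU : U → J
  ιW : W → J

attribute [instance] Slots.fU Slots.dU Slots.fW Slots.dW

namespace Slots

variable {P J : Type} [Fintype P] [DecidableEq P] [DecidableEq J] (S : Slots P J)

abbrev HU : Type := {p : S.U × P // p.2 ∈ S.τU p.1}
abbrev HW : Type := {p : S.W × P // p.2 ∈ S.τW p.1}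

/-- a colour preserving perfect matching of half-edges -/
def Matching : Type :=
  {σ : S.HU ≃ S.HW // ∀ h, (σ h).1.2 = h.1.2 ∧ S.ιW (σ h).1.1 = S.ιU h.1.1}

noncomputable instance : Fintype S.Matching := by
  unfold Matching; classical exact inferInstance

/-- the graph of a matching; edges are indexed by the `U`-half-edges -/
def graph (σ : S.Matching) : BGraph P S.U S.W S.HU where
  u h := h.1.1
  w h := (σ.1 h).1.1
  lab h := h.1.2
  foldU t t' h1 h2 := Subtype.ext (Prod.ext h1 h2)
  foldW t t' h1 h2 := σ.1.injective (Subtype.ext (Prod.ext h1 (by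
    rw [(σ.2 t).1, (σ.2 t').1]; exact h2)))

def cntU (j : J) (r : P) : ℕ := (Finset.univ.filter fun x : S.U => S.ιU x = j ∧ r ∈ S.τU x).card
def cntW (j : J) (r : P) : ℕ := (Finset.univ.filter fun y : S.W => S.ιW y = j ∧ r ∈ S.τW y).card
def cntU₂ (j : J) (r r' : P) : ℕ :=
  (Finset.univ.filter fun x : S.U => S.ιU x = j ∧ r ∈ S.τU x ∧ r' ∈ S.τU x).card

/-- The numerical requirements at scale `m`. -/
structure Good (q c m : ℕ) (Pi : Finset (P × P)) : Prop where
  bal : ∀ j r, S.cntU j r = S.cntW j r
  low : ∀ j r, (q + 1) * m ≤ S.cntU j r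
  up : ∀ j r, S.cntU j r ≤ (q + 1) * m + c
  pair : ∀ j r r', r ≠ r' → S.cntU₂ j r r' ≤ m + c
  pi : ∀ y r r', r ∈ S.τW y → r' ∈ S.τW y → r ≠ r' → (r, r') ∈ Pi

open Classical in
/-- matchings whose graph has girth `> g` -/
noncomputable def girthSet (g : ℕ) : Finset S.Matching :=
  Finset.univ.filter fun σ => (S.graph σ).Girth g

end Slots

/-- bound for the number of edges of one colour near two given vertices -/
def ballB (n g : ℕ) : ℕ := 2 * (n + 1) ^ (g + 1)

end Crest.Agent.R177
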