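import Crest.Agent.R177.DesignAux

/-! The vertex types: lines of a projective plane, and blocks (task DESIGN). -/

set_option autoImplicit false

namespace Crest.Agent.R177

open Finset

/-! ### Tables, characteristic two -/

def d2σ : Fin 13 → Finset (Fin 9) :=
  ![{0, 1}, {0, 2}, {1, 2}, {3, 4}, {3, 5}, {4, 5}, {6, 7, 8}, {0, 3}, {0, 1, 2, 3, 4, 5},
    {0, 1, 2}, {6, 7}, {6, 8}, {7, 8}]

def d2a : Fin 3 → Fin 13 → ℕ :=
  ![![1, 1, 1, 1, 1, 1, 2, 0, 0, 0, 0, 0, 0], ![0, 0, 0, 0, 0, 0, 0, 0, 2, 0, 1, 1, 1],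
    ![0, 0, 0, 0, 0, 0, 0, 0, 2, 0, 1, 1, 1]]

def d2b : Fin 3 → Fin 13 → ℕ :=
  ![![1, 1, 1, 1, 1, 1, 3, 1, 0, 0, 0, 0, 0], ![0, 0, 0, 0, 0, 0, 0, 0, 2, 1, 1, 1, 1],
    ![0, 0, 0, 0, 0, 0, 0, 0, 2, 0, 1, 1, 1]]

def d2E : Fin 3 → Finset (Fin 9) := ![{0, 3, 6, 7, 8}, {0, 1, 2}, ∅]

theorem d2_ha : ∀ j i, ∑ k, (if i ∈ d2σ k then d2a j k else 0) = 2 := by decide +kernel

theorem d2_hb : ∀ j i, ∑ k, (if i ∈ d2σ k then d2b j k else 0) =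
    2 + if i ∈ d2E j then 1 else 0 := by decide +kernel

theorem d2_AB : ∀ k k', d2a 0 k + d2b 0 k ≠ 0 → d2a 1 k' + d2b 1 k' ≠ 0 →
    ((d2σ k ∩ d2σ k').card % 2 = 1 ↔ k = 7 ∧ k' = 9) := by decide +kernel

theorem d2_AC : ∀ k k', d2a 0 k + d2b 0 k ≠ 0 → d2a 2 k' + d2b 2 k' ≠ 0 →
    (d2σ k ∩ d2σ k').card % 2 = 0 := by decide +kernel

theorem design_pos {a b h : ℕ} (n : Fin (a * h + b)) : a + b ≠ 0 := by
  have := n.2
  intro h0
  obtain rfl : a = 0 := by omega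
  obtain rfl : b = 0 := by omega
  simp at this

/-- characteristic two: graphs `0 = A`, `1 = B`, `2 = C` -/
theorem design_two : ∃ (P : Type) (_ : Fintype P) (_ : DecidableEq P) (q c : ℕ)
    (Pi : Finset (P × P)), Pi.card < (q + 1) ^ 2 ∧ ∀ m : ℕ, 0 < m →
    ∃ S : Slots P (Fin 3), S.Good q c (2 * m) Pi ∧
      (∀ x x' : S.U, Odd (S.τU x ∩ S.τU x').card) ∧
      (∃ yA yB : S.W, S.ιW yA = 0 ∧ S.ιW yB = 1 ∧ ∀ y y' : S.W, S.ιW y = 0 → S.ιW y' = 1 →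
        (Odd (S.τW y ∩ S.τW y').card ↔ y = yA ∧ y' = yB)) ∧
      (∀ y y' : S.W, S.ιW y = 0 → S.ιW y' = 2 → Even (S.τW y ∩ S.τW y').card) ∧
      ∃ c₀ : S.U, S.ιU c₀ = 2 := by
  let t : Fin 3 → ℕ := ![63, 62, 8127]
  obtain ⟨L, _, _, D, l, l', hl, hl'⟩ := dplane_model 2 7 Nat.prime_two (by norm_num)
    (dline t (d2E 1) 0) (dline t (d2E 0) 1) (by rw [dline_card]; decide +kernel)
    (by rw [dline_card]; decide +kernel) (by rw [dline_inter]; decide +kernel)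
    (by rw [dpt_card]; decide +kernel)
  refine ⟨DPt 9 t, inferInstance, inferInstance, 2 ^ 7, 1, dPi 9 t,
    (dPi_card 9 t).trans_lt (by decide +kernel), fun m hm => ?_⟩
  let ex : Fin 3 → Option L := ![some l', some l, none]
  let κ : Fin 3 → Fin 4 := ![1, 0, 3]
  refine ⟨dSlots D ex κ d2σ d2a d2b m, dSlots_good D ex d2E κ d2σ d2a d2b m hm ?_ ?_ d2_ha d2_hb,
    ?_, ?_, ?_, ⟨⟨(2, l), ⟨0, by omega⟩⟩, rfl⟩⟩
  · intro j i
    fin_cases j <;> simp [ex, hl, hl', dline, d2E]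
  · rintro j ⟨⟨i, s⟩, c⟩
    fin_cases j <;> fin_cases i <;> simp [ex, hl, hl', dline, κ]
  · intro x x'
    rcases dSlots_inter D ex κ d2σ d2a d2b m x x' with h | h <;> rw [h] <;> decide
  · have hA : dν (t := t) κ d2a d2b m (2 ^ 7) 0 (Sum.inl 7) = 1 := by simp [dν, d2a, d2b]
    have hB : dν (t := t) κ d2a d2b m (2 ^ 7) 1 (Sum.inl 9) = 1 := by simp [dν, d2a, d2b]
    refine ⟨⟨(0, Sum.inl 7), ⟨0, by rw [hA]; omega⟩⟩, ⟨(1, Sum.inl 9), ⟨0, by rw [hB]; omega⟩⟩,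
      rfl, rfl, ?_⟩
    rintro ⟨⟨j, θ⟩, n⟩ ⟨⟨j', θ'⟩, n'⟩ (rfl : j = 0) (rfl : j' = 1)
    refine Iff.trans ?_ (and_congr
      (design_sigma_eq (μ := fun x => dν (t := t) κ d2a d2b m (2 ^ 7) x.1 x.2)
        (0, Sum.inl 7) hA _)
      (design_sigma_eq (μ := fun x => dν (t := t) κ d2a d2b m (2 ^ 7) x.1 x.2)
        (1, Sum.inl 9) hB _)).symm
    change Odd (dτ d2σ θ ∩ dτ d2σ θ').card ↔ _
    rcases θ with k | s <;> rcases θ' with k' | s'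
    · rw [dτ_inter_ll, Finset.card_map, Nat.odd_iff, d2_AB k k' (design_pos n) (design_pos n')]
      simp
    · rw [dτ_inter_lr]; simp
    · rw [dτ_inter_rl]; simp
    · rw [dτ_inter_rr]; split_ifs <;> simp
  · rintro ⟨⟨j, θ⟩, n⟩ ⟨⟨j', θ'⟩, n'⟩ (rfl : j = 0) (rfl : j' = 2)
    change Even (dτ d2σ θ ∩ dτ d2σ θ').card
    rcases θ with k | s <;> rcases θ' with k' | s'
    · rw [dτ_inter_ll, Finset.card_map, Nat.even_iff, d2_AC k k' (design_pos n) (design_pos n')]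
    · rw [dτ_inter_lr]; simp
    · rw [dτ_inter_rl]; simp
    · rw [dτ_inter_rr]; split_ifs <;> simp

/-! ### Tables, odd characteristic -/

def dOσ : Fin 11 → Finset (Fin 11) :=
  ![{0, 1, 2, 3, 4, 5, 6, 7, 8, 9, 10}, {0, 1, 2, 3}, {0, 4, 5, 6}, {0, 1, 4, 7}, {2, 3}, {5, 6},
    {2, 3, 8, 9}, {5, 6, 8, 9}, {8, 9}, {8, 10}, {9, 10}]

/-- the points with sign `+` -/
def dOφ : Fin 11 → Finset (Fin 11) :=
  ![∅, ∅, ∅, {0, 7}, {2}, {5}, {2, 3}, {5, 6}, {8}, {8}, {9}]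

def dOa (j : Bool × Fin 2) : Fin 11 → ℕ :=
  if j.1 then ![2, 0, 0, 0, 0, 0, 0, 0, 0, 0, 0] else ![0, 0, 0, 2, 2, 2, 0, 0, 1, 1, 1]

def dOb (j : Bool × Fin 2) : Fin 11 → ℕ :=
  if j.1 then ![![2, 1, 0, 0, 0, 0, 0, 0, 0, 0, 0], ![2, 0, 1, 0, 0, 0, 0, 0, 0, 0, 0]] j.2
  else ![![0, 0, 0, 2, 1, 2, 1, 0, 0, 1, 1], ![0, 0, 0, 2, 2, 1, 0, 1, 0, 1, 1]] j.2

def dOE (j : Bool × Fin 2) : Finset (Fin 11) :=
  if j.1 then ![{0, 1, 2, 3}, {0, 4, 5, 6}] j.2 else ∅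

def dOA : Fin 2 → Fin 11 := ![6, 7]
def dOB : Fin 2 → Fin 11 := ![1, 2]

theorem dO_ha : ∀ j i, ∑ k, (if i ∈ dOσ k then dOa j k else 0) = 2 := by decide +kernel

theorem dO_hb : ∀ j i, ∑ k, (if i ∈ dOσ k then dOb j k else 0) =
    2 + if i ∈ dOE j then 1 else 0 := by decide +kernel

theorem dO_AB : ∀ (i j : Fin 2) k k', dOa (false, i) k + dOb (false, i) k ≠ 0 →
    dOa (true, j) k' + dOb (true, j) k' ≠ 0 →
    ∑ r ∈ dOσ k ∩ dOσ k', sgn (decide (r ∈ dOφ k)) =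
      if i = j ∧ k = dOA i ∧ k' = dOB j then 2 else 0 := by decide +kernel

theorem dO_A : ∀ i, dOa (false, i) (dOA i) = 0 ∧ dOb (false, i) (dOA i) = 1 := by decide +kernel

theorem dO_B : ∀ i, dOa (true, i) (dOB i) = 0 ∧ dOb (true, i) (dOB i) = 1 := by decide +kernel

/-- the signs -/
def dOf {t : Fin 3 → ℕ} : Fin 11 ⊕ (Σ i : Fin 3, Fin (t i)) → DPt 11 t → Bool
  | Sum.inl k, Sum.inl r => decide (r ∈ dOφ k)
  | Sum.inr _, Sum.inr s => s.2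
  | _, _ => true

/-- odd characteristic: graphs `(false, i) = A i`, `(true, j) = B j` -/
theorem design_odd (p : ℕ) (hp : p.Prime) (hodd : Odd p) :
    ∃ (P : Type) (_ : Fintype P) (_ : DecidableEq P) (q c : ℕ)
    (Pi : Finset (P × P)), Pi.card < (q + 1) ^ 2 ∧ ∀ m : ℕ, 0 < m →
    ∃ S : Slots P (Bool × Fin 2), S.Good q c (2 * m) Pi ∧
      (∀ x x' : S.U, (((S.τU x ∩ S.τU x').card : ℕ) : ZMod p) = 1) ∧ Nonempty S.U ∧
      ∃ (f : S.W → P → Bool) (yA yB : Fin 2 → S.W),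
        (∀ i, S.ιW (yA i) = (false, i)) ∧ (∀ j, S.ιW (yB j) = (true, j)) ∧
        ∀ (i j : Fin 2) (y y' : S.W), S.ιW y = (false, i) → S.ιW y' = (true, j) →
          ∑ r ∈ S.τW y ∩ S.τW y', sgn (f y r) =
            if i = j ∧ y = yA i ∧ y' = yB j then 2 else 0 := by
  have hq : 128 ≤ p ^ 7 := by
    calc 128 = 2 ^ 7 := by norm_num
      _ ≤ p ^ 7 := Nat.pow_le_pow_left hp.two_le 7
  obtain ⟨u, hu⟩ : ∃ u, p ^ 7 = 2 * u + 3 := by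
    obtain ⟨v, hv⟩ : Odd (p ^ 7) := hodd.pow
    exact ⟨v - 1, by omega⟩
  let t : Fin 3 → ℕ := ![u, u, 2 * u * u + 5 * u + 1]
  have ht : 11 + 2 * (t 0 + t 1 + t 2) = (p ^ 7) ^ 2 + p ^ 7 + 1 := by
    rw [hu]; simp only [t, Matrix.cons_val_zero, Matrix.cons_val_one, Matrix.cons_val]; ring
  obtain ⟨L, _, _, D, l, l', hl, hl'⟩ := dplane_model p 7 hp (by norm_num)
    (dline t (dOE (true, 0)) 0) (dline t (dOE (true, 1)) 1)
    (by rw [dline_card, hu, show (dOE (true, 0)).card = 4 by decide +kernel]; simp [t]; omega)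
    (by rw [dline_card, hu, show (dOE (true, 1)).card = 4 by decide +kernel]; simp [t]; omega)
    (by rw [dline_inter]; decide +kernel) (by rw [dpt_card, ht])
  refine ⟨DPt 11 t, inferInstance, inferInstance, p ^ 7, 1, dPi 11 t,
    (dPi_card 11 t).trans_lt (by nlinarith), fun m hm => ?_⟩
  let ex : Bool × Fin 2 → Option L := fun j => if j.1 then some (![l, l'] j.2) else none
  let κ : Bool × Fin 2 → Fin 4 := fun j => if j.1 then ![0, 1] j.2 else 3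
  have hA : ∀ i, dν (t := t) κ dOa dOb m (p ^ 7) (false, i) (Sum.inl (dOA i)) = 1 := by
    intro i; simp [dν, dO_A]
  have hB : ∀ i, dν (t := t) κ dOa dOb m (p ^ 7) (true, i) (Sum.inl (dOB i)) = 1 := by
    intro i; simp [dν, dO_B]
  refine ⟨dSlots D ex κ dOσ dOa dOb m, dSlots_good D ex dOE κ dOσ dOa dOb m hm ?_ ?_ dO_ha dO_hb,
    ?_, ⟨⟨((false, 0), l), ⟨0, by omega⟩⟩⟩, fun y => dOf y.1.2,
    fun i => ⟨((false, i), Sum.inl (dOA i)), ⟨0, by rw [hA]; omega⟩⟩,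
    fun i => ⟨((true, i), Sum.inl (dOB i)), ⟨0, by rw [hB]; omega⟩⟩, fun _ => rfl, fun _ => rfl, ?_⟩
  · rintro ⟨_ | _, j⟩ i
    · simp [ex, dOE]
    · fin_cases j <;> simp [ex, hl, hl', dline]
  · rintro ⟨_ | _, j⟩ ⟨⟨i, s⟩, c⟩
    · fin_cases i <;> simp [ex, κ]
    · fin_cases j <;> fin_cases i <;> simp [ex, hl, hl', dline, κ]
  · intro x x'
    rcases dSlots_inter D ex κ dOσ dOa dOb m x x' with h | h <;> rw [h] <;> simp
  · rintro i j ⟨⟨i', θ⟩, n⟩ ⟨⟨j', θ'⟩, n'⟩ (rfl : i' = (false, i)) (rfl : j' = (true, j))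
    have e1 := design_sigma_eq (μ := fun x => dν (t := t) κ dOa dOb m (p ^ 7) x.1 x.2)
        ((false, i), Sum.inl (dOA i)) (hA i) ⟨((false, i), θ), n⟩
    have e2 := design_sigma_eq (μ := fun x => dν (t := t) κ dOa dOb m (p ^ 7) x.1 x.2)
        ((true, j), Sum.inl (dOB j)) (hB j) ⟨((true, j), θ'), n'⟩
    refine Eq.trans (b := if i = j ∧ θ = Sum.inl (dOA i) ∧ θ' = Sum.inl (dOB j) then 2 else 0) ?_ ?_
    swap
    · by_cases hc : i = j ∧ θ = Sum.inl (dOA i) ∧ θ' = Sum.inl (dOB j)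
      · rw [if_pos hc]
        exact (if_pos ⟨hc.1, e1.2 (by simp [hc.2.1]), e2.2 (by simp [hc.2.2])⟩).symm
      · rw [if_neg hc]
        exact (if_neg fun h => hc ⟨h.1, by simpa using e1.1 h.2.1, by simpa using e2.1 h.2.2⟩).symm
    change ∑ r ∈ dτ dOσ θ ∩ dτ dOσ θ', sgn (dOf θ r) = _
    rcases θ with k | s <;> rcases θ' with k' | s'
    · rw [dτ_inter_ll, Finset.sum_map]
      refine (dO_AB i j k k' (design_pos n) (design_pos n')).trans ?_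
      simp
    · rw [dτ_inter_lr]; simp
    · rw [dτ_inter_rl]; simp
    · rw [dτ_inter_rr]; split_ifs <;> simp_all [dOf, sgn]

end Crest.Agent.R177
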