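import Crest.Agent.R177.Defs

/-! Projective planes as families of finsets, and their transport to a coordinate model
(auxiliary file for `Design.lean`). -/

set_option autoImplicit false

namespace Crest.Agent.R177

open Finset

/-- The incidence facts about a projective plane of order `q` that the design uses. -/
structure DPlane (P L : Type) [Fintype P] [DecidableEq P] [Fintype L] (q : ℕ) where
  pts : L → Finset P
  card_pts : ∀ l, (pts l).card = q + 1
  card_lines : ∀ r, (univ.filter fun l => r ∈ pts l).card = q + 1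
  inter : ∀ l l', l ≠ l' → (pts l ∩ pts l').card = 1
  pair : ∀ r r', r ≠ r' → (univ.filter fun l => r ∈ pts l ∧ r' ∈ pts l).card ≤ 1

open scoped LinearAlgebra.Projectivization in
theorem dplane_exists (p k : ℕ) (hp : p.Prime) (hk : k ≠ 0) :
    ∃ (P L : Type) (_ : Fintype P) (_ : DecidableEq P) (_ : Fintype L) (_ : DecidableEq L)
      (_ : DPlane P L (p ^ k)) (l l' : L), l ≠ l' ∧
      Fintype.card P = (p ^ k) ^ 2 + p ^ k + 1 := by
  classical
  have : Fact p.Prime := ⟨hp⟩
  let K := GaloisField p k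
  let P := ℙ K (Fin 3 → K)
  have : Finite K := inferInstance
  have : Finite P := inferInstance
  let _ : Fintype P := Fintype.ofFinite P
  have hK : Nat.card K = p ^ k := GaloisField.card p k hk
  have hP : Fintype.card P = (p ^ k) ^ 2 + p ^ k + 1 := by
    rw [← Nat.card_eq_fintype_card]
    have := Projectivization.card_of_finrank K (Fin 3 → K) (n := 3) (by simp)
    rw [this, hK]
    simp [Finset.sum_range_succ]
    ring
  have ho : Configuration.ProjectivePlane.order P P = p ^ k := by
    have h := Configuration.ProjectivePlane.card_points P P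
    rw [hP] at h
    generalize Configuration.ProjectivePlane.order P P = o at h
    generalize p ^ k = q at h
    rcases lt_trichotomy o q with h1 | h1 | h1
    · nlinarith
    · exact h1
    · nlinarith
  obtain ⟨p₁, p₂, p₃, l₁, l₂, l₃, h₁₂, h₁₃, h₂₁, h₂₂, h₂₃, h₃₁, h₃₂, h₃₃⟩ :=
    Configuration.ProjectivePlane.exists_config (P := P) (L := P)
  refine ⟨P, P, inferInstance, inferInstance, inferInstance, inferInstance,
    ⟨fun l => univ.filter fun r => r ∈ l, ?_, ?_, ?_, ?_⟩, l₁, l₂, ?_, hP⟩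
  · intro l
    have := Configuration.ProjectivePlane.pointCount_eq P l
    rw [ho, Configuration.pointCount, Nat.card_eq_fintype_card, Fintype.card_subtype] at this
    exact this
  · intro r
    have := Configuration.ProjectivePlane.lineCount_eq P r
    rw [ho, Configuration.lineCount, Nat.card_eq_fintype_card, Fintype.card_subtype] at this
    simpa using this
  · intro l l' h
    obtain ⟨x, hx, hu⟩ := Configuration.HasPoints.existsUnique_point P P l l' h
    rw [Finset.card_eq_one]
    refine ⟨x, ?_⟩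
    ext y
    simp only [mem_inter, mem_filter, mem_univ, true_and, mem_singleton]
    exact ⟨fun hy => hu y hy, fun hy => hy ▸ hx⟩
  · intro r r' h
    rw [Finset.card_le_one]
    intro a ha b hb
    simp only [mem_filter, mem_univ, true_and] at ha hb
    exact (Configuration.Nondegenerate.eq_or_eq ha.1 ha.2 hb.1 hb.2).resolve_left h
  · rintro rfl
    exact h₂₁ h₂₂

/-- two finsets with the same "Venn diagram" numbers can be matched by a bijection -/
theorem design_venn {X Y : Type} [Fintype X] [DecidableEq X] [Fintype Y] [DecidableEq Y]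
    (A B : Finset X) (A' B' : Finset Y) (hA : A.card = A'.card) (hB : B.card = B'.card)
    (hAB : (A ∩ B).card = (A' ∩ B').card) (h : Fintype.card X = Fintype.card Y) :
    ∃ e : X ≃ Y, (∀ x, e x ∈ A' ↔ x ∈ A) ∧ (∀ x, e x ∈ B' ↔ x ∈ B) := by
  have key : ∀ {Z : Type} [Fintype Z] [DecidableEq Z] (A B : Finset Z),
      (univ.filter fun z => (decide (z ∈ A), decide (z ∈ B)) = (true, true)).card = (A ∩ B).card ∧
      (univ.filter fun z => (decide (z ∈ A), decide (z ∈ B)) = (true, false)).card + (A ∩ B).card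
        = A.card ∧
      (univ.filter fun z => (decide (z ∈ A), decide (z ∈ B)) = (false, true)).card + (A ∩ B).card
        = B.card ∧
      (univ.filter fun z => (decide (z ∈ A), decide (z ∈ B)) = (false, false)).card + A.card + B.card
        = Fintype.card Z + (A ∩ B).card := by
    intro Z _ _ A B
    refine ⟨?_, ?_, ?_, ?_⟩
    · congr 1; ext z; simp
    · rw [← Finset.card_sdiff_add_card_inter A B]; congr 2; ext z; simp
    · rw [← Finset.card_sdiff_add_card_inter B A, Finset.inter_comm B A]; congr 2; ext z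
      simp [and_comm]
    · have h1 := Finset.card_union_add_card_inter A B
      have h2 := Finset.card_compl_add_card (A ∪ B)
      have h3 : (univ.filter fun z => (decide (z ∈ A), decide (z ∈ B)) = (false, false))
          = (A ∪ B)ᶜ := by ext z; simp
      rw [h3]; omega
  obtain ⟨a1, a2, a3, a4⟩ := key A B
  obtain ⟨b1, b2, b3, b4⟩ := key A' B'
  have hc : ∀ c : Bool × Bool,
      Fintype.card {x // (decide (x ∈ A), decide (x ∈ B)) = c} =
      Fintype.card {y // (decide (y ∈ A'), decide (y ∈ B')) = c} := by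
    rintro ⟨_ | _, _ | _⟩ <;> rw [Fintype.card_subtype, Fintype.card_subtype] <;> omega
  let e := Equiv.ofFiberEquiv fun c => Fintype.equivOfCardEq (hc c)
  have he := Equiv.ofFiberEquiv_map fun c => Fintype.equivOfCardEq (hc c)
  refine ⟨e, fun x => ?_, fun x => ?_⟩
  · exact decide_eq_decide.mp (congrArg Prod.fst (he x))
  · exact decide_eq_decide.mp (congrArg Prod.snd (he x))

/-- a plane of prime power order on any set of the right size, with two prescribed lines -/
theorem dplane_model (p k : ℕ) (hp : p.Prime) (hk : k ≠ 0) {Y : Type} [Fintype Y] [DecidableEq Y]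
    (A B : Finset Y) (hA : A.card = p ^ k + 1) (hB : B.card = p ^ k + 1)
    (hAB : (A ∩ B).card = 1) (hY : Fintype.card Y = (p ^ k) ^ 2 + p ^ k + 1) :
    ∃ (L : Type) (_ : Fintype L) (_ : DecidableEq L) (D : DPlane Y L (p ^ k)) (l l' : L),
      D.pts l = A ∧ D.pts l' = B := by
  obtain ⟨P, L, _, _, _, _, D, l, l', hl, hP⟩ := dplane_exists p k hp hk
  obtain ⟨e, h1, h2⟩ := design_venn (D.pts l) (D.pts l') A B (by rw [D.card_pts, hA])
    (by rw [D.card_pts, hB]) (by rw [D.inter l l' hl, hAB]) (by rw [hP, hY])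
  refine ⟨L, inferInstance, inferInstance,
    ⟨fun l => (D.pts l).map e.toEmbedding, ?_, ?_, ?_, ?_⟩, l, l', ?_, ?_⟩
  · intro l; rw [Finset.card_map, D.card_pts]
  · intro r
    rw [← D.card_lines (e.symm r)]
    congr 1; ext l; simp
  · intro l l' h
    rw [← Finset.map_inter, Finset.card_map, D.inter l l' h]
  · intro r r' h
    have := D.pair (e.symm r) (e.symm r') (fun h' => h (e.symm.injective h'))
    convert this using 2
    ext l; simp
  · ext y
    simp only [mem_map_equiv]
    rw [← h1]; simp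
  · ext y
    simp only [mem_map_equiv]
    rw [← h2]; simp

/-! ## Slots from multiplicity functions -/

theorem design_card_sigma {X : Type} [Fintype X] (μ : X → ℕ) (p : X → Prop) [DecidablePred p] :
    (univ.filter fun u : (Σ x : X, Fin (μ x)) => p u.1).card = ∑ x, if p x then μ x else 0 := by
  rw [Finset.card_filter, Fintype.sum_sigma]
  refine Finset.sum_congr rfl fun x _ => ?_
  by_cases h : p x <;> simp [h]

theorem design_sigma_eq {X : Type} {μ : X → ℕ} (x₀ : X) (h : μ x₀ = 1) (y : Σ x : X, Fin (μ x)) :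
    y = ⟨x₀, ⟨0, by omega⟩⟩ ↔ y.1 = x₀ := by
  constructor
  · rintro rfl; rfl
  · obtain ⟨x, n⟩ := y
    rintro (rfl : x = x₀)
    have := n.2
    congr 1
    ext
    simp only
    omega

/-- the points of the coordinate model: `N` special points and pairs -/
abbrev DPt (N : ℕ) (t : Fin 3 → ℕ) : Type := Fin N ⊕ ((Σ i : Fin 3, Fin (t i)) × Bool)

/-- the types of `W`-vertices -/
def dτ {N K : ℕ} {t : Fin 3 → ℕ} (σ : Fin K → Finset (Fin N)) :
    Fin K ⊕ (Σ i : Fin 3, Fin (t i)) → Finset (DPt N t)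
  | Sum.inl k => (σ k).map ⟨Sum.inl, Sum.inl_injective⟩
  | Sum.inr s => {Sum.inr (s, false), Sum.inr (s, true)}

/-- the two prescribed lines (`i = 0, 1`) -/
def dline {N : ℕ} (t : Fin 3 → ℕ) (A : Finset (Fin N)) (i : Fin 3) : Finset (DPt N t) :=
  A.disjSum (univ.filter fun s => s.1.1 = i)

theorem dline_card {N : ℕ} (t : Fin 3 → ℕ) (A : Finset (Fin N)) (i : Fin 3) :
    (dline t A i).card = A.card + 2 * t i := by
  rw [dline, Finset.card_disjSum]
  congr 1
  have : (univ.filter fun s : (Σ i : Fin 3, Fin (t i)) × Bool => s.1.1 = i)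
      = (univ.filter fun s : (Σ i : Fin 3, Fin (t i)) => s.1 = i) ×ˢ univ := by
    ext s; simp
  rw [this, Finset.card_product, design_card_sigma t (fun j => j = i)]
  simp [mul_comm]

theorem dline_inter {N : ℕ} (t : Fin 3 → ℕ) (A B : Finset (Fin N)) :
    (dline t A 0 ∩ dline t B 1).card = (A ∩ B).card := by
  have : dline t A 0 ∩ dline t B 1 = (A ∩ B).map ⟨Sum.inl, Sum.inl_injective⟩ := by
    ext (x | s)
    · simp [dline]
    · simp only [dline, mem_inter, inr_mem_disjSum, mem_filter, mem_univ, true_and, mem_map,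
        Function.Embedding.coeFn_mk, reduceCtorEq, and_false, exists_false, iff_false, not_and]
      intro h; rw [h]; decide
  rw [this, Finset.card_map]

theorem dpt_card (N : ℕ) (t : Fin 3 → ℕ) :
    Fintype.card (DPt N t) = N + 2 * (t 0 + t 1 + t 2) := by
  simp [Fin.sum_univ_three, mul_comm]

/-- the allowed pairs -/
def dPi (N : ℕ) (t : Fin 3 → ℕ) : Finset (DPt N t × DPt N t) :=
  (univ.image fun x : Fin N × Fin N => (Sum.inl x.1, Sum.inl x.2)) ∪
    univ.image fun s : (Σ i : Fin 3, Fin (t i)) × Bool => (Sum.inr s, Sum.inr (s.1, !s.2))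

theorem dPi_card (N : ℕ) (t : Fin 3 → ℕ) :
    (dPi N t).card ≤ N * N + 2 * (t 0 + t 1 + t 2) := by
  refine (Finset.card_union_le _ _).trans (Nat.add_le_add ?_ ?_)
  · exact Finset.card_image_le.trans (by simp)
  · exact Finset.card_image_le.trans (by simp [Fin.sum_univ_three, mul_comm])

theorem dPi_mem {N K : ℕ} {t : Fin 3 → ℕ} (σ : Fin K → Finset (Fin N))
    (θ : Fin K ⊕ (Σ i : Fin 3, Fin (t i))) (r r' : DPt N t) (h : r ∈ dτ σ θ) (h' : r' ∈ dτ σ θ)
    (hne : r ≠ r') : (r, r') ∈ dPi N t := by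
  rcases θ with k | s
  · simp only [dτ, mem_map, Function.Embedding.coeFn_mk] at h h'
    obtain ⟨a, -, rfl⟩ := h
    obtain ⟨b, -, rfl⟩ := h'
    exact Finset.mem_union_left _ (Finset.mem_image.2 ⟨(a, b), mem_univ _, rfl⟩)
  · simp only [dτ, mem_insert, mem_singleton] at h h'
    refine Finset.mem_union_right _ ?_
    rcases h with rfl | rfl <;> rcases h' with rfl | rfl
    · exact absurd rfl hne
    · exact Finset.mem_image.2 ⟨(s, false), mem_univ _, rfl⟩
    · exact Finset.mem_image.2 ⟨(s, true), mem_univ _, rfl⟩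
    · exact absurd rfl hne

section Build

variable {N K q : ℕ} {t : Fin 3 → ℕ} {L J : Type} [Fintype L] [DecidableEq L] [Fintype J]
  [DecidableEq J] (D : DPlane (DPt N t) L q) (ex : J → Option L) (E : J → Finset (Fin N))
  (κ : J → Fin 4) (σ : Fin K → Finset (Fin N)) (a b : J → Fin K → ℕ) (m : ℕ)

/-- multiplicities of the `W`-types -/
def dν (q : ℕ) (j : J) : Fin K ⊕ (Σ i : Fin 3, Fin (t i)) → ℕ
  | Sum.inl k => a j k * ((q + 1) * m - 1) + b j k
  | Sum.inr s => (q + 1) * (2 * m) + if s.1.castSucc = κ j then 1 else 0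

/-- the slots -/
def dSlots : Slots (DPt N t) J where
  U := Σ x : J × L, Fin (2 * m + if ex x.1 = some x.2 then 1 else 0)
  W := Σ x : J × (Fin K ⊕ (Σ i : Fin 3, Fin (t i))), Fin (dν κ a b m q x.1 x.2)
  τU x := D.pts x.1.2
  τW y := dτ σ y.1.2
  ιU x := x.1.1
  ιW y := y.1.1

theorem dSlots_cntU (j : J) (r : DPt N t) :
    (dSlots D ex κ σ a b m).cntU j r =
      (q + 1) * (2 * m) + if ∃ l, ex j = some l ∧ r ∈ D.pts l then 1 else 0 := by
  have := design_card_sigma (fun x : J × L => 2 * m + if ex x.1 = some x.2 then 1 else 0)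
    (fun x => x.1 = j ∧ r ∈ D.pts x.2)
  refine this.trans ?_
  rw [Fintype.sum_prod_type, Finset.sum_eq_single j (by intro i _ hi; simp [hi]) (by simp)]
  simp only [true_and]
  rw [← Finset.sum_filter, Finset.sum_add_distrib, Finset.sum_const, D.card_lines, smul_eq_mul]
  congr 1
  split_ifs with h
  · obtain ⟨l, h1, h2⟩ := h
    simp only [h1, Option.some.injEq]
    rw [Finset.sum_ite_eq]
    simp [h2]
  · refine Finset.sum_eq_zero fun l hl => if_neg fun h1 => h ⟨l, h1, (Finset.mem_filter.1 hl).2⟩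

theorem dSlots_cntU₂ (j : J) (r r' : DPt N t) (h : r ≠ r') :
    (dSlots D ex κ σ a b m).cntU₂ j r r' ≤ 2 * m + 1 := by
  have := design_card_sigma (fun x : J × L => 2 * m + if ex x.1 = some x.2 then 1 else 0)
    (fun x => x.1 = j ∧ r ∈ D.pts x.2 ∧ r' ∈ D.pts x.2)
  refine this.le.trans ?_
  rw [Fintype.sum_prod_type, Finset.sum_eq_single j (by intro i _ hi; simp [hi]) (by simp)]
  simp only [true_and]
  rw [← Finset.sum_filter]
  refine (Finset.sum_le_card_nsmul _ _ (2 * m + 1) fun l _ => by split_ifs <;> omega).trans ?_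
  have := D.pair r r' h
  rw [smul_eq_mul]
  nlinarith

theorem dSlots_cntW (j : J) (r : DPt N t) :
    (dSlots D ex κ σ a b m).cntW j r = ∑ θ, if r ∈ dτ σ θ then dν κ a b m q j θ else 0 := by
  have := design_card_sigma
    (fun x : J × (Fin K ⊕ (Σ i : Fin 3, Fin (t i))) => dν κ a b m q x.1 x.2)
    (fun x => x.1 = j ∧ r ∈ dτ σ x.2)
  refine this.trans ?_
  rw [Fintype.sum_prod_type, Finset.sum_eq_single j (by intro i _ hi; simp [hi]) (by simp)]
  simp only [true_and]

theorem dSlots_good (hm : 0 < m)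
    (hE : ∀ j i, (∃ l, ex j = some l ∧ Sum.inl i ∈ D.pts l) ↔ i ∈ E j)
    (hκ : ∀ j s, (∃ l, ex j = some l ∧ Sum.inr s ∈ D.pts l) ↔ s.1.1.castSucc = κ j)
    (ha : ∀ j i, ∑ k, (if i ∈ σ k then a j k else 0) = 2)
    (hb : ∀ j i, ∑ k, (if i ∈ σ k then b j k else 0) = 2 + if i ∈ E j then 1 else 0) :
    (dSlots D ex κ σ a b m).Good q 1 (2 * m) (dPi N t) where
  bal j r := by
    rw [dSlots_cntU, dSlots_cntW, Fintype.sum_sum_type]
    rcases r with i | ⟨s, c⟩
    · have h1 : ∀ k, (if (Sum.inl i : DPt N t) ∈ dτ σ (Sum.inl k) then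
          dν (t := t) κ a b m q j (Sum.inl k) else 0) =
          (if i ∈ σ k then a j k else 0) * ((q + 1) * m - 1) + (if i ∈ σ k then b j k else 0) := by
        intro k
        by_cases h : i ∈ σ k <;> simp [dτ, dν, h]
      have h2 : ∀ s, (if (Sum.inl i : DPt N t) ∈ dτ σ (Sum.inr s) then
          dν (t := t) κ a b m q j (Sum.inr s) else 0) = 0 := by
        intro s; simp [dτ]
      simp only [h1, h2, Finset.sum_add_distrib, ← Finset.sum_mul, ha, hb, hE,
        Finset.sum_const_zero]
      have : 1 ≤ (q + 1) * m := Nat.mul_pos (by omega) hm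
      have e : (q + 1) * (2 * m) = 2 * ((q + 1) * m) := by ring
      omega
    · have h1 : ∀ k, (if (Sum.inr (s, c) : DPt N t) ∈ dτ σ (Sum.inl k) then
          dν (t := t) κ a b m q j (Sum.inl k) else 0) = 0 := by
        intro k; simp [dτ]
      have h2 : ∀ s', (if (Sum.inr (s, c) : DPt N t) ∈ dτ σ (Sum.inr s') then
          dν (t := t) κ a b m q j (Sum.inr s') else 0) =
          if s = s' then dν (t := t) κ a b m q j (Sum.inr s') else 0 := by
        intro s'
        congr 1
        cases c <;> simp [dτ]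
      simp only [h1, h2, Finset.sum_const_zero, Finset.sum_ite_eq, mem_univ, if_true, hκ,
        zero_add]
      rfl
  low j r := by rw [dSlots_cntU]; omega
  up j r := by rw [dSlots_cntU]; split_ifs <;> omega
  pair j r r' h := dSlots_cntU₂ D ex κ σ a b m j r r' h
  pi y r r' h h' hne := dPi_mem σ y.1.2 r r' h h' hne

theorem dSlots_inter (x x' : (dSlots D ex κ σ a b m).U) :
    ((dSlots D ex κ σ a b m).τU x ∩ (dSlots D ex κ σ a b m).τU x').card = 1 ∨
    ((dSlots D ex κ σ a b m).τU x ∩ (dSlots D ex κ σ a b m).τU x').card = q + 1 := by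
  change (D.pts x.1.2 ∩ D.pts x'.1.2).card = 1 ∨ (D.pts x.1.2 ∩ D.pts x'.1.2).card = q + 1
  by_cases h : x.1.2 = x'.1.2
  · right; rw [h, Finset.inter_self, D.card_pts]
  · left; exact D.inter _ _ h

end Build

theorem dτ_inter_ll {N K : ℕ} {t : Fin 3 → ℕ} (σ : Fin K → Finset (Fin N)) (k k' : Fin K) :
    dτ (t := t) σ (Sum.inl k) ∩ dτ σ (Sum.inl k') =
      (σ k ∩ σ k').map ⟨Sum.inl, Sum.inl_injective⟩ := by
  simp [dτ, Finset.map_inter]

theorem dτ_inter_lr {N K : ℕ} {t : Fin 3 → ℕ} (σ : Fin K → Finset (Fin N)) (k : Fin K)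
    (s : Σ i : Fin 3, Fin (t i)) : dτ (t := t) σ (Sum.inl k) ∩ dτ σ (Sum.inr s) = ∅ := by
  ext (x | x) <;> simp [dτ]

theorem dτ_inter_rl {N K : ℕ} {t : Fin 3 → ℕ} (σ : Fin K → Finset (Fin N)) (k : Fin K)
    (s : Σ i : Fin 3, Fin (t i)) : dτ (t := t) σ (Sum.inr s) ∩ dτ σ (Sum.inl k) = ∅ := by
  rw [Finset.inter_comm, dτ_inter_lr]

theorem dτ_inter_rr {N K : ℕ} {t : Fin 3 → ℕ} (σ : Fin K → Finset (Fin N))
    (s s' : Σ i : Fin 3, Fin (t i)) : dτ (t := t) σ (Sum.inr s) ∩ dτ σ (Sum.inr s') =
      if s = s' then {Sum.inr (s, false), Sum.inr (s, true)} else ∅ := by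
  split_ifs with h
  · subst h; simp [dτ]
  · ext (x | ⟨x, c⟩)
    · simp [dτ]
    · simp only [dτ, mem_inter, mem_insert, Sum.inr.injEq, Prod.mk.injEq, mem_singleton,
        notMem_empty, iff_false, not_and]
      rintro (⟨rfl, -⟩ | ⟨rfl, -⟩) (⟨h', -⟩ | ⟨h', -⟩) <;> exact h h'

end Crest.Agent.R177
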