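import Mathlib
import Crest.Prelude.Def_GroupRingDet
import Crest.Agent.R177.DetFK

set_option autoImplicit false

namespace Crest.Agent.R177.FK

open Crest.AlgebraR.GroupRingDet

section Basis

variable {ι : Type*} {H : Type*} [NormedAddCommGroup H] [InnerProductSpace ℂ H] [CompleteSpace H]

/-- An orthonormal family is the image of the basis under a bounded operator. -/
theorem exists_op (b : HilbertBasis ι ℂ H) (v : ι → H) (hv : Orthonormal ℂ v) :
    ∃ V : H →L[ℂ] H, ∀ x, V (b x) = v x := by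
  classical
  refine ⟨hv.orthogonalFamily.linearIsometry.toContinuousLinearMap.comp
    b.repr.toLinearIsometry.toContinuousLinearMap, fun x => ?_⟩
  change hv.orthogonalFamily.linearIsometry (b.repr (b x)) = v x
  rw [b.repr_self, OrthogonalFamily.linearIsometry_apply_single,
    LinearIsometry.toSpanSingleton_apply, one_smul]

omit [CompleteSpace H] in
theorem op_ext (b : HilbertBasis ι ℂ H) {S T : H →L[ℂ] H}
    (h : ∀ x y, inner ℂ (b x) (S (b y)) = inner ℂ (b x) (T (b y))) : S = T := by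
  have h1 : ∀ y, S (b y) = T (b y) := by
    intro y
    apply b.repr.injective
    ext x
    rw [b.repr_apply_apply, b.repr_apply_apply, h]
  ext v
  have e1 := (b.hasSum_repr v).mapL S
  have e2 := (b.hasSum_repr v).mapL T
  simp only [map_smul, h1] at e1 e2
  exact e1.unique e2

theorem hasSum_coeff_mul (b : HilbertBasis ι ℂ H) (S T : H →L[ℂ] H) (x y : ι) :
    HasSum (fun z => inner ℂ (b x) (S (b z)) * inner ℂ (b z) (T (b y)))
      (inner ℂ (b x) ((S * T) (b y))) := by
  have := b.hasSum_inner_mul_inner (ContinuousLinearMap.adjoint S (b x)) (T (b y))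
  simp only [ContinuousLinearMap.adjoint_inner_left] at this
  exact this

theorem coeff_star (b : HilbertBasis ι ℂ H) (S : H →L[ℂ] H) (x y : ι) :
    inner ℂ (b x) ((star S) (b y)) = starRingEnd ℂ (inner ℂ (b y) (S (b x))) := by
  rw [ContinuousLinearMap.star_eq_adjoint, ContinuousLinearMap.adjoint_inner_right, inner_conj_symm]

end Basis

variable {G : Type*} [Group G] {n : ℕ} {H : Type*} [NormedAddCommGroup H] [InnerProductSpace ℂ H]
  [CompleteSpace H]

omit [Group G] in
theorem coeff_mul_eq_sum (b : HilbertBasis (Fin n × G) ℂ H) (S T : H →L[ℂ] H) (x y : Fin n × G) :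
    inner ℂ (b x) ((S * T) (b y)) =
      ∑ l : Fin n, ∑' k : G, inner ℂ (b x) (S (b (l, k))) * inner ℂ (b (l, k)) (T (b y)) := by
  have h := hasSum_coeff_mul b S T x y
  rw [← h.tsum_eq, h.summable.tsum_prod, tsum_fintype]

/-- Operators whose matrix coefficients are invariant under right translation. -/
def rightInv (b : HilbertBasis (Fin n × G) ℂ H) : StarSubalgebra ℝ (H →L[ℂ] H) where
  carrier := {S | ∀ (i j : Fin n) (g h k : G),
    inner ℂ (b (i, h * k)) (S (b (j, g * k))) = inner ℂ (b (i, h)) (S (b (j, g)))}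
  mul_mem' := by
    intro S T hS hT i j g h k
    rw [coeff_mul_eq_sum, coeff_mul_eq_sum]
    refine Finset.sum_congr rfl fun l _ => ?_
    rw [← (Equiv.mulRight k).tsum_eq]
    refine tsum_congr fun m => ?_
    simp only [Equiv.coe_mulRight]
    rw [hS, hT]
  add_mem' := by
    intro S T hS hT i j g h k
    simp only [add_apply, inner_add_right]
    rw [hS, hT]
  algebraMap_mem' := by
    classical
    intro r i j g h k
    simp only [Algebra.algebraMap_eq_smul_one, smul_apply,
      one_apply_eq_self]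
    rw [← Complex.coe_smul, ← Complex.coe_smul, inner_smul_right, inner_smul_right,
      orthonormal_iff_ite.1 b.orthonormal, orthonormal_iff_ite.1 b.orthonormal]
    simp
  star_mem' := by
    intro S hS i j g h k
    rw [coeff_star, coeff_star, hS]

/-- The real part of the trace as a continuous linear functional. -/
noncomputable def trL (b : HilbertBasis (Fin n × G) ℂ H) : (H →L[ℂ] H) →L[ℝ] ℝ :=
  ∑ i : Fin n, Complex.reCLM.comp
    (((innerSL ℂ (b (i, 1))).comp (ContinuousLinearMap.apply ℂ H (b (i, 1)))).restrictScalars ℝ)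

omit [CompleteSpace H] in
theorem trL_apply (b : HilbertBasis (Fin n × G) ℂ H) (S : H →L[ℂ] H) :
    trL b S = opTrace b S := by
  simp [trL, opTrace]

theorem trace_comm (b : HilbertBasis (Fin n × G) ℂ H) :
    ∀ S ∈ rightInv b, ∀ T ∈ rightInv b, trL b (S * T) = trL b (T * S) := by
  intro S hS T hT
  rw [trL_apply, trL_apply, opTrace, opTrace, ← Complex.re_sum, ← Complex.re_sum]
  congr 1
  simp only [coeff_mul_eq_sum]
  rw [Finset.sum_comm]
  refine Finset.sum_congr rfl fun i _ => Finset.sum_congr rfl fun j _ => ?_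
  rw [← (Equiv.inv G).tsum_eq]
  refine tsum_congr fun k => ?_
  simp only [Equiv.inv_apply]
  rw [mul_comm, ← hS j i k⁻¹ 1 k, ← hT i j 1 k⁻¹ k]
  simp

omit [CompleteSpace H] in
theorem rep_unique (b : HilbertBasis (Fin n × G) ℂ H)
    {A : Matrix (Fin n) (Fin n) (MonoidAlgebra ℤ G)} {S T : H →L[ℂ] H}
    (hS : IsRegularRepOperator b A S) (hT : IsRegularRepOperator b A T) : S = T :=
  op_ext b fun x y => by rw [hS x.1 y.1 y.2 x.2, hT x.1 y.1 y.2 x.2]

theorem rep_mem (b : HilbertBasis (Fin n × G) ℂ H)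
    {A : Matrix (Fin n) (Fin n) (MonoidAlgebra ℤ G)} {S : H →L[ℂ] H}
    (hS : IsRegularRepOperator b A S) : S ∈ rightInv b := by
  intro i j g h k
  rw [hS, hS]
  congr 2
  group

omit [CompleteSpace H] in
theorem rep_add (b : HilbertBasis (Fin n × G) ℂ H)
    {A B : Matrix (Fin n) (Fin n) (MonoidAlgebra ℤ G)} {S T : H →L[ℂ] H}
    (hS : IsRegularRepOperator b A S) (hT : IsRegularRepOperator b B T) :
    IsRegularRepOperator b (A + B) (S + T) := by
  intro i j g h
  simp only [add_apply, inner_add_right]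
  rw [hS, hT]
  simp

omit [CompleteSpace H] in
theorem rep_zero (b : HilbertBasis (Fin n × G) ℂ H) : IsRegularRepOperator b 0 0 := by
  intro i j g h
  simp

omit [CompleteSpace H] in
theorem rep_one (b : HilbertBasis (Fin n × G) ℂ H) : IsRegularRepOperator b 1 1 := by
  classical
  intro i j g h
  rw [one_apply_eq_self, orthonormal_iff_ite.1 b.orthonormal, Matrix.one_apply]
  by_cases hij : i = j
  · subst hij
    by_cases hg : h = g
    · subst hg
      simp [MonoidAlgebra.one_def]
    · have : (1 : G) ≠ h * g⁻¹ := fun h' => hg (mul_inv_eq_one.1 h'.symm)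
      simp [MonoidAlgebra.one_def, hg, this]
  · simp [hij]

theorem tsum_coeff_mul (x y : MonoidAlgebra ℤ G) (g h : G) :
    ∑' k : G, ((x.coeff (h * k⁻¹) : ℤ) : ℂ) * ((y.coeff (k * g⁻¹) : ℤ) : ℂ) =
      (((x * y).coeff (h * g⁻¹) : ℤ) : ℂ) := by
  rw [MonoidAlgebra.coeff_mul_apply_right, ← (Equiv.mulRight g).tsum_eq, Finsupp.sum,
    tsum_eq_sum (s := y.coeff.support)]
  · push_cast
    refine Finset.sum_congr rfl fun m _ => ?_
    simp [mul_assoc]
  · intro m hm
    simp [Finsupp.notMem_support_iff.1 hm]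

theorem rep_mul (b : HilbertBasis (Fin n × G) ℂ H)
    {A B : Matrix (Fin n) (Fin n) (MonoidAlgebra ℤ G)} {S T : H →L[ℂ] H}
    (hS : IsRegularRepOperator b A S) (hT : IsRegularRepOperator b B T) :
    IsRegularRepOperator b (A * B) (S * T) := by
  intro i j g h
  rw [coeff_mul_eq_sum, Matrix.mul_apply]
  simp only [hS i, hT _ j, tsum_coeff_mul]
  simp

theorem rep_single (b : HilbertBasis (Fin n × G) ℂ H) (i j : Fin n) (k : G) (c : ℤ) :
    ∃ T, IsRegularRepOperator b (Matrix.single i j (MonoidAlgebra.single k c)) T := by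
  classical
  let e : Fin n × G → Fin n × G := fun x => (Equiv.swap i j x.1, k * x.2)
  have he : Function.Injective e := by
    rintro ⟨a, g⟩ ⟨a', g'⟩ h
    simp only [e, Prod.mk.injEq, EmbeddingLike.apply_eq_iff_eq, mul_right_inj] at h
    exact Prod.ext h.1 h.2
  have h1 : Orthonormal ℂ (b ∘ e) := b.orthonormal.comp e he
  have h2 : Orthonormal ℂ (fun x => if x.1 = j then - b (e x) else b (e x)) :=
    h1.orthonormal_of_forall_eq_or_eq_neg fun x => by
      by_cases hx : x.1 = j <;> simp [hx]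
  obtain ⟨U, hU⟩ := exists_op b _ h1
  obtain ⟨V, hV⟩ := exists_op b _ h2
  refine ⟨((c : ℂ) / 2) • (U - V), fun i' j' g h => ?_⟩
  rw [smul_apply, sub_apply, hU, hV, inner_smul_right]
  by_cases hj : j' = j
  · subst hj
    simp only [Function.comp, if_true, sub_neg_eq_add, inner_add_right, e, Equiv.swap_apply_right,
      orthonormal_iff_ite.1 b.orthonormal]
    by_cases hi : i' = i
    · subst hi
      by_cases hk : h = k * g
      · subst hk
        simp
        ring
      · have : k ≠ h * g⁻¹ := fun h' => hk (by rw [h']; group)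
        simp [hk, this]
    · simp [hi, Ne.symm hi]
  · simp [hj, Ne.symm hj]

theorem rep_exists (b : HilbertBasis (Fin n × G) ℂ H)
    (A : Matrix (Fin n) (Fin n) (MonoidAlgebra ℤ G)) : ∃ T, IsRegularRepOperator b A T := by
  classical
  induction A using Matrix.induction_on' with
  | h_zero => exact ⟨0, rep_zero b⟩
  | h_add A B hA hB =>
    obtain ⟨S, hS⟩ := hA
    obtain ⟨T, hT⟩ := hB
    exact ⟨S + T, rep_add b hS hT⟩
  | h_std_basis i j x =>
    induction x using MonoidAlgebra.induction_linear with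
    | zero => exact ⟨0, by rw [Matrix.single_zero]; exact rep_zero b⟩
    | add x y hx hy =>
      obtain ⟨S, hS⟩ := hx
      obtain ⟨T, hT⟩ := hy
      exact ⟨S + T, by rw [Matrix.single_add]; exact rep_add b hS hT⟩
    | single k c => exact rep_single b i j k c

theorem trL_add_star (b : HilbertBasis (Fin n × G) ℂ H)
    {A : Matrix (Fin n) (Fin n) (MonoidAlgebra ℤ G)} {S : H →L[ℂ] H}
    (hS : IsRegularRepOperator b A S) :
    trL b (S + star S) = 2 * ∑ i, (((A i i).coeff 1 : ℤ) : ℝ) := by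
  rw [trL_apply, opTrace, Finset.mul_sum]
  refine Finset.sum_congr rfl fun i _ => ?_
  rw [add_apply, inner_add_right, coeff_star, hS]
  simp [two_mul]

/-- The logarithmic determinant from a factorisation through unipotent matrices and matrices
`1 + E` with `E * E = 2 E`. -/
theorem logDet_of_relation (b : HilbertBasis (Fin n × G) ℂ H)
    (N₁ N₂ E₁ E₂ Y : Matrix (Fin n) (Fin n) (MonoidAlgebra ℤ G))
    (hNN₁ : N₁ * N₁ = 0) (hNN₂ : N₂ * N₂ = 0)
    (hEE₁ : E₁ * E₁ = E₁ + E₁) (hEE₂ : E₂ * E₂ = E₂ + E₂)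
    (hrel : (1 + N₁) * ((1 + E₁) * Y) = (1 + N₂) * (1 + E₂)) (T : H →L[ℂ] H)
    (hT : IsRegularRepOperator b Y T) :
    logDet b T = ∑ i, (((N₂ i i).coeff 1 : ℤ) : ℝ) - ∑ i, (((N₁ i i).coeff 1 : ℤ) : ℝ) +
      Real.log 3 / 2 * (∑ i, (((E₂ i i).coeff 1 : ℤ) : ℝ) - ∑ i, (((E₁ i i).coeff 1 : ℤ) : ℝ)) := by
  obtain ⟨n₁, hn₁⟩ := rep_exists b N₁
  obtain ⟨n₂, hn₂⟩ := rep_exists b N₂
  obtain ⟨e₁, he₁⟩ := rep_exists b E₁
  obtain ⟨e₂, he₂⟩ := rep_exists b E₂
  have h := trace_log_of_relation (rightInv b) (trL b) (trace_comm b) n₁ n₂ e₁ e₂ T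
    (rep_mem b hn₁) (rep_mem b hn₂) (rep_mem b he₁) (rep_mem b he₂)
    (rep_unique b (rep_mul b hn₁ hn₁) (hNN₁ ▸ rep_zero b))
    (rep_unique b (rep_mul b hn₂ hn₂) (hNN₂ ▸ rep_zero b))
    (by rw [two_smul]; exact rep_unique b (rep_mul b he₁ he₁) (hEE₁ ▸ rep_add b he₁ he₁))
    (by rw [two_smul]; exact rep_unique b (rep_mul b he₂ he₂) (hEE₂ ▸ rep_add b he₂ he₂))
    (rep_unique b (rep_mul b (rep_add b (rep_one b) hn₁) (rep_mul b (rep_add b (rep_one b) he₁) hT))
      (hrel ▸ rep_mul b (rep_add b (rep_one b) hn₂) (rep_add b (rep_one b) he₂)))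
  rw [trL_add_star b hn₁, trL_add_star b hn₂, trL_add_star b he₁, trL_add_star b he₂,
    trL_apply] at h
  rw [logDet, h]
  ring

end Crest.Agent.R177.FK
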