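import Mathlib
import Crest.Prelude.Def_GroupRingDet
import Crest.Agent.R177.DetOp

/-! From a Leavitt-type family in the `z = -1` part of `𝔽_p[H]` to S0275 and S0276 (task DET). -/

set_option autoImplicit false

namespace Crest.Agent.R177

open Crest.AlgebraR.GroupRingDet

/-- A central idempotent carrying a two-by-two Leavitt family gives a one-sided inverse pair. -/
theorem not_directlyFinite_of_central_idem {R : Type*} [Ring R] (e A0 A1 B0 B1 : R)
    (hc : ∀ x : R, x * e = e * x) (hee : e * e = e) (h00 : A0 * B0 = e) (h11 : A1 * B1 = e)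
    (h10 : A1 * B0 = 0) (he : e ≠ 0) : ∃ a b : R, a * b = 1 ∧ b * a ≠ 1 := by
  have key : ∀ X Y : R, (e * X + (1 - e)) * (e * Y + (1 - e)) = e * (X * Y) + (1 - e) := by
    intro X Y
    have h1 : e * X * (e * Y) = e * (X * Y) := by
      rw [mul_assoc, ← mul_assoc X e Y, hc X, mul_assoc e X Y, ← mul_assoc e e, hee]
    have h2 : e * X * (1 - e) = 0 := by
      rw [mul_sub, mul_one, mul_assoc, hc X, ← mul_assoc, hee, sub_self]
    have h3 : (1 - e) * (e * Y) = 0 := by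
      rw [sub_mul, one_mul, ← mul_assoc, hee, sub_self]
    have h4 : (1 - e) * (1 - e) = 1 - e := by
      rw [mul_sub, mul_one, sub_mul, one_mul, hee, sub_self, sub_zero]
    rw [add_mul, mul_add, mul_add, h1, h2, h3, h4]; abel
  refine ⟨e * A0 + (1 - e), e * B0 + (1 - e), ?_, ?_⟩
  · rw [key, h00, hee]; abel
  · rw [key]
    intro h
    have h' : e * (B0 * A0) = e := by
      have : e * (B0 * A0) = e * (B0 * A0) + (1 - e) - (1 - e) := by abel
      rw [this, h]; abel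
    apply he
    have h1 : A1 * (e * (B0 * A0)) * B1 = 0 := by
      rw [← mul_assoc A1 e, hc A1, mul_assoc e A1, ← mul_assoc A1 B0, h10]; simp
    rw [h', hc A1, mul_assoc, h11, hee] at h1
    exact h1

theorem of_central {K H : Type*} [Semiring K] [Group H] (z : H) (hz : ∀ x : H, x * z = z * x)
    (x : MonoidAlgebra K H) : x * MonoidAlgebra.single z 1 = MonoidAlgebra.single z 1 * x := by
  induction x using MonoidAlgebra.induction_linear with
  | zero => simp
  | add x y hx hy => rw [add_mul, mul_add, hx, hy]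
  | single g c => rw [MonoidAlgebra.single_mul_single, MonoidAlgebra.single_mul_single, hz]; simp

theorem exists_not_directlyFinite (p : ℕ) [Fact p.Prime] (hodd : Odd p) (K : Type) [Field K]
    [Algebra (ZMod p) K] (H : Type) [Group H] (z : H) (hz1 : z ≠ 1) (hzz : z * z = 1)
    (hz : ∀ x : H, x * z = z * x) (a b : Fin 2 → MonoidAlgebra (ZMod p) H)
    (hab : ∀ i j, a i * b j = if i = j then 1 - MonoidAlgebra.of (ZMod p) H z else 0) :
    ∃ a b : MonoidAlgebra K H, a * b = 1 ∧ b * a ≠ 1 := by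
  have h2p : (2 : ZMod p) ≠ 0 := by
    intro h
    have h' : ((2 : ℕ) : ZMod p) = 0 := by exact_mod_cast h
    rw [ZMod.natCast_eq_zero_iff] at h'
    have := (Nat.prime_dvd_prime_iff_eq (Fact.out : p.Prime) Nat.prime_two).1 h'
    subst this
    exact absurd hodd (by decide)
  have h2 : (2 : K) ≠ 0 := by
    intro h
    apply h2p
    apply (algebraMap (ZMod p) K).injective
    rw [map_zero, ← h]
    exact map_ofNat _ 2
  set f := MonoidAlgebra.mapRingHom H (algebraMap (ZMod p) K) with hf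
  set w : MonoidAlgebra K H := 1 - MonoidAlgebra.single z 1 with hw
  have hfw : f (1 - MonoidAlgebra.of (ZMod p) H z) = w := by
    rw [map_sub, map_one, MonoidAlgebra.of_apply, hf, MonoidAlgebra.mapRingHom_single, map_one]
  have hwc : ∀ x : MonoidAlgebra K H, x * w = w * x := by
    intro x
    rw [hw, mul_sub, sub_mul, mul_one, one_mul, of_central z hz]
  have hww : w * w = (2 : K) • w := by
    have : (MonoidAlgebra.single z (1 : K)) * MonoidAlgebra.single z 1 = 1 := by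
      rw [MonoidAlgebra.single_mul_single, hzz, mul_one]; rfl
    rw [hw, mul_sub, mul_one, sub_mul, one_mul, this, two_smul]; abel
  refine not_directlyFinite_of_central_idem ((2 : K)⁻¹ • w) (f (a 0)) (f (a 1))
    ((2 : K)⁻¹ • f (b 0)) ((2 : K)⁻¹ • f (b 1)) ?_ ?_ ?_ ?_ ?_ ?_
  · intro x
    rw [mul_smul_comm, smul_mul_assoc, hwc]
  · rw [mul_smul_comm, smul_mul_assoc, hww, smul_smul, smul_smul]
    congr 1
    field_simp
  · rw [mul_smul_comm, ← map_mul, hab, if_pos rfl, hfw]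
  · rw [mul_smul_comm, ← map_mul, hab, if_pos rfl, hfw]
  · rw [mul_smul_comm, ← map_mul, hab, if_neg (by decide), map_zero, smul_zero]
  · intro h
    have h' : w = 0 := by
      rcases smul_eq_zero.1 h with h | h
      · exact absurd h (inv_ne_zero h2)
      · exact h
    have h3 : (1 : MonoidAlgebra K H) = MonoidAlgebra.single z 1 := sub_eq_zero.1 h'
    have h4 := congrArg (fun x : MonoidAlgebra K H => x.coeff 1) h3
    simp [MonoidAlgebra.one_def, hz1] at h4

theorem minFac_prime_odd (m : ℕ) (hm : 2 ≤ m) :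
    Nat.Prime (Nat.minFac (m.factorial ^ 2 + 1)) ∧ Odd (Nat.minFac (m.factorial ^ 2 + 1)) := by
  have hpos : 0 < m.factorial ^ 2 := pow_pos m.factorial_pos 2
  have hp : Nat.Prime (Nat.minFac (m.factorial ^ 2 + 1)) := Nat.minFac_prime (by omega)
  refine ⟨hp, hp.odd_of_ne_two ?_⟩
  intro h
  have h1 : 2 ∣ m.factorial ^ 2 + 1 := by
    have := Nat.minFac_dvd (m.factorial ^ 2 + 1)
    rwa [h] at this
  have h2 : 2 ∣ m.factorial ^ 2 := Dvd.dvd.pow (Nat.dvd_factorial (by norm_num) hm) (by norm_num)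
  omega

theorem two_le_choose (n k : ℕ) (hn : 2 ≤ n) (hk : k = n / 2) : 2 ≤ n.choose k := by
  have := Nat.choose_le_middle 1 n
  rw [Nat.choose_one_right, ← hk] at this
  omega

/-- `H` is finitely generated, `z` a central involution, and `a i * b j = δ_ij (1 - z)`. -/
def Leavitt (p : ℕ) : Prop :=
  ∃ (H : Type) (_ : Group H) (z : H), Group.FG H ∧ z ≠ 1 ∧ z * z = 1 ∧ (∀ x : H, x * z = z * x) ∧
    ∃ a b : Fin 2 → MonoidAlgebra (ZMod p) H, ∀ i j,
      a i * b j = if i = j then 1 - MonoidAlgebra.of (ZMod p) H z else 0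

theorem s0275_gen (h : ∀ p : ℕ, p.Prime → Odd p → Leavitt p) (p : ℕ) (hp : p.Prime)
    (hodd : Odd p) :
    ∃ (K : Type) (_ : Field K) (G : Type) (_ : Group G),
      Nat.card K = p ^ 4 ∧
      Group.FG G ∧ (∃ g : G, g ≠ 1 ∧ IsOfFinOrder g) ∧
      ∃ a b : MonoidAlgebra K G, a * b = 1 ∧ b * a ≠ 1 := by
  obtain ⟨H, _, z, hfg, hz1, hzz, hz, a, b, hab⟩ := h p hp hodd
  have : Fact p.Prime := ⟨hp⟩
  refine ⟨GaloisField p 4, inferInstance, H, inferInstance, GaloisField.card p 4 (by norm_num), hfg,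
    ⟨z, hz1, ?_⟩, exists_not_directlyFinite p hodd _ H z hz1 hzz hz a b hab⟩
  exact isOfFinOrder_iff_pow_eq_one.2 ⟨2, by norm_num, by rw [pow_two, hzz]⟩

theorem s0275_gen' (h : ∀ p : ℕ, p.Prime → Odd p → Leavitt p) (m : ℕ) (hm : 2 ≤ m) :
    Nat.Prime (Nat.minFac (m.factorial ^ 2 + 1)) ∧
    Odd (Nat.minFac (m.factorial ^ 2 + 1)) ∧
    ∃ (K : Type) (_ : Field K) (G : Type) (_ : Group G),
      Nat.card K = Nat.minFac (m.factorial ^ 2 + 1) ^ 4 ∧
      Group.FG G ∧ (∃ g : G, g ≠ 1 ∧ IsOfFinOrder g) ∧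
      ∃ a b : MonoidAlgebra K G, a * b = 1 ∧ b * a ≠ 1 :=
  ⟨(minFac_prime_odd m hm).1, (minFac_prime_odd m hm).2,
    s0275_gen h _ (minFac_prime_odd m hm).1 (minFac_prime_odd m hm).2⟩

theorem s0275_of_leavitt (h : ∀ p : ℕ, p.Prime → Odd p → Leavitt p) :
    Nat.Prime (Nat.minFac ((Nat.choose 1200 600).factorial ^ 2 + 1)) ∧
    Odd (Nat.minFac ((Nat.choose 1200 600).factorial ^ 2 + 1)) ∧
    ∃ (K : Type) (_ : Field K) (G : Type) (_ : Group G),
      Nat.card K = Nat.minFac ((Nat.choose 1200 600).factorial ^ 2 + 1) ^ 4 ∧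
      Group.FG G ∧ (∃ g : G, g ≠ 1 ∧ IsOfFinOrder g) ∧
      ∃ a b : MonoidAlgebra K G, a * b = 1 ∧ b * a ≠ 1 :=
  s0275_gen' h (Nat.choose 1200 600) (two_le_choose 1200 600 (by norm_num) (by norm_num))

theorem isUnit_of_relation {S : Type*} [Ring S] [Algebra ℚ S] (N₁ N₂ E₁ E₂ Y : S)
    (hNN₁ : N₁ * N₁ = 0) (hNN₂ : N₂ * N₂ = 0)
    (hEE₁ : E₁ * E₁ = E₁ + E₁) (hEE₂ : E₂ * E₂ = E₂ + E₂)
    (hrel : (1 + N₁) * ((1 + E₁) * Y) = (1 + N₂) * (1 + E₂)) : IsUnit Y := by
  have hN : ∀ N : S, N * N = 0 → IsUnit (1 + N) := fun N h =>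
    ⟨⟨1 + N, 1 - N, by rw [mul_sub, mul_one, add_mul, one_mul, h]; abel,
      by rw [mul_add, mul_one, sub_mul, one_mul, h]; abel⟩, rfl⟩
  have hE : ∀ E : S, E * E = E + E → IsUnit (1 + E) := fun E h =>
    ⟨⟨1 + E, 1 - (1 / 3 : ℚ) • E, by
        rw [mul_sub, mul_one, mul_smul_comm, add_mul, one_mul, h]; module,
      by rw [mul_add, mul_one, sub_mul, one_mul, smul_mul_assoc, h]; module⟩, rfl⟩
  have h1 : IsUnit ((1 + N₁) * ((1 + E₁) * Y)) := hrel ▸ (hN N₂ hNN₂).mul (hE E₂ hEE₂)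
  obtain ⟨u, hu⟩ := hN N₁ hNN₁
  obtain ⟨v, hv⟩ := hE E₁ hEE₁
  rw [← hu, ← hv, Units.isUnit_units_mul, Units.isUnit_units_mul] at h1
  exact h1

theorem exists_lift {H : Type*} [Group H] (x : MonoidAlgebra (ZMod 3) H) :
    ∃ y : MonoidAlgebra ℤ H, MonoidAlgebra.mapRingHom H (Int.castRingHom (ZMod 3)) y = x := by
  induction x using MonoidAlgebra.induction_linear with
  | zero => exact ⟨0, map_zero _⟩
  | add x y hx hy =>
    obtain ⟨x', hx⟩ := hx
    obtain ⟨y', hy⟩ := hy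
    exact ⟨x' + y', by rw [map_add, hx, hy]⟩
  | single g c =>
    obtain ⟨c', rfl⟩ := ZMod.intCast_surjective c
    exact ⟨MonoidAlgebra.single g c', by rw [MonoidAlgebra.mapRingHom_single]; rfl⟩

theorem exists_three_mul {H : Type*} [Group H] (x : MonoidAlgebra ℤ H)
    (hx : MonoidAlgebra.mapRingHom H (Int.castRingHom (ZMod 3)) x = 0) :
    ∃ y : MonoidAlgebra ℤ H, x = y + y + y := by
  refine ⟨MonoidAlgebra.ofCoeff (x.coeff.mapRange (· / 3) (by simp)), ?_⟩
  ext g
  have h1 := congrArg (fun u : MonoidAlgebra (ZMod 3) H => u.coeff g) hx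
  simp only [MonoidAlgebra.coeff_mapRingHom, eq_intCast, MonoidAlgebra.coeff_zero,
    Finsupp.coe_zero, Pi.zero_apply] at h1
  have h2 : ((3 : ℕ) : ℤ) ∣ x.coeff g := (ZMod.intCast_zmod_eq_zero_iff_dvd _ 3).1 h1
  simp only [MonoidAlgebra.coeff_add, Finsupp.add_apply, Finsupp.mapRange_apply]
  omega

/-- Integral data obtained from a Leavitt family modulo three. -/
theorem exists_integral_data {H : Type*} [Group H] (z : H) (hzz : z * z = 1)
    (a b : Fin 2 → MonoidAlgebra (ZMod 3) H)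
    (hab : ∀ i j, a i * b j = if i = j then 1 - MonoidAlgebra.of (ZMod 3) H z else 0) :
    ∃ (A B : Fin 2 → MonoidAlgebra ℤ H) (C : Fin 2 → Fin 2 → MonoidAlgebra ℤ H), ∀ i j,
      A i * B j + (1 + (1 - MonoidAlgebra.single z 1)) * C i j = if i = j then 1 else 0 := by
  choose A hA using fun i => exists_lift (a i)
  choose B hB using fun i => exists_lift (b i + b i)
  set s : MonoidAlgebra ℤ H := MonoidAlgebra.single z 1 with hs
  have hss : s * s = 1 := by
    rw [hs, MonoidAlgebra.single_mul_single, hzz, mul_one]; rfl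
  have key : ∀ i j, ∃ y : MonoidAlgebra ℤ H,
      (if i = j then 1 - (1 + s + (1 + s)) else 0) - A i * B j = y + y + y := by
    intro i j
    apply exists_three_mul
    rw [map_sub, map_mul, hA, hB, mul_add, hab]
    split_ifs with h
    · rw [map_sub, map_add, map_add, map_one, hs, MonoidAlgebra.mapRingHom_single, map_one,
        MonoidAlgebra.of_apply]
      have h3 : (1 : MonoidAlgebra (ZMod 3) H) + 1 + 1 = 0 := by
        rw [MonoidAlgebra.one_def, ← MonoidAlgebra.single_add, ← MonoidAlgebra.single_add]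
        have : (1 : ZMod 3) + 1 + 1 = 0 := by decide
        rw [this, MonoidAlgebra.single_zero]
      rw [← neg_eq_zero, ← h3]
      abel
    · simp
  choose y hy using key
  refine ⟨A, B, fun i j => (if i = j then 1 + s + (1 + s) else 0) + (1 + 1 + s) * y i j,
    fun i j => ?_⟩
  have e1 : (1 + (1 - s)) * (1 + s) = 1 + s := by
    have : (1 + (1 - s)) * (1 + s) = 1 + 1 + s - s * s := by noncomm_ring
    rw [this, hss]; abel
  have e2 : (1 + (1 - s)) * (1 + 1 + s) = 1 + 1 + 1 := by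
    have : (1 + (1 - s)) * (1 + 1 + s) = 1 + 1 + 1 + 1 - s * s := by noncomm_ring
    rw [this, hss]; abel
  have e3 : (1 + 1 + 1) * y i j = y i j + y i j + y i j := by noncomm_ring
  rw [mul_add, ← mul_assoc, e2, e3, ← hy i j]
  split_ifs with h
  · rw [mul_add, e1]; abel
  · simp

theorem matrix_relation {R : Type*} [Ring R] (w : R) (hw : ∀ x, x * w = w * x)
    (A B : Fin 2 → R) (C : Fin 2 → Fin 2 → R)
    (h : ∀ i j, A i * B j + (1 + w) * C i j = if i = j then 1 else 0) :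
    (1 + !![0, 0, 0; A 0, 0, 0; A 1, 0, 0]) * ((1 + !![0, 0, 0; 0, w, 0; 0, 0, w]) *
      !![1 + w, B 0, B 1; - A 0, C 0 0, C 0 1; - A 1, C 1 0, C 1 1]) =
    (1 + !![0, B 0, B 1; 0, 0, 0; 0, 0, 0]) * (1 + !![w, 0, 0; 0, 0, 0; 0, 0, 0]) := by
  have h00 := h 0 0
  have h01 := h 0 1
  have h10 := h 1 0
  have h11 := h 1 1
  have hc : ∀ x, x * (1 + w) = (1 + w) * x := fun x => by
    rw [mul_add, add_mul, mul_one, one_mul, hw]
  simp only [if_true, Fin.zero_eq_one_iff, Fin.one_eq_zero_iff] at h00 h01 h10 h11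
  rw [Matrix.one_fin_three]
  simp only [Matrix.of_add_of, Matrix.cons_add_cons, Matrix.empty_add_empty, Matrix.mul_fin_three,
    add_zero, zero_add, mul_zero, zero_mul, one_mul, mul_one]
  rw [h00, h01, h10, h11, hc (A 0), hc (A 1)]
  simp

theorem s0276_of_leavitt (h : Leavitt 3) :
    ∃ (G : Type) (_ : Group G) (n : ℕ) (A : Matrix (Fin n) (Fin n) (MonoidAlgebra ℤ G))
      (H : Type) (_ : NormedAddCommGroup H) (_ : InnerProductSpace ℂ H) (_ : CompleteSpace H)
      (b : HilbertBasis (Fin n × G) ℂ H) (T : H →L[ℂ] H),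
      Group.FG G ∧ 1 ≤ n ∧ IsUnit (A.map (MonoidAlgebra.mapRingHom G (Int.castRingHom ℚ))) ∧
      IsRegularRepOperator b A T ∧ logDet b T < 0 := by
  obtain ⟨G, _, z, hfg, hz1, hzz, hz, a, b, hab⟩ := h
  obtain ⟨A, B, C, hABC⟩ := exists_integral_data z hzz a b hab
  set w : MonoidAlgebra ℤ G := 1 - MonoidAlgebra.single z 1 with hw
  have hwc : ∀ x : MonoidAlgebra ℤ G, x * w = w * x := by
    intro x
    rw [hw, mul_sub, sub_mul, mul_one, one_mul, of_central z hz]
  have hww : w * w = w + w := by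
    have : (MonoidAlgebra.single z (1 : ℤ)) * MonoidAlgebra.single z 1 = 1 := by
      rw [MonoidAlgebra.single_mul_single, hzz, mul_one]; rfl
    rw [hw, mul_sub, mul_one, sub_mul, one_mul, this]; abel
  have hw1 : w.coeff 1 = 1 := by
    simp [hw, MonoidAlgebra.one_def, hz1]
  have hrel := matrix_relation w hwc A B C hABC
  set N₁ : Matrix (Fin 3) (Fin 3) (MonoidAlgebra ℤ G) := !![0, 0, 0; A 0, 0, 0; A 1, 0, 0] with hN₁
  set N₂ : Matrix (Fin 3) (Fin 3) (MonoidAlgebra ℤ G) := !![0, B 0, B 1; 0, 0, 0; 0, 0, 0] with hN₂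
  set E₁ : Matrix (Fin 3) (Fin 3) (MonoidAlgebra ℤ G) := !![0, 0, 0; 0, w, 0; 0, 0, w] with hE₁
  set E₂ : Matrix (Fin 3) (Fin 3) (MonoidAlgebra ℤ G) := !![w, 0, 0; 0, 0, 0; 0, 0, 0] with hE₂
  set Y : Matrix (Fin 3) (Fin 3) (MonoidAlgebra ℤ G) :=
    !![1 + w, B 0, B 1; - A 0, C 0 0, C 0 1; - A 1, C 1 0, C 1 1] with hY
  have hNN₁ : N₁ * N₁ = 0 := by
    rw [hN₁, Matrix.mul_fin_three]
    ext i j : 2
    fin_cases i <;> fin_cases j <;> simp
  have hNN₂ : N₂ * N₂ = 0 := by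
    rw [hN₂, Matrix.mul_fin_three]
    ext i j : 2
    fin_cases i <;> fin_cases j <;> simp
  have hEE₁ : E₁ * E₁ = E₁ + E₁ := by
    rw [hE₁, Matrix.mul_fin_three]
    ext i j : 2
    fin_cases i <;> fin_cases j <;> simp [hww]
  have hEE₂ : E₂ * E₂ = E₂ + E₂ := by
    rw [hE₂, Matrix.mul_fin_three]
    ext i j : 2
    fin_cases i <;> fin_cases j <;> simp [hww]
  let β : HilbertBasis (Fin 3 × G) ℂ (lp (fun _ : Fin 3 × G => ℂ) 2) := default
  obtain ⟨T, hT⟩ := FK.rep_exists β Y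
  refine ⟨G, inferInstance, 3, Y, lp (fun _ : Fin 3 × G => ℂ) 2, inferInstance, inferInstance,
    inferInstance, β, T, hfg, by norm_num, ?_, hT, ?_⟩
  · let f := (MonoidAlgebra.mapRingHom G (Int.castRingHom ℚ)).mapMatrix (m := Fin 3)
    change IsUnit (f Y)
    refine isUnit_of_relation (f N₁) (f N₂) (f E₁) (f E₂) (f Y) ?_ ?_ ?_ ?_ ?_
    · rw [← map_mul, hNN₁, map_zero]
    · rw [← map_mul, hNN₂, map_zero]
    · rw [← map_mul, hEE₁, map_add]
    · rw [← map_mul, hEE₂, map_add]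
    · have := congrArg f hrel
      simpa only [map_mul, map_add, map_one] using this
  · rw [FK.logDet_of_relation β N₁ N₂ E₁ E₂ Y hNN₁ hNN₂ hEE₁ hEE₂ hrel T hT]
    have hlog : 0 < Real.log 3 := Real.log_pos (by norm_num)
    simp [hN₁, hN₂, hE₁, hE₂, Fin.sum_univ_three, hw1]
    linarith

end Crest.Agent.R177
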