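import Crest.Agent.R177.Defs

/-! Auxiliary lemmas for the Euler count (task EULER). -/

set_option autoImplicit false

namespace Crest.Agent.R177

open Equiv Finset BGraph

section general

variable {D : Type} [Fintype D]

/-- the cycle of a dart -/
def eCyc (σ : Perm D) (d : D) : Quotient (Perm.SameCycle.setoid σ) := Quotient.mk _ d

omit [Fintype D] in
theorem eCyc_eq_iff (σ : Perm D) (x y : D) : eCyc σ x = eCyc σ y ↔ σ.SameCycle x y :=
  Quotient.eq

open Classical in
theorem eu_ncyc_eq (σ : Perm D) : ncyc σ = (univ.image (eCyc σ)).card := by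
  have : Fintype (Quotient (Perm.SameCycle.setoid σ)) := Fintype.ofFinite _
  rw [ncyc, Nat.card_eq_fintype_card, ← Finset.card_univ]
  congr 1
  ext q
  obtain ⟨d, rfl⟩ := Quotient.exists_rep q
  simp only [mem_univ, mem_image, true_and, true_iff]
  exact ⟨d, rfl⟩

open Classical in
/-- weighted bound for the number of cycles that meet a set -/
theorem eu_weight (σ : Perm D) (s : Finset D) (w : D → ℕ) (N : ℕ)
    (h : ∀ d ∈ s, N ≤ ∑ x ∈ univ.filter (fun x => σ.SameCycle d x), w x) :
    N * (s.image (eCyc σ)).card ≤ ∑ x, w x := by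
  rw [← Finset.sum_fiberwise_of_maps_to (s := univ) (t := univ.image (eCyc σ)) (g := eCyc σ)
    (fun x hx => mem_image_of_mem _ hx), mul_comm, ← smul_eq_mul, ← Finset.sum_const]
  refine le_trans (Finset.sum_le_sum fun q hq => ?_)
    (Finset.sum_le_sum_of_subset (image_subset_image (subset_univ s)))
  obtain ⟨d, hd, rfl⟩ := mem_image.1 hq
  refine (h d hd).trans (le_of_eq (Finset.sum_congr ?_ fun _ _ => rfl))
  ext x
  simp only [mem_filter, mem_univ, true_and, eCyc_eq_iff]
  exact Perm.sameCycle_comm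

open Classical in
theorem eu_ncyc_invol (ε : Perm D) :
    2 * ncyc ε ≤ Fintype.card D + (univ.filter fun d => ε d = d).card := by
  rw [eu_ncyc_eq]
  refine (eu_weight ε univ (fun d => 1 + if ε d = d then 1 else 0) 2 fun d _ => ?_).trans ?_
  · by_cases hd : ε d = d
    · refine le_trans ?_ (Finset.single_le_sum (a := d) (fun _ _ => Nat.zero_le _)
        (by simp [Perm.SameCycle.refl]))
      simp [hd]
    · have hsub : ({d, ε d} : Finset D) ⊆ univ.filter (fun x => ε.SameCycle d x) := by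
        intro x hx
        simp only [mem_insert, mem_singleton] at hx
        rcases hx with rfl | rfl <;> simp [Perm.SameCycle.refl]
      refine le_trans ?_ (Finset.sum_le_sum_of_subset hsub)
      rw [Finset.sum_pair (Ne.symm hd)]
      omega
  · rw [Finset.sum_add_distrib, Finset.card_filter]
    simp

theorem eu_conn_of_sameCycle (φ ε : Perm D) {x y : D} (h : (φ * ε).SameCycle x y) :
    Conn φ ε x y := by
  classical
  obtain ⟨n, -, rfl⟩ := h.exists_pow_eq'
  clear h
  induction n with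
  | zero => exact Relation.EqvGen.refl _
  | succ n ih =>
    rw [pow_succ', Perm.mul_apply, Perm.mul_apply]
    exact Relation.EqvGen.trans _ _ _ ih (Relation.EqvGen.trans _ _ _
      (Relation.EqvGen.rel _ _ (Or.inr rfl)) (Relation.EqvGen.rel _ _ (Or.inl rfl)))

open Classical in
theorem eu_holes_le (φ ε : Perm D) (h : DiscLike φ ε) :
    ((univ.filter fun d => ε d = d).image (eCyc (φ * ε))).card ≤ ncomp φ ε := by
  have : Fintype (Quotient (Relation.EqvGen.setoid fun x y => y = φ x ∨ y = ε x)) :=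
    Fintype.ofFinite _
  rw [ncomp, Nat.card_eq_fintype_card, ← Finset.card_univ]
  refine Finset.card_le_card_of_injOn
    (Quotient.lift (s := Perm.SameCycle.setoid (φ * ε))
      (fun d => Quotient.mk (Relation.EqvGen.setoid fun x y => y = φ x ∨ y = ε x) d)
      (fun x y hxy => Quotient.sound (eu_conn_of_sameCycle φ ε hxy)))
    (fun _ _ => mem_univ _) ?_
  intro q hq q' hq' hqq
  obtain ⟨u, hu, rfl⟩ := mem_image.1 (mem_coe.1 hq)
  obtain ⟨v, hv, rfl⟩ := mem_image.1 (mem_coe.1 hq')
  exact (eCyc_eq_iff _ _ _).2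
    (h.2 u v (mem_filter.1 hu).2 (mem_filter.1 hv).2 (Quotient.exact hqq))

theorem eu_ncomp_pos [Nonempty D] (φ ε : Perm D) : 0 < ncomp φ ε := by
  have : Nonempty (Quotient (Relation.EqvGen.setoid fun x y => y = φ x ∨ y = ε x)) :=
    ⟨Quotient.mk _ (Classical.arbitrary D)⟩
  exact Nat.card_pos

end general

theorem rot_zero {I : Type} (i : I) : rot I (i, 0) = (i, 1) := rfl
theorem rot_one {I : Type} (i : I) : rot I (i, 1) = (i, 2) := rfl
theorem rot_two {I : Type} (i : I) : rot I (i, 2) = (i, 0) := rfl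

theorem eu_sum_darts {I : Type} [Fintype I] (w : I × Fin 3 → ℕ) :
    ∑ d, w d = ∑ i, w (i, 0) + ∑ i, w (i, 1) + ∑ i, w (i, 2) := by
  rw [Fintype.sum_prod_type]
  simp only [Fin.sum_univ_three, Finset.sum_add_distrib]

theorem eu_ncyc_rot (I : Type) [Fintype I] : ncyc (rot I) ≤ Fintype.card I := by
  classical
  rw [eu_ncyc_eq]
  have := eu_weight (rot I) univ (fun d => if d.2 = 0 then 1 else 0) 1 fun d _ => by
    obtain ⟨i, k⟩ := d
    refine le_trans ?_ (Finset.single_le_sum (a := (i, 0)) (fun _ _ => Nat.zero_le _) ?_)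
    · simp
    · simp only [mem_filter, mem_univ, true_and]
      fin_cases k
      · exact Perm.SameCycle.refl _ _
      · exact ⟨2, rfl⟩
      · exact ⟨1, rfl⟩
  rw [eu_sum_darts] at this
  simpa using this

variable {P U W T : Type} {Γ : BGraph P U W T}

theorem eu_side_zero (τ : T × Bool) : Γ.pres.side τ 0 = (Sum.inr (Γ.src τ), true) := by
  obtain ⟨t, b⟩ := τ
  cases b <;> rfl

theorem eu_side_one (τ : T × Bool) : Γ.pres.side τ 1 = (Sum.inl (Γ.lab τ.1), τ.2) := by
  obtain ⟨t, b⟩ := τ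
  cases b <;> rfl

theorem eu_side_two (τ : T × Bool) : Γ.pres.side τ 2 = (Sum.inr (Γ.tgt τ), false) := by
  obtain ⟨t, b⟩ := τ
  cases b <;> rfl

theorem eu_girth_seq {g : ℕ} (hG : Γ.Girth g) (f : ℕ → T × Bool)
    (hf : ∀ n, Γ.Step (f (n + 1)) (f n)) (L : ℕ) (hper : f (L + 1) = f 0) : g < L + 1 := by
  let lst : ℕ → List (T × Bool) := fun n => Nat.rec [] (fun k l => f k :: l) n
  have h1 : ∀ n, List.IsChain Γ.Step (f n :: lst n) ∧
      (f n :: lst n).getLast (List.cons_ne_nil _ _) = f 0 ∧ (lst n).length = n := by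
    intro n
    induction n with
    | zero => exact ⟨List.IsChain.singleton _, rfl, rfl⟩
    | succ n ih =>
      refine ⟨List.IsChain.cons_cons (hf n) ih.1, ?_, ?_⟩
      · exact (List.getLast_cons (List.cons_ne_nil _ _)).trans ih.2.1
      · change (lst n).length + 1 = n + 1
        rw [ih.2.2]
  have := hG (f L) (lst L) (h1 L).1 (by rw [(h1 L).2.1, ← hper]; exact (hf L).1)
  rwa [(h1 L).2.2] at this

variable (M : RMap Γ.pres)

/-- next triangle of a fan -/
def eNx (i : M.I) : M.I := (M.ε (i, 2)).1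
/-- previous triangle of a fan -/
def ePv (i : M.I) : M.I := (M.ε (i, 0)).1
/-- mate across the label side -/
def eMt (i : M.I) : M.I := (M.ε (i, 1)).1

theorem eu_two {i : M.I} (h : M.ε (i, 2) ≠ (i, 2)) :
    M.ε (i, 2) = (eNx M i, 0) ∧ Γ.Step (M.ty i) (M.ty (eNx M i)) := by
  have h1 := M.lab_inv _ h
  have h2 := M.red _ h
  unfold eNx
  generalize M.ε (i, 2) = d at *
  obtain ⟨j, k⟩ := d
  simp only [eu_side_two, linv] at h1 h2
  fin_cases k
  · simp only [Fin.zero_eta, eu_side_zero, Bool.not_false, Prod.mk.injEq, Sum.inr.injEq,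
      and_true] at h1
    exact ⟨rfl, h1.symm, fun h3 => h2 ⟨h3, rfl⟩⟩
  · simp [eu_side_one] at h1
  · simp [eu_side_two] at h1

theorem eu_zero {i : M.I} (h : M.ε (i, 0) ≠ (i, 0)) :
    M.ε (i, 0) = (ePv M i, 2) ∧ Γ.Step (M.ty (ePv M i)) (M.ty i) := by
  have h1 := M.lab_inv _ h
  have h3 : M.ε (i, 0) = (ePv M i, 2) := by
    unfold ePv
    generalize M.ε (i, 0) = d at *
    obtain ⟨j, k⟩ := d
    simp only [eu_side_zero, linv] at h1
    fin_cases k
    · simp [eu_side_zero] at h1
    · simp [eu_side_one] at h1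
    · rfl
  have h4 : M.ε (ePv M i, 2) = (i, 0) := by rw [← h3, M.invol]
  have h5 := eu_two M (i := ePv M i) (by rw [h4]; simp)
  have h6 : eNx M (ePv M i) = i := by rw [eNx, h4]
  rw [h6] at h5
  exact ⟨h3, h5.2⟩

theorem eu_one (i : M.I) : M.ε (i, 1) = (eMt M i, 1) := by
  by_cases h : M.ε (i, 1) = (i, 1)
  · rw [eMt, h]
  · have h1 := M.lab_inv _ h
    unfold eMt
    generalize M.ε (i, 1) = d at *
    obtain ⟨j, k⟩ := d
    simp only [eu_side_one, linv] at h1
    fin_cases k
    · simp [eu_side_zero] at h1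
    · rfl
    · simp [eu_side_two] at h1

theorem eu_mt_mt (i : M.I) : eMt M (eMt M i) = i := by
  have := M.invol (i, 1)
  rw [eu_one, eu_one] at this
  exact (Prod.ext_iff.1 this).1

theorem eu_mt_inj : Function.Injective (eMt M) :=
  Function.LeftInverse.injective (eu_mt_mt M)

theorem eu_fix_one (i : M.I) : M.ε (i, 1) = (i, 1) ↔ eMt M i = i := by
  rw [eu_one]
  simp

/-- a base cycle has at least two darts of type 2 -/
theorem eu_mt_nx_ne {i : M.I} (h : M.ε (i, 2) ≠ (i, 2))
    (h' : M.ε (eNx M i, 1) ≠ (eNx M i, 1)) : eMt M (eNx M i) ≠ i := by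
  intro he
  have h1 := M.lab_inv _ h'
  have h2 := M.red _ h'
  obtain ⟨-, h3, h4⟩ := eu_two M h
  rw [eu_one, he] at h1 h2
  simp only [eu_side_one, linv, Prod.mk.injEq, Sum.inl.injEq] at h1
  apply h4
  generalize M.ty (eNx M i) = b at *
  generalize M.ty i = a at *
  obtain ⟨t, s⟩ := a
  obtain ⟨t', s'⟩ := b
  simp only at h1
  obtain ⟨h5, rfl⟩ := h1
  cases s'
  · simp only [tgt, src, Bool.not_false, if_true, Bool.false_eq_true, if_false,
      Sum.inr.injEq] at h3
    rw [Γ.foldW _ _ h3 h5]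
    rfl
  · simp only [tgt, src, Bool.not_true, if_true, Bool.false_eq_true, if_false,
      Sum.inl.injEq] at h3
    rw [Γ.foldU _ _ h3 h5]
    rfl

/-- the vertex permutation -/
def eNu : Perm (M.I × Fin 3) := rot M.I * M.ε

theorem eNu_one (i : M.I) : eNu M (i, 1) = (eMt M i, 2) := by
  rw [eNu, Perm.mul_apply, eu_one, rot_one]

theorem eNu_two {i : M.I} (h : M.ε (i, 2) ≠ (i, 2)) : eNu M (i, 2) = (eNx M i, 1) := by
  rw [eNu, Perm.mul_apply, (eu_two M h).1, rot_zero]

theorem eNu_zero {i : M.I} (h : M.ε (i, 0) ≠ (i, 0)) : eNu M (i, 0) = (ePv M i, 0) := by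
  rw [eNu, Perm.mul_apply, (eu_zero M h).1, rot_two]

open Classical in
/-- an interior apex has more than `g` darts -/
theorem eu_apex {g : ℕ} (hG : Γ.Girth g) (i : M.I)
    (h : ∀ j, (eNu M).SameCycle (i, 0) (j, 0) → M.ε (j, 0) ≠ (j, 0)) :
    g < (univ.filter fun j => (eNu M).SameCycle (i, 0) (j, 0)).card := by
  have h1 : ∀ n, (eNu M)^[n] (i, 0) = ((ePv M)^[n] i, 0) ∧
      (eNu M).SameCycle (i, 0) ((ePv M)^[n] i, 0) := by
    intro n
    induction n with
    | zero => exact ⟨rfl, Perm.SameCycle.refl _ _⟩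
    | succ n ih =>
      have h2 := eNu_zero M (h _ ih.2)
      rw [Function.iterate_succ_apply', Function.iterate_succ_apply', ih.1, ← h2]
      exact ⟨rfl, ih.2.apply_right⟩
  have hper : (i, (0 : Fin 3)) ∈ Function.periodicPts (eNu M) :=
    (eNu M).injective.mem_periodicPts _
  have hpos := Function.minimalPeriod_pos_of_mem_periodicPts hper
  obtain ⟨L, hL⟩ := Nat.exists_eq_succ_of_ne_zero hpos.ne'
  have h3 := eu_girth_seq hG (fun n => M.ty ((ePv M)^[n] i)) (fun n => by
    simp only [Function.iterate_succ_apply']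
    exact (eu_zero M (h _ (h1 n).2)).2) L (by
    have := Function.iterate_minimalPeriod (f := eNu M) (x := (i, 0))
    rw [hL, (h1 _).1] at this
    exact congrArg M.ty (Prod.ext_iff.1 this).1)
  refine h3.trans_le ?_
  rw [← Finset.card_range (L + 1)]
  refine Finset.card_le_card_of_injOn (fun n => (ePv M)^[n] i) (fun n _ => ?_) ?_
  · simpa using (h1 n).2
  · intro a ha b hb hab
    refine Function.iterate_injOn_Iio_minimalPeriod (f := eNu M) (x := (i, 0)) ?_ ?_ ?_
    · rw [hL]; simpa using ha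
    · rw [hL]; simpa using hb
    · simp only at hab ⊢
      rw [(h1 a).1, (h1 b).1, hab]

/-- darts on a hole -/
def eHole (d : M.I × Fin 3) : Prop := ∃ u, M.ε u = u ∧ (eNu M).SameCycle u d

theorem eHole_of_fix {d : M.I × Fin 3} (h : M.ε d = d) : eHole M d :=
  ⟨d, h, Perm.SameCycle.refl _ _⟩

theorem eHole_congr {d d' : M.I × Fin 3} (h : (eNu M).SameCycle d d') :
    eHole M d ↔ eHole M d' :=
  ⟨fun ⟨u, hu, hc⟩ => ⟨u, hu, hc.trans h⟩, fun ⟨u, hu, hc⟩ => ⟨u, hu, hc.trans h.symm⟩⟩

theorem eHole_nu (d : M.I × Fin 3) : eHole M (eNu M d) ↔ eHole M d :=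
  (eHole_congr M (Perm.SameCycle.refl _ _).apply_right).symm

theorem eu_base_step {i : M.I} (h : ¬ eHole M (i, 2)) :
    M.ε (i, 2) ≠ (i, 2) ∧ M.ε (eNx M i, 1) ≠ (eNx M i, 1) ∧ eMt M (eNx M i) ≠ i ∧
      (eNu M).SameCycle (i, 2) (eMt M (eNx M i), 2) := by
  have h1 : M.ε (i, 2) ≠ (i, 2) := fun h' => h (eHole_of_fix M h')
  have h2 : M.ε (eNx M i, 1) ≠ (eNx M i, 1) := fun h' =>
    h ((eHole_nu M _).1 (by rw [eNu_two M h1]; exact eHole_of_fix M h'))
  refine ⟨h1, h2, eu_mt_nx_ne M h1 h2, ?_⟩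
  rw [← eNu_one, ← eNu_two M h1]
  exact (Perm.SameCycle.refl _ _).apply_right.apply_right

theorem eu_reg {i : M.I} (h : ¬ eHole M (i, 2))
    (h2 : eMt M (eNx M (eMt M (eNx M i))) = i) : Reg M i := by
  obtain ⟨a1, a2, a3, a4⟩ := eu_base_step M h
  obtain ⟨b1, b2, -, -⟩ := eu_base_step M (i := eMt M (eNx M i)) (fun h' =>
    h ((eHole_congr M a4).2 h'))
  have h3 : eMt M i = eNx M (eMt M (eNx M i)) := by
    conv_lhs => rw [← h2, eu_mt_mt]
  refine ⟨a1, ?_, a2, ?_⟩
  · rw [Ne, eu_fix_one] at b2 ⊢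
    intro h4
    apply b2
    rw [h2, ← h3, h4]
  · change M.ε (eMt M (eNx M i), 2) = (eMt M i, 0)
    rw [(eu_two M b1).1, h3]

open Classical in
/-- weight of the darts on interior base cycles -/
noncomputable def eW (d : M.I × Fin 3) : ℕ :=
  if d.2 = 2 ∧ ¬ eHole M d then (if Reg M d.1 then 3 else 2) else 0

open Classical in
theorem eu_base {i : M.I} (h : ¬ eHole M (i, 2)) :
    6 ≤ ∑ x ∈ univ.filter (fun x => (eNu M).SameCycle (i, 2) x), eW M x := by
  obtain ⟨-, -, a3, a4⟩ := eu_base_step M h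
  set k := eMt M (eNx M i) with hk
  have hk' : ¬ eHole M (k, 2) := fun h' => h ((eHole_congr M a4).2 h')
  obtain ⟨-, -, b3, b4⟩ := eu_base_step M hk'
  set l := eMt M (eNx M k) with hl
  have hl' : ¬ eHole M (l, 2) := fun h' => hk' ((eHole_congr M b4).2 h')
  by_cases hli : l = i
  · have r1 : Reg M i := eu_reg M h hli
    have r2 : Reg M k := eu_reg M hk' (by rw [← hl, hli])
    have hsub : ({(i, 2), (k, 2)} : Finset (M.I × Fin 3)) ⊆
        univ.filter (fun x => (eNu M).SameCycle (i, 2) x) := by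
      intro x hx
      simp only [mem_insert, mem_singleton] at hx
      rcases hx with rfl | rfl
      · simp [Perm.SameCycle.refl]
      · simpa using a4
    refine le_trans ?_ (Finset.sum_le_sum_of_subset hsub)
    rw [Finset.sum_pair (by simpa using a3.symm)]
    simp [eW, h, hk', r1, r2]
  · have hsub : ({(i, 2), (k, 2), (l, 2)} : Finset (M.I × Fin 3)) ⊆
        univ.filter (fun x => (eNu M).SameCycle (i, 2) x) := by
      intro x hx
      simp only [mem_insert, mem_singleton] at hx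
      rcases hx with rfl | rfl | rfl
      · simp [Perm.SameCycle.refl]
      · simpa using a4
      · simpa using a4.trans b4
    refine le_trans ?_ (Finset.sum_le_sum_of_subset hsub)
    rw [Finset.sum_insert (by simp [a3.symm, Ne.symm hli]),
      Finset.sum_pair (by simpa using b3.symm)]
    have hw : ∀ j, ¬ eHole M (j, 2) → 2 ≤ eW M (j, 2) := by
      intro j hj
      simp only [eW, hj, not_false_eq_true, and_self, if_true]
      split_ifs <;> omega
    have := hw i h
    have := hw k hk'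
    have := hw l hl'
    omega

theorem eu_unmatched_zero :
    (univ.filter fun i : M.I => M.ε (i, 0) = (i, 0)).card ≤ nArcs M := by
  have h1 : (univ.filter fun i : M.I => ¬ M.ε (i, 2) = (i, 2)).card ≤
      (univ.filter fun i : M.I => ¬ M.ε (i, 0) = (i, 0)).card := by
    refine Finset.card_le_card_of_injOn (eNx M) (fun i hi => ?_) ?_
    · have hi' := (eu_two M (mem_filter.1 (mem_coe.1 hi)).2).1
      simp only [coe_filter, mem_univ, true_and, Set.mem_ofPred_eq]
      rw [← hi', M.invol, hi']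
      simp
    · intro i hi j hj hij
      have hi' := (eu_two M (mem_filter.1 (mem_coe.1 hi)).2).1
      have hj' := (eu_two M (mem_filter.1 (mem_coe.1 hj)).2).1
      have := M.ε.injective (hi'.trans (hij ▸ hj'.symm))
      exact (Prod.ext_iff.1 this).1
  have h2 := Finset.card_filter_add_card_filter_not (s := univ)
    (fun i : M.I => M.ε (i, 2) = (i, 2))
  have h3 := Finset.card_filter_add_card_filter_not (s := univ)
    (fun i : M.I => M.ε (i, 0) = (i, 0))
  unfold nArcs
  omega

theorem eu_fixed_le :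
    (univ.filter fun d : M.I × Fin 3 => M.ε d = d).card ≤ nUS M + 2 * nArcs M := by
  have h := eu_unmatched_zero M
  rw [Finset.card_filter, eu_sum_darts, ← Finset.card_filter, ← Finset.card_filter,
    ← Finset.card_filter]
  unfold nUS
  unfold nArcs at h ⊢
  omega

theorem eu_bw_ge (g : ℕ) : nUS M + g * nArcs M ≤ M.bw (wt P U W g) := by
  rw [RMap.bw, Finset.sum_filter, eu_sum_darts, nUS, nArcs, Finset.card_filter,
    Finset.card_filter, Finset.mul_sum]
  have h1 : ∀ i, wt P U W g (M.lab (i, 1)).1 = 1 := fun i => by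
    rw [RMap.lab, eu_side_one]; rfl
  have h2 : ∀ i, wt P U W g (M.lab (i, 2)).1 = g := fun i => by
    rw [RMap.lab, eu_side_two]; rfl
  simp only [h1, h2, mul_ite, mul_one, mul_zero]
  omega

theorem eu_area_gt {g : ℕ} (hG : Γ.Girth g) (h0 : nArcs M = 0) (hA : 0 < M.area) :
    g < M.area := by
  classical
  obtain ⟨i⟩ := Fintype.card_pos_iff.1 hA
  have h := eu_unmatched_zero M
  rw [h0, Nat.le_zero, Finset.card_eq_zero, Finset.filter_eq_empty_iff] at h
  exact (eu_apex M hG i fun j _ => h (mem_univ j)).trans_le (Finset.card_le_univ _)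

end Crest.Agent.R177
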