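import Crest.Agent.R177.Perm
import Crest.Agent.R177.EulerAux

/-! Euler count: planar maps have few irregular corners (task EULER). -/

set_option autoImplicit false

namespace Crest.Agent.R177

open BGraph Finset Equiv

theorem eu_count {P U W T : Type} {Γ : BGraph P U W T} (M : RMap Γ.pres) {g : ℕ}
    (hG : Γ.Girth g) (hD : M.Disc) :
    ∃ Va x n c : ℕ, (g + 1) * Va ≤ M.area ∧ x + 3 * n + 6 * c ≤ 6 * (Va + nArcs M) ∧
      nIrr M ≤ x + 2 * n ∧ nArcs M ≤ n + nUS M ∧ (0 < M.area → 0 < c) := by
  classical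
  set A := Fintype.card M.I with hA
  -- the three kinds of cycles
  set sa : Finset (M.I × Fin 3) := univ.filter fun d => d.2 = 0 ∧ ¬ eHole M d with hsa
  set sb : Finset (M.I × Fin 3) := univ.filter fun d => d.2 = 2 ∧ ¬ eHole M d with hsb
  set sh : Finset (M.I × Fin 3) := univ.filter fun d => M.ε d = d with hsh
  have hcover : ncyc (eNu M) ≤ (sa.image (eCyc (eNu M))).card + (sb.image (eCyc (eNu M))).card +
      (sh.image (eCyc (eNu M))).card := by
    rw [eu_ncyc_eq]
    refine le_trans (Finset.card_le_card ?_) ((Finset.card_union_le _ _).trans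
      (Nat.add_le_add_right (Finset.card_union_le _ _) _))
    intro q hq
    obtain ⟨d, -, rfl⟩ := mem_image.1 hq
    simp only [mem_union, mem_image]
    by_cases hd : eHole M d
    · obtain ⟨u, hu, hc⟩ := hd
      exact Or.inr ⟨u, by simp [hsh, hu], (eCyc_eq_iff _ _ _).2 hc⟩
    · obtain ⟨i, k⟩ := d
      fin_cases k
      · exact Or.inl (Or.inl ⟨(i, 0), by simpa [hsa] using hd, rfl⟩)
      · refine Or.inl (Or.inr ⟨(eMt M i, 2), ?_, ?_⟩)
        · simp only [hsb, mem_filter, mem_univ, true_and]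
          rw [← eNu_one, eHole_nu]
          exact hd
        · rw [← eNu_one, eCyc_eq_iff]
          exact (Perm.SameCycle.refl _ _).apply_left
      · exact Or.inl (Or.inr ⟨(i, 2), by simpa [hsb] using hd, rfl⟩)
  have ha : (g + 1) * (sa.image (eCyc (eNu M))).card ≤ A := by
    have := eu_weight (eNu M) sa (fun d => if d.2 = 0 then 1 else 0) (g + 1) fun d hd => by
      obtain ⟨i, k⟩ := d
      simp only [hsa, mem_filter, mem_univ, true_and] at hd
      obtain ⟨rfl, hd⟩ := hd
      have h1 := eu_apex M hG i fun j hj h => hd ((eHole_congr M hj).2 (eHole_of_fix M h))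
      rw [Finset.sum_filter, eu_sum_darts]
      rw [Finset.card_filter] at h1
      simp only [if_true]
      omega
    rw [eu_sum_darts] at this
    simpa using this
  set x := (univ.filter fun i : M.I => ¬ eHole M (i, 2) ∧ ¬ Reg M i).card with hx
  set n2 := (univ.filter fun i : M.I => ¬ eHole M (i, 2)).card with hn2
  set h2 := (univ.filter fun i : M.I => eHole M (i, 2)).card with hh2
  set h1 := (univ.filter fun i : M.I => eHole M (i, 1)).card with hh1
  set n := (univ.filter fun i : M.I => eHole M (i, 1) ∧ ¬ M.ε (i, 1) = (i, 1)).card with hn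
  have hb : 6 * (sb.image (eCyc (eNu M))).card + x ≤ 3 * n2 := by
    have h3 := eu_weight (eNu M) sb (eW M) 6 fun d hd => by
      obtain ⟨i, k⟩ := d
      simp only [hsb, mem_filter, mem_univ, true_and] at hd
      obtain ⟨rfl, hd⟩ := hd
      convert eu_base M hd
    have h4 : ∑ d, eW M d + x = 3 * n2 := by
      rw [eu_sum_darts, hx, hn2, Finset.card_filter, Finset.card_filter, Finset.mul_sum]
      have e0 : ∀ i, eW M (i, 0) = 0 := fun i => by simp [eW]
      have e1 : ∀ i, eW M (i, 1) = 0 := fun i => by simp [eW]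
      simp only [e0, e1, Finset.sum_const_zero, zero_add]
      rw [← Finset.sum_add_distrib]
      refine Finset.sum_congr rfl fun i _ => ?_
      by_cases p1 : eHole M (i, 2) <;> by_cases p2 : Reg M i <;> simp [eW, p1, p2]
    omega
  have hh : (sh.image (eCyc (eNu M))).card ≤ ncomp (rot M.I) M.ε := by
    have := eu_holes_le (rot M.I) M.ε hD
    unfold eNu
    convert this
  have hA2 : h2 + n2 = A :=
    Finset.card_filter_add_card_filter_not (s := univ) (fun i : M.I => eHole M (i, 2))
  have h12 : h1 = h2 := by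
    refine Finset.card_bij (fun i _ => eMt M i) (fun i hi => ?_)
      (fun i _ j _ hij => eu_mt_inj M hij) (fun j hj => ⟨eMt M j, ?_, eu_mt_mt M j⟩)
    · simp only [mem_filter, mem_univ, true_and] at hi ⊢
      rwa [← eNu_one, eHole_nu]
    · simp only [mem_filter, mem_univ, true_and] at hj ⊢
      rwa [← eHole_nu, eNu_one, eu_mt_mt]
  have h1n : h1 = n + nUS M := by
    rw [hh1, hn, nUS, Finset.card_filter, Finset.card_filter, Finset.card_filter,
      ← Finset.sum_add_distrib]
    refine Finset.sum_congr rfl fun i _ => ?_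
    by_cases p2 : M.ε (i, 1) = (i, 1)
    · simp [p2, eHole_of_fix M p2]
    · simp [p2]
  have hgen : ((3 * A : ℕ) : ℤ) + 2 * ncomp (rot M.I) M.ε - ncyc (rot M.I) - ncyc M.ε -
      ncyc (eNu M) = 0 := by
    have := hD.1
    rw [genus, Nat.card_eq_fintype_card, Fintype.card_prod, Fintype.card_fin, mul_comm] at this
    exact this
  have hrot := eu_ncyc_rot M.I
  have heps : 2 * ncyc M.ε ≤ 3 * A + (nUS M + 2 * nArcs M) := by
    have h5 := eu_ncyc_invol M.ε
    rw [Fintype.card_prod, Fintype.card_fin, mul_comm _ 3] at h5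
    refine h5.trans (Nat.add_le_add_left ?_ _)
    convert eu_fixed_le M
  refine ⟨(sa.image (eCyc (eNu M))).card, x, n, ncomp (rot M.I) M.ε, ha, by omega, ?_, ?_, ?_⟩
  · set t1 := univ.filter fun i : M.I => eHole M (i, 2) ∧ ¬ M.ε (i, 1) = (i, 1) with ht1
    set t2 := univ.filter fun i : M.I => eHole M (i, 2) ∧ ¬ M.ε (i, 2) = (i, 2) ∧
      ¬ M.ε (eNx M i, 1) = (eNx M i, 1) with ht2
    have c1 : t1.card ≤ n := by
      refine Finset.card_le_card_of_injOn (eMt M) (fun i hi => ?_) (eu_mt_inj M).injOn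
      simp only [ht1, coe_filter, mem_univ, true_and, Set.mem_ofPred_eq] at hi ⊢
      refine ⟨by rw [← eHole_nu, eNu_one, eu_mt_mt]; exact hi.1, ?_⟩
      rw [eu_fix_one, eu_mt_mt]
      rw [eu_fix_one] at hi
      exact fun h => hi.2 h.symm
    have c2 : t2.card ≤ n := by
      refine Finset.card_le_card_of_injOn (eNx M) (fun i hi => ?_) ?_
      · simp only [ht2, coe_filter, mem_univ, true_and, Set.mem_ofPred_eq] at hi ⊢
        exact ⟨by rw [← eNu_two M hi.2.1, eHole_nu]; exact hi.1, hi.2.2⟩
      · intro i hi j hj hij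
        simp only [ht2, coe_filter, mem_univ, true_and, Set.mem_ofPred_eq] at hi hj
        have hi' := (eu_two M hi.2.1).1
        have hj' := (eu_two M hj.2.1).1
        have := M.ε.injective (hi'.trans (hij ▸ hj'.symm))
        exact (Prod.ext_iff.1 this).1
    have c3 : nIrr M ≤ x + t1.card + t2.card := by
      refine le_trans (Finset.card_le_card ?_) ((Finset.card_union_le _ _).trans
        (Nat.add_le_add_right (Finset.card_union_le _ _) _))
      intro i hi
      obtain ⟨a1, a2, a3⟩ := (mem_filter.1 hi).2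
      simp only [ht1, ht2, mem_union, mem_filter, mem_univ, true_and]
      by_cases p : eHole M (i, 2)
      · by_cases q : M.ε (i, 1) = (i, 1)
        · exact Or.inr ⟨p, a1, fun h => a3 ⟨q, h⟩⟩
        · exact Or.inl (Or.inr ⟨p, q⟩)
      · exact Or.inl (Or.inl ⟨p, a2⟩)
    omega
  · have : nArcs M ≤ h2 := Finset.card_le_card fun i hi => by
      simp only [mem_filter, mem_univ, true_and] at hi ⊢
      exact eHole_of_fix M hi
    omega
  · intro hpos
    obtain ⟨i⟩ := Fintype.card_pos_iff.1 hpos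
    have : Nonempty (M.I × Fin 3) := ⟨(i, 0)⟩
    exact eu_ncomp_pos _ _

theorem euler_main (C₁ K : ℕ) : ∃ K' : ℕ, ∀ {P U W T : Type} (Γ : BGraph P U W T) (g : ℕ) (c₀ : U),
    2 ≤ g → Γ.Girth g → Γ.Loc K' C₁ g c₀ →
    (∀ M : RMap Γ.pres, 0 < M.area → g ≤ M.area ∨ g ≤ M.bw (wt P U W g)) ∧
    (∀ M : RMap Γ.pres, M.Disc → M.area ≤ K * g → M.area ≤ (C₁ + 1) * M.bw (wt P U W g)) ∧
    (∀ M : RMap Γ.pres, M.Disc → M.area ≤ K * g → nUS M = 0 → nArcs M ≤ 1 → nPin M c₀ = 0) := by
  refine ⟨12 * K + 12, fun {P U W T} Γ g c₀ hg hG hL => ?_⟩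
  have hloc : ∀ M : RMap Γ.pres, M.Disc → M.area ≤ K * g → nArcs M ≤ K + 1 →
      2 * M.area ≤ C₁ * (nUS M + g * (nArcs M - nPin M c₀)) + g := by
    intro M hD hA hN
    obtain ⟨Va, x, n, c, h1, h2, h3, -, -⟩ := eu_count M hG hD
    have hVa : Va ≤ K := by
      have h4 : g * Va ≤ g * K := by nlinarith
      exact Nat.le_of_mul_le_mul_left h4 (by omega)
    exact hL M (hA.trans (Nat.mul_le_mul_right _ (by omega))) (by omega) (by omega)
  refine ⟨fun M hA => ?_, fun M hD hA => ?_, fun M hD hA hU hN => ?_⟩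
  · rcases Nat.eq_zero_or_pos (nArcs M) with h | h
    · exact Or.inl (eu_area_gt M hG h hA).le
    · refine Or.inr (le_trans ?_ (eu_bw_ge M g))
      nlinarith
  · have hb := eu_bw_ge M g
    rcases le_or_gt (nArcs M) K with h | h
    · have h1 := hloc M hD hA (by omega)
      have h2 : C₁ * (nUS M + g * (nArcs M - nPin M c₀)) ≤ C₁ * M.bw (wt P U W g) :=
        Nat.mul_le_mul_left _ (le_trans (Nat.add_le_add_left
          (Nat.mul_le_mul_left _ (Nat.sub_le _ _)) _) hb)
      rw [add_mul, one_mul]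
      rcases Nat.eq_zero_or_pos (nArcs M) with h0 | h0
      · rcases Nat.eq_zero_or_pos M.area with h3 | h3
        · omega
        · have := eu_area_gt M hG h0 h3
          omega
      · have : g ≤ g * nArcs M := Nat.le_mul_of_pos_right _ h0
        omega
    · have h1 : K * g ≤ g * nArcs M := by nlinarith
      rw [add_mul, one_mul]
      omega
  · by_contra hp
    have hp1 : nPin M c₀ = 1 ∧ 0 < M.area := by
      unfold nPin at hp ⊢
      split_ifs at hp ⊢ with h
      · obtain ⟨i, -⟩ := h
        exact ⟨rfl, Fintype.card_pos_iff.2 ⟨i⟩⟩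
      · exact absurd rfl hp
    have h1 := hloc M hD hA (by omega)
    rw [hU, hp1.1, show nArcs M - 1 = 0 by omega] at h1
    simp only [mul_zero, zero_add] at h1
    rcases Nat.eq_zero_or_pos (nArcs M) with h0 | h0
    · have := eu_area_gt M hG h0 hp1.2
      omega
    · obtain ⟨Va, x, n, c, h2, h3, -, h4, h5⟩ := eu_count M hG hD
      have hc := h5 hp1.2
      have hVa : Va = 0 := by
        by_contra hV
        have : g + 1 ≤ (g + 1) * Va := Nat.le_mul_of_pos_right _ (Nat.pos_of_ne_zero hV)
        omega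
      omega

end Crest.Agent.R177
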