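import Mathlib

/-! Abstract part of task HYP: an area inequality for pairs of Lipschitz functions on a geodesic
integer metric space implies the four-point condition. -/

set_option autoImplicit false

namespace Crest.Agent.R177.HypAux

variable {X : Type*}

/-- walks from `a` to `b` with `n` steps along which `∑ (u + u') (v' - v)` equals `r` -/
inductive Walk (d : X → X → ℕ) (u v : X → ℤ) : X → X → ℕ → ℤ → Prop
  | nil (a : X) : Walk d u v a a 0 0
  | cons {a b c : X} {n : ℕ} {r : ℤ} : d a b ≤ 1 → Walk d u v b c n r →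
      Walk d u v a c (n + 1) ((u a + u b) * (v b - v a) + r)

/-- integer valued geodesic metric with the area inequality -/
structure AreaSpace (d : X → X → ℕ) (K : ℕ) : Prop where
  self : ∀ x, d x x = 0
  symm : ∀ x y, d x y = d y x
  tri : ∀ x y z, d x z ≤ d x y + d y z
  geod : ∀ x y, ∃ γ : ℕ → X, γ 0 = x ∧ γ (d x y) = y ∧ ∀ i < d x y, d (γ i) (γ (i + 1)) ≤ 1
  area : ∀ u v : X → ℤ, (∀ x y, d x y ≤ 1 → |u x - u y| ≤ 1) → (∀ x y, d x y ≤ 1 → |v x - v y| ≤ 1) →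
    ∀ a n r, Walk d u v a a n r → r ≤ K * n

theorem Walk.trans {d : X → X → ℕ} {u v : X → ℤ} {a b c : X} {n m : ℕ} {r s : ℤ}
    (h1 : Walk d u v a b n r) (h2 : Walk d u v b c m s) : Walk d u v a c (n + m) (r + s) := by
  induction h1 with
  | nil a => simpa using h2
  | @cons a b c' n r hab _ ih =>
    have := Walk.cons hab (ih h2)
    rw [show n + 1 + m = n + m + 1 by ring, add_assoc _ r s]
    exact this

theorem Walk.step {d : X → X → ℕ} {u v : X → ℤ} {a b : X} (h : d a b ≤ 1) :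
    Walk d u v a b 1 ((u a + u b) * (v b - v a)) := by
  simpa using Walk.cons (u := u) (v := v) h (Walk.nil b)

/-- a path with `n` steps -/
def IsPath (d : X → X → ℕ) (γ : ℕ → X) (n : ℕ) : Prop := ∀ i < n, d (γ i) (γ (i + 1)) ≤ 1

/-- a geodesic with `n` steps -/
def IsGeod (d : X → X → ℕ) (γ : ℕ → X) (n : ℕ) : Prop :=
  ∀ i j, i ≤ j → j ≤ n → d (γ i) (γ j) = j - i

theorem IsGeod.isPath {d : X → X → ℕ} {γ : ℕ → X} {n : ℕ} (h : IsGeod d γ n) : IsPath d γ n :=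
  fun i hi => by rw [h i (i + 1) (by omega) (by omega)]; omega

variable {d : X → X → ℕ} {K : ℕ}

theorem IsPath.le (H : AreaSpace d K) {γ : ℕ → X} {n : ℕ} (h : IsPath d γ n) {i j : ℕ}
    (hij : i ≤ j) (hj : j ≤ n) : d (γ i) (γ j) ≤ j - i := by
  induction j, hij using Nat.le_induction with
  | base => simp [H.self]
  | succ k hk ih =>
    have h1 := ih (by omega)
    have h2 := h k (by omega)
    have h3 := H.tri (γ i) (γ k) (γ (k + 1))
    omega

theorem AreaSpace.exists_geod (H : AreaSpace d K) (x y : X) :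
    ∃ γ : ℕ → X, γ 0 = x ∧ γ (d x y) = y ∧ IsGeod d γ (d x y) := by
  obtain ⟨γ, h0, h1, h⟩ := H.geod x y
  refine ⟨γ, h0, h1, fun i j hij hj => ?_⟩
  have k1 := IsPath.le H h (Nat.zero_le i) (by omega)
  have k2 := IsPath.le H h hij hj
  have k3 := IsPath.le H h hj le_rfl
  have k4 := H.tri (γ 0) (γ i) (γ (d x y))
  have k5 := H.tri (γ i) (γ j) (γ (d x y))
  rw [h0] at k1 k4
  rw [h1] at k3 k4 k5
  omega

theorem walk_zero {u v : X → ℤ} {γ : ℕ → X} {n : ℕ} (h : IsPath d γ n) (hu : ∀ i ≤ n, u (γ i) = 0)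
    {i j : ℕ} (hij : i ≤ j) (hj : j ≤ n) : Walk d u v (γ i) (γ j) (j - i) 0 := by
  induction j, hij using Nat.le_induction with
  | base => simpa using Walk.nil (γ i)
  | succ k hk ih =>
    have := (ih (by omega)).trans (Walk.step (u := u) (v := v) (h k (by omega)))
    rw [hu k (by omega), hu (k + 1) hj] at this
    rw [show k + 1 - i = k - i + 1 by omega]
    simpa using this

theorem walk_zero_rev (H : AreaSpace d K) {u v : X → ℤ} {γ : ℕ → X} {n : ℕ} (h : IsPath d γ n)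
    (hu : ∀ i ≤ n, u (γ i) = 0) {i j : ℕ} (hij : i ≤ j) (hj : j ≤ n) :
    Walk d u v (γ j) (γ i) (j - i) 0 := by
  induction j, hij using Nat.le_induction with
  | base => simpa using Walk.nil (γ i)
  | succ k hk ih =>
    have := Walk.cons (u := u) (v := v) (a := γ (k + 1)) (by rw [H.symm]; exact h k (by omega))
      (ih (by omega))
    rw [hu k (by omega), hu (k + 1) hj] at this
    rw [show k + 1 - i = k - i + 1 by omega]
    simpa using this

theorem walk_nonneg {u v : X → ℤ} {γ : ℕ → X} {n : ℕ} (h : IsPath d γ n) (hu : ∀ x, 0 ≤ u x)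
    (hv : ∀ i ≤ n, v (γ i) = i) {i j : ℕ} (hij : i ≤ j) (hj : j ≤ n) :
    ∃ r, 0 ≤ r ∧ Walk d u v (γ i) (γ j) (j - i) r := by
  induction j, hij using Nat.le_induction with
  | base => exact ⟨0, le_rfl, by simpa using Walk.nil (γ i)⟩
  | succ k hk ih =>
    obtain ⟨r, hr, hw⟩ := ih (by omega)
    have := hw.trans (Walk.step (u := u) (v := v) (h k (by omega)))
    rw [show k + 1 - i = k - i + 1 by omega]
    refine ⟨_, ?_, this⟩
    rw [hv k (by omega), hv (k + 1) hj]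
    have := hu (γ k)
    have := hu (γ (k + 1))
    push_cast
    linarith

theorem walk_sq {u v : X → ℤ} {γ : ℕ → X} {n : ℕ} (h : IsPath d γ n)
    (hv : ∀ i ≤ n, v (γ i) = i) {a D : ℕ} (ha : a + D ≤ n) (hu : ∀ t ≤ D, u (γ (a + t)) = t)
    {t : ℕ} (ht : t ≤ D) : Walk d u v (γ a) (γ (a + t)) t ((t : ℤ) ^ 2) := by
  induction t with
  | zero => simpa using Walk.nil (γ a)
  | succ k ih =>
    have := (ih (by omega)).trans (Walk.step (u := u) (v := v) (h (a + k) (by omega)))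
    rw [hv (a + k) (by omega), hv (a + k + 1) (by omega), hu k (by omega), add_assoc a k 1,
      hu (k + 1) ht] at this
    convert this using 1
    push_cast; ring

/-- a short connection that avoids the ball of radius `D` around `p` -/
theorem walk_conn (H : AreaSpace d K) {v : X → ℤ} {p a b : X} {D : ℕ} (h1 : 2 * D ≤ d p a)
    (h2 : d a b ≤ D) :
    Walk d (fun x => max 0 ((D : ℤ) - d p x)) v a b (d a b) 0 ∧
      Walk d (fun x => max 0 ((D : ℤ) - d p x)) v b a (d a b) 0 := by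
  obtain ⟨γ, h0, h1', hγ⟩ := H.exists_geod a b
  have hu : ∀ i ≤ d a b, (fun x => max 0 ((D : ℤ) - d p x)) (γ i) = 0 := by
    intro i hi
    have k1 := hγ 0 i (Nat.zero_le _) hi
    have k2 := H.tri p (γ i) a
    rw [h0, H.symm] at k1
    simp only
    omega
  have k1 := walk_zero (u := fun x => max 0 ((D : ℤ) - d p x)) (v := v) hγ.isPath hu
    (Nat.zero_le _) le_rfl
  have k2 := walk_zero_rev H (u := fun x => max 0 ((D : ℤ) - d p x)) (v := v) hγ.isPath hu
    (Nat.zero_le _) le_rfl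
  rw [h0, h1'] at k1 k2
  exact ⟨k1, k2⟩

/-- Morse lemma, first half -/
theorem morse₁ (H : AreaSpace d K) {α β : ℕ → X} {L n : ℕ} (hα : IsGeod d α L) (hβ : IsPath d β n)
    (hq : ∀ i j, i ≤ j → j ≤ n → j - i ≤ 3 * d (β i) (β j)) (h0 : α 0 = β 0) (h1 : α L = β n) :
    ∀ i ≤ L, ∃ s ≤ n, d (α i) (β s) ≤ 24 * K := by
  have hmin : ∀ i, ∃ s ≤ n, ∀ s' ≤ n, d (α i) (β s) ≤ d (α i) (β s') := by
    intro i
    obtain ⟨s, hs, h⟩ := (Finset.range (n + 1)).exists_min_image (fun s => d (α i) (β s))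
      ⟨0, by simp⟩
    exact ⟨s, by simpa [Nat.lt_succ_iff] using hs, fun s' hs' => h s' (by simpa [Nat.lt_succ_iff])⟩
  choose σ hσ1 hσ2 using hmin
  obtain ⟨i₀, hi₀, hmax⟩ := (Finset.range (L + 1)).exists_max_image
    (fun i => d (α i) (β (σ i))) ⟨0, by simp⟩
  simp only [Finset.mem_range, Nat.lt_succ_iff] at hi₀ hmax
  obtain ⟨D, hD⟩ : ∃ D, D = d (α i₀) (β (σ i₀)) := ⟨_, rfl⟩
  rw [← hD] at hmax
  suffices hDK : D ≤ 24 * K from fun i hi => ⟨σ i, hσ1 i, (hmax i hi).trans hDK⟩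
  have hfar : ∀ s ≤ n, D ≤ d (α i₀) (β s) := fun s hs => hD ▸ hσ2 i₀ s hs
  have hD0 : D ≤ i₀ := by
    have := hfar 0 (Nat.zero_le _)
    rw [← h0, H.symm, hα 0 i₀ (Nat.zero_le _) hi₀] at this
    omega
  have hD1 : D + i₀ ≤ L := by
    have := hfar n le_rfl
    rw [← h1, hα i₀ L hi₀ le_rfl] at this
    omega
  let u : X → ℤ := fun x => max 0 ((D : ℤ) - d (α i₀) x)
  let v : X → ℤ := fun x => d (α 0) x
  have hu : ∀ x y, d x y ≤ 1 → |u x - u y| ≤ 1 := by
    intro x y hxy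
    have k1 := H.tri (α i₀) x y
    have k2 := H.tri (α i₀) y x
    rw [H.symm y x] at k2
    simp only [u]
    rw [abs_le]
    omega
  have hv : ∀ x y, d x y ≤ 1 → |v x - v y| ≤ 1 := by
    intro x y hxy
    have k1 := H.tri (α 0) x y
    have k2 := H.tri (α 0) y x
    rw [H.symm y x] at k2
    simp only [v]
    rw [abs_le]
    omega
  have hu0 : ∀ x, 0 ≤ u x := fun x => le_max_left _ _
  have hvα : ∀ i ≤ L, v (α i) = i := fun i hi => by
    simp only [v]; rw [hα 0 i (Nat.zero_le _) hi]; simp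
  have huβ : ∀ s ≤ n, u (β s) = 0 := fun s hs => by
    have := hfar s hs
    simp only [u]
    omega
  -- left connection
  obtain ⟨i', s', m', hi', hi'', hs', hm', hd', hw'⟩ : ∃ i' s' m', i' + D ≤ i₀ ∧ i₀ ≤ i' + 2 * D ∧
      s' ≤ n ∧ m' ≤ D ∧ d (α i') (β s') ≤ D ∧ Walk d u v (β s') (α i') m' 0 := by
    by_cases hc : 2 * D ≤ i₀
    · refine ⟨i₀ - 2 * D, σ (i₀ - 2 * D), _, by omega, by omega, hσ1 _, hmax _ (by omega),
        hmax _ (by omega), (walk_conn H ?_ (hmax _ (by omega))).2⟩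
      rw [H.symm, hα _ _ (by omega) hi₀]; omega
    · exact ⟨0, 0, 0, by omega, by omega, Nat.zero_le _, Nat.zero_le _, by rw [h0, H.self]; omega,
        h0 ▸ Walk.nil _⟩
  obtain ⟨j', t', k', hj', hj'', hjL, ht', hk', he', hz'⟩ : ∃ j' t' k', i₀ ≤ j' ∧ j' ≤ i₀ + 2 * D ∧
      j' ≤ L ∧ t' ≤ n ∧ k' ≤ D ∧ d (α j') (β t') ≤ D ∧ Walk d u v (α j') (β t') k' 0 := by
    by_cases hc : i₀ + 2 * D ≤ L
    · refine ⟨i₀ + 2 * D, σ (i₀ + 2 * D), _, by omega, by omega, hc, hσ1 _, hmax _ hc,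
        hmax _ hc, (walk_conn H ?_ (hmax _ hc)).1⟩
      rw [hα _ _ (by omega) hc]; omega
    · exact ⟨L, n, 0, by omega, by omega, le_rfl, le_rfl, Nat.zero_le _,
        by rw [h1, H.self]; omega, h1 ▸ Walk.nil _⟩
  have hββ : d (β s') (β t') ≤ 6 * D := by
    have k1 := H.tri (β s') (α i') (β t')
    have k2 := H.tri (α i') (α j') (β t')
    have k3 := hα i' j' (by omega) hjL
    rw [H.symm (β s') (α i')] at k1
    omega
  obtain ⟨l, hl, hb⟩ : ∃ l, l ≤ 18 * D ∧ Walk d u v (β t') (β s') l 0 := by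
    rcases le_total s' t' with h | h
    · have := hq s' t' h ht'
      exact ⟨t' - s', by omega, walk_zero_rev H hβ huβ h ht'⟩
    · have := hq t' s' h hs'
      rw [H.symm] at this
      exact ⟨s' - t', by omega, walk_zero hβ huβ h hs'⟩
  obtain ⟨r₁, hr₁, w₁⟩ := walk_nonneg hα.isPath hu0 hvα (i := i') (j := i₀ - D) (by omega) (by omega)
  have w₂ := walk_sq (u := u) hα.isPath hvα (a := i₀ - D) (D := D) (by omega) (fun t ht => by
    have := hα (i₀ - D + t) i₀ (by omega) hi₀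
    rw [H.symm] at this
    simp only [u]
    omega) le_rfl
  rw [show i₀ - D + D = i₀ by omega] at w₂
  obtain ⟨r₃, hr₃, w₃⟩ := walk_nonneg hα.isPath hu0 hvα hj' hjL
  have hloop := H.area u v hu hv _ _ _ (((((w₁.trans w₂).trans w₃).trans hz').trans hb).trans hw')
  have hlen : ((i₀ - D - i' + D + (j' - i₀) + k' + l + m' : ℕ) : ℤ) ≤ 24 * D := by omega
  have hK : (0 : ℤ) ≤ K := Int.natCast_nonneg K
  have h2 : (D : ℤ) ^ 2 ≤ K * (24 * D) := by
    have := mul_le_mul_of_nonneg_left hlen hK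
    linarith
  by_contra hc
  push Not at hc
  have hc' : 24 * (K : ℤ) < D := by exact_mod_cast hc
  nlinarith

/-- Morse lemma, second half -/
theorem morse₂ (H : AreaSpace d K) {α β : ℕ → X} {L n : ℕ} (hα : IsGeod d α L) (hβ : IsPath d β n)
    (hq : ∀ i j, i ≤ j → j ≤ n → j - i ≤ 3 * d (β i) (β j)) (h0 : α 0 = β 0) (h1 : α L = β n) :
    ∀ t ≤ n, ∃ i ≤ L, d (α i) (β t) ≤ 168 * K + 3 := by
  intro t ht
  have hM := morse₁ H hα hβ hq h0 h1
  classical
  let P : ℕ → Prop := fun i => ∃ s ≤ t, d (α i) (β s) ≤ 24 * K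
  have hP0 : P 0 := ⟨0, Nat.zero_le _, by rw [h0, H.self]; omega⟩
  obtain ⟨s, hs, hd⟩ : P (Nat.findGreatest P L) := Nat.findGreatest_spec (Nat.zero_le L) hP0
  have hiL := Nat.findGreatest_le (P := P) L
  refine ⟨_, hiL, ?_⟩
  have k1 := H.tri (α (Nat.findGreatest P L)) (β s) (β t)
  have k2 := IsPath.le H hβ hs ht
  rcases hiL.eq_or_lt with he | hlt
  · rw [he, h1, H.symm] at hd
    have := hq s n (by omega) le_rfl
    rw [he, h1, H.symm (β n) (β s)] at k1
    rw [he, h1]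
    omega
  · have hn : ¬ P (Nat.findGreatest P L + 1) :=
      Nat.findGreatest_is_greatest (Nat.lt_succ_self _) hlt
    obtain ⟨s₂, hs₂, hd₂⟩ := hM (Nat.findGreatest P L + 1) hlt
    have hts : t < s₂ := by
      by_contra hc
      exact hn ⟨s₂, by omega, hd₂⟩
    have k3 := hq s s₂ (by omega) hs₂
    have k4 := H.tri (β s) (α (Nat.findGreatest P L)) (β s₂)
    have k5 := H.tri (α (Nat.findGreatest P L)) (α (Nat.findGreatest P L + 1)) (β s₂)
    have k6 := hα.isPath _ hlt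
    rw [H.symm (β s) (α _)] at k4
    omega

/-- the path through a nearest point -/
theorem tripod (H : AreaSpace d K) {γ δ : ℕ → X} {j h : ℕ} (hγ : IsGeod d γ j) (hδ : IsGeod d δ h)
    (hm : γ j = δ 0) (hnear : ∀ i ≤ j, h ≤ d (γ i) (δ h)) :
    (∀ (α : ℕ → X) (L : ℕ), IsGeod d α L → α 0 = γ 0 → α L = δ h → ∀ i ≤ L,
      (∃ s ≤ j, d (α i) (γ s) ≤ 24 * K) ∨ ∃ s ≤ h, d (α i) (δ s) ≤ 24 * K) ∧
    ∀ s ≤ h, d (γ 0) (δ s) + d (δ s) (δ h) ≤ d (γ 0) (δ h) + 2 * (168 * K + 3) := by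
  let β : ℕ → X := fun i => if i ≤ j then γ i else δ (i - j)
  have hβ1 : ∀ i ≤ j, β i = γ i := fun i hi => if_pos hi
  have hβ2 : ∀ i, j ≤ i → β i = δ (i - j) := by
    intro i hi
    rcases hi.eq_or_lt with rfl | hlt
    · rw [hβ1 _ le_rfl, hm]; simp
    · exact if_neg (by omega)
  have hβ : IsPath d β (j + h) := by
    intro i hi
    by_cases hc : i < j
    · rw [hβ1 i hc.le, hβ1 (i + 1) hc]; exact hγ.isPath i hc
    · rw [hβ2 i (by omega), hβ2 (i + 1) (by omega), hδ _ _ (by omega) (by omega)]; omega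
  have hq : ∀ i k, i ≤ k → k ≤ j + h → k - i ≤ 3 * d (β i) (β k) := by
    intro i k hik hk
    by_cases hc : k ≤ j
    · rw [hβ1 i (by omega), hβ1 k hc, hγ i k hik hc]; omega
    by_cases hc' : j ≤ i
    · rw [hβ2 i hc', hβ2 k (by omega), hδ _ _ (by omega) (by omega)]; omega
    · rw [hβ1 i (by omega), hβ2 k (by omega)]
      have k1 := hnear i (by omega)
      have k2 := H.tri (γ i) (δ (k - j)) (δ h)
      have k3 := hδ (k - j) h (by omega) le_rfl
      have k4 := H.tri (γ i) (δ (k - j)) (γ j)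
      have k5 := hγ i j (by omega) le_rfl
      have k6 := hδ 0 (k - j) (Nat.zero_le _) (by omega)
      rw [← hm, H.symm] at k6
      omega
  have e0 : β 0 = γ 0 := hβ1 0 (Nat.zero_le _)
  have e1 : β (j + h) = δ h := by rw [hβ2 _ (by omega)]; simp
  refine ⟨fun α L hα h0 h1 i hi => ?_, fun s hs => ?_⟩
  · obtain ⟨s, hs, hd⟩ := morse₁ H hα hβ hq (h0.trans e0.symm) (h1.trans e1.symm) i hi
    by_cases hc : s ≤ j
    · exact Or.inl ⟨s, hc, hβ1 s hc ▸ hd⟩
    · exact Or.inr ⟨s - j, by omega, hβ2 s (by omega) ▸ hd⟩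
  · obtain ⟨α, h0, h1, hα⟩ := H.exists_geod (γ 0) (δ h)
    obtain ⟨i, hi, hd⟩ := morse₂ H hα hβ hq (h0.trans e0.symm) (h1.trans e1.symm) (j + s)
      (by omega)
    rw [hβ2 _ (by omega), Nat.add_sub_cancel_left] at hd
    have k1 := hα 0 i (Nat.zero_le _) hi
    have k2 := hα i _ hi le_rfl
    rw [h0] at k1
    rw [h1] at k2
    have k3 := H.tri (γ 0) (α i) (δ s)
    have k4 := H.tri (δ s) (α i) (δ h)
    rw [H.symm (δ s) (α i)] at k4
    omega

theorem tripod₂ (H : AreaSpace d K) {γ : ℕ → X} {L : ℕ} (hγ : IsGeod d γ L) (z : X) :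
    ∃ j ≤ L, ∃ δ : ℕ → X, ∃ h, δ 0 = γ j ∧ δ h = z ∧
      (∀ (α : ℕ → X) (L' : ℕ), IsGeod d α L' → α 0 = γ 0 → α L' = z → ∀ i ≤ L',
        (∃ s ≤ j, d (α i) (γ s) ≤ 24 * K) ∨ ∃ s ≤ h, d (α i) (δ s) ≤ 24 * K) ∧
      (∀ s ≤ h, d (γ 0) (δ s) + d (δ s) z ≤ d (γ 0) z + 2 * (168 * K + 3)) ∧
      (∀ s ≤ h, d (γ L) (δ s) + d (δ s) z ≤ d (γ L) z + 2 * (168 * K + 3)) := by
  obtain ⟨j, hj, hmin⟩ := (Finset.range (L + 1)).exists_min_image (fun s => d (γ s) z) ⟨0, by simp⟩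
  simp only [Finset.mem_range, Nat.lt_succ_iff] at hj hmin
  obtain ⟨δ, h0, h1, hδ⟩ := H.exists_geod (γ j) z
  have t1 := tripod H (γ := γ) (j := j) (fun a b hab hb => hγ a b hab (by omega)) hδ h0.symm
    (fun i hi => by rw [h1]; exact hmin i (by omega))
  have t2 := tripod H (γ := fun i => γ (L - i)) (j := L - j)
    (fun a b hab hb => by
      simp only
      rw [H.symm, hγ _ _ (by omega) (by omega)]; omega) hδ
    (by rw [h0]; congr 1; omega)
    (fun i hi => by rw [h1]; exact hmin _ (by omega))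
  rw [h1] at t1 t2
  exact ⟨j, hj, δ, _, h0, h1, t1.1, t1.2, t2.2⟩

theorem four_point (H : AreaSpace d K) (w x y z : X) :
    d x w + d y w + d x z ≤ d x w + d z w + d x y + (1056 * K + 18) ∨
      d y w + d z w + d x z ≤ d x w + d z w + d y z + (1056 * K + 18) := by
  obtain ⟨α, a0, a1, hα⟩ := H.exists_geod x z
  obtain ⟨γ, g0, g1, hγ⟩ := H.exists_geod x y
  obtain ⟨i, hi, ε, h', e0, e1, -, p1, p2⟩ := tripod₂ H hα w
  obtain ⟨j, hj, δ, h, d0, d1, q0, -, q2⟩ := tripod₂ H hγ z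
  have p1' := p1 0 (Nat.zero_le _)
  have p2' := p2 0 (Nat.zero_le _)
  rw [e0, a0] at p1'
  rw [e0, a1] at p2'
  have k1 := hα 0 i (Nat.zero_le _) hi
  have k2 := hα i _ hi le_rfl
  rw [a0] at k1
  rw [a1, H.symm] at k2
  rcases q0 α _ hα (a0.trans g0.symm) a1 i hi with ⟨s, hs, hd⟩ | ⟨s, hs, hd⟩
  · left
    have k3 := hγ 0 s (Nat.zero_le _) (by omega)
    have k4 := hγ s _ (by omega) le_rfl
    rw [g0] at k3
    rw [g1, H.symm] at k4
    have k5 := H.tri x (γ s) w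
    have k6 := H.tri y (γ s) w
    have k7 := H.tri (γ s) (α i) w
    rw [H.symm (γ s) (α i)] at k7
    omega
  · right
    have k3 := q2 s hs
    rw [g1] at k3
    have k5 := H.tri y (δ s) w
    have k6 := H.tri z (δ s) w
    have k7 := H.tri (δ s) (α i) w
    rw [H.symm (δ s) (α i)] at k7
    rw [H.symm z (δ s)] at k6
    omega

end Crest.Agent.R177.HypAux
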