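import Crest.Agent.R177.Defs
import Crest.Agent.R177.HypAux
import Crest.Prelude.Def_WordHyperbolic

/-! Linear isoperimetric inequality implies hyperbolicity (task HYP). -/

set_option autoImplicit false

namespace Crest.Agent.R177

open Crest.GroupTheory

section WordLen

variable {G : Type*} [Group G] {S : Set G}

theorem hyp_exists_list (hS : Subgroup.closure S = ⊤) (g : G) :
    ∃ l : List G, (∀ x ∈ l, x ∈ S ∨ x⁻¹ ∈ S) ∧ l.prod = g := by
  have hg : g ∈ Subgroup.closure S := hS ▸ Subgroup.mem_top g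
  induction hg using Subgroup.closure_induction with
  | mem x hx => exact ⟨[x], by simp [hx], by simp⟩
  | one => exact ⟨[], by simp, rfl⟩
  | mul x y _ _ hx hy =>
    obtain ⟨l, h1, rfl⟩ := hx
    obtain ⟨l', h2, rfl⟩ := hy
    refine ⟨l ++ l', fun x hx => ?_, List.prod_append⟩
    rcases List.mem_append.mp hx with h | h
    · exact h1 x h
    · exact h2 x h
  | inv x _ hx =>
    obtain ⟨l, h1, rfl⟩ := hx
    refine ⟨(l.map fun x => x⁻¹).reverse, fun x hx => ?_, (List.prod_inv_reverse l).symm⟩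
    obtain ⟨y, hy, rfl⟩ := List.mem_map.mp (List.mem_reverse.mp hx)
    simpa [or_comm] using h1 y hy

theorem hyp_wl_le {l : List G} (h : ∀ x ∈ l, x ∈ S ∨ x⁻¹ ∈ S) :
    wordLength S l.prod ≤ l.length :=
  Nat.sInf_le ⟨l, rfl, h, rfl⟩

theorem hyp_wl_spec (hS : Subgroup.closure S = ⊤) (g : G) :
    ∃ l : List G, l.length = wordLength S g ∧ (∀ x ∈ l, x ∈ S ∨ x⁻¹ ∈ S) ∧ l.prod = g := by
  obtain ⟨l, h1, h2⟩ := hyp_exists_list hS g
  exact Nat.sInf_mem (s := {n : ℕ | ∃ l : List G, l.length = n ∧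
    (∀ x ∈ l, x ∈ S ∨ x⁻¹ ∈ S) ∧ l.prod = g}) ⟨_, l, rfl, h1, h2⟩

theorem hyp_wl_mul (hS : Subgroup.closure S = ⊤) (g h : G) :
    wordLength S (g * h) ≤ wordLength S g + wordLength S h := by
  obtain ⟨l, e, h1, h2⟩ := hyp_wl_spec hS g
  obtain ⟨l', e', h1', h2'⟩ := hyp_wl_spec hS h
  rw [← e, ← e', ← h2, ← h2', ← List.prod_append, ← List.length_append]
  refine hyp_wl_le fun x hx => ?_
  rcases List.mem_append.mp hx with h | h
  · exact h1 x h
  · exact h1' x h

theorem hyp_wl_inv_le (hS : Subgroup.closure S = ⊤) (g : G) :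
    wordLength S g⁻¹ ≤ wordLength S g := by
  obtain ⟨l, e, h1, h2⟩ := hyp_wl_spec hS g
  rw [← e, ← h2, List.prod_inv_reverse]
  refine (hyp_wl_le fun x hx => ?_).trans (by simp)
  obtain ⟨y, hy, rfl⟩ := List.mem_map.mp (List.mem_reverse.mp hx)
  simpa [or_comm] using h1 y hy

theorem hyp_wl_le_one (hS : Subgroup.closure S = ⊤) {g : G} (h : wordLength S g ≤ 1) :
    g = 1 ∨ g ∈ S ∨ g⁻¹ ∈ S := by
  obtain ⟨l, e, h1, h2⟩ := hyp_wl_spec hS g
  rw [← e] at h
  match l, h, h1, h2 with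
  | [], _, _, h2 => exact Or.inl h2.symm
  | [x], _, h1, h2 =>
    right
    rw [← h2]
    simpa using h1 x (by simp)

end WordLen

namespace TriPres

variable {α T : Type} (Q : TriPres α T)

/-- the area cochain of a pair of functions -/
noncomputable def hypOm (u v : Q.Grp → ℤ) : ((Q.Grp × α) →₀ ℤ) →ₗ[ℤ] ℤ :=
  Finsupp.linearCombination ℤ fun p =>
    (u p.1 + u (p.1 * Q.gen p.2)) * (v (p.1 * Q.gen p.2) - v p.1)

theorem hypOm_edge (u v : Q.Grp → ℤ) (g : Q.Grp) (x : α × Bool) :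
    Q.hypOm u v (Q.edgeCh g x) = (u g + u (g * Q.letter x)) * (v (g * Q.letter x) - v g) := by
  obtain ⟨s, b⟩ := x
  cases b
  · simp [hypOm, edgeCh, letter]; ring
  · simp [hypOm, edgeCh, letter]

theorem hyp_rel (t : T) : Q.gen (Q.a t) * Q.gen (Q.b t) = Q.gen (Q.c t) := by
  have h : PresentedGroup.mk Q.rels
      (FreeGroup.of (Q.a t) * FreeGroup.of (Q.b t) * (FreeGroup.of (Q.c t))⁻¹) = 1 :=
    PresentedGroup.one_of_mem ⟨t, rfl⟩
  rw [map_mul, map_mul, map_inv, mul_inv_eq_one] at h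
  exact h

theorem hypOm_d2 (u v : Q.Grp → ℤ) (hu : ∀ g s, |u g - u (g * Q.gen s)| ≤ 1)
    (hv : ∀ g s, |v g - v (g * Q.gen s)| ≤ 1) (z : (Q.Grp × T) →₀ ℤ) :
    Q.hypOm u v (Q.d2 z) ≤ 2 * ((z.sum fun _ n => n.natAbs : ℕ) : ℤ) := by
  rw [d2, Finsupp.linearCombination_apply, Finsupp.sum, map_sum, Finsupp.sum, Nat.cast_sum,
    Finset.mul_sum]
  refine Finset.sum_le_sum fun p _ => ?_
  rw [map_smul, smul_eq_mul]
  have key : |Q.hypOm u v (Finsupp.single (p.1, Q.a p.2) 1 +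
      Finsupp.single (p.1 * Q.gen (Q.a p.2), Q.b p.2) 1 - Finsupp.single (p.1, Q.c p.2) 1)| ≤ 2 := by
    simp only [hypOm, map_sub, map_add, Finsupp.linearCombination_single, one_smul]
    rw [mul_assoc p.1, Q.hyp_rel]
    have h1 := hu p.1 (Q.a p.2)
    have h2 := hu p.1 (Q.c p.2)
    have h3 := hv p.1 (Q.a p.2)
    have h4 := hv p.1 (Q.c p.2)
    generalize u p.1 = u0 at *
    generalize v p.1 = v0 at *
    generalize u (p.1 * Q.gen (Q.a p.2)) = u1 at *
    generalize v (p.1 * Q.gen (Q.a p.2)) = v1 at *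
    generalize u (p.1 * Q.gen (Q.c p.2)) = u2 at *
    generalize v (p.1 * Q.gen (Q.c p.2)) = v2 at *
    have e : (u0 + u1) * (v1 - v0) + (u1 + u2) * (v2 - v1) - (u0 + u2) * (v2 - v0)
        = (u0 - u1) * (v0 - v2) - (u0 - u2) * (v0 - v1) := by ring
    rw [e]
    refine (abs_sub _ _).trans ?_
    rw [abs_mul, abs_mul]
    have k1 := mul_le_mul h1 h4 (abs_nonneg _) zero_le_one
    have k2 := mul_le_mul h2 h3 (abs_nonneg _) zero_le_one
    linarith
  refine (le_abs_self _).trans ?_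
  rw [abs_mul, Int.natCast_natAbs]
  have := mul_le_mul_of_nonneg_left key (abs_nonneg (z p))
  linarith

theorem hyp_word_of_walk {S : Set Q.Grp} (hS : Subgroup.closure S = ⊤)
    (hS' : ∀ g ∈ S, ∃ s, g = Q.gen s) {u v : Q.Grp → ℤ} {a b : Q.Grp} {n : ℕ} {r : ℤ}
    (h : HypAux.Walk (fun g h => wordLength S (g⁻¹ * h)) u v a b n r) :
    ∃ w : List (α × Bool), w.length ≤ n ∧ a * Q.ev w = b ∧ ∀ g₀ g, g₀ * g = a →
      Q.hypOm (fun x => u (g₀ * x)) (fun x => v (g₀ * x)) (Q.ch g w) = r := by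
  induction h with
  | nil a => exact ⟨[], le_rfl, by simp [ev], fun _ _ _ => by simp [ch]⟩
  | @cons a b c n r hab _ ih =>
    obtain ⟨w, h1, h2, h3⟩ := ih
    have hx : a = b ∨ ∃ x, b = a * Q.letter x := by
      rcases hyp_wl_le_one hS hab with h | h | h
      · exact Or.inl (inv_mul_eq_one.mp h)
      · obtain ⟨s, hs⟩ := hS' _ h
        exact Or.inr ⟨(s, true), by simp [letter, ← hs]⟩
      · obtain ⟨s, hs⟩ := hS' _ h
        exact Or.inr ⟨(s, false), by simp [letter, ← hs]⟩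
    rcases hx with rfl | ⟨x, rfl⟩
    · exact ⟨w, by omega, h2, fun g₀ g hg => by simpa using h3 g₀ g hg⟩
    · refine ⟨x :: w, by simpa using h1, by simpa [ev, mul_assoc] using h2, fun g₀ g hg => ?_⟩
      rw [ch, map_add, hypOm_edge, h3 g₀ _ (by rw [← mul_assoc, hg]), ← mul_assoc, hg]

end TriPres

theorem TriPres.LinIso.hyperbolic {α T : Type} [Fintype α] (Q : TriPres α T) (h : Q.LinIso) :
    Crest.GroupTheory.IsHyperbolicGroup Q.Grp := by
  classical
  obtain ⟨C, hC⟩ := h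
  have hSeq : ((Finset.univ.image Q.gen : Finset Q.Grp) : Set Q.Grp) = Set.range Q.gen := by simp
  have hS : Subgroup.closure (Set.range Q.gen) = ⊤ := PresentedGroup.closure_range_of Q.rels
  have H : HypAux.AreaSpace (fun g h : Q.Grp => wordLength (Set.range Q.gen) (g⁻¹ * h)) (2 * C) := by
    refine ⟨fun x => ?_, fun x y => ?_, fun x y z => ?_, fun x y => ?_, ?_⟩
    · have := hyp_wl_le (S := Set.range Q.gen) (l := []) (by simp)
      simpa using this
    · have h1 := hyp_wl_inv_le hS (x⁻¹ * y)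
      have h2 := hyp_wl_inv_le hS (y⁻¹ * x)
      simp only [mul_inv_rev, inv_inv] at h1 h2
      exact le_antisymm h2 h1
    · have := hyp_wl_mul hS (x⁻¹ * y) (y⁻¹ * z)
      simpa [mul_assoc] using this
    · obtain ⟨l, e, h1, h2⟩ := hyp_wl_spec hS (x⁻¹ * y)
      refine ⟨fun i => x * (l.take i).prod, by simp, by simp [← e, h2], fun i hi => ?_⟩
      rw [← e] at hi
      have := hyp_wl_le (S := Set.range Q.gen) (l := [l[i]])
        (fun y hy => by rw [List.mem_singleton.mp hy]; exact h1 _ (List.getElem_mem hi))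
      simpa [List.prod_take_succ l i hi, mul_assoc] using this
    · intro u v hu hv a n r hw
      obtain ⟨w, h1, h2, h3⟩ := Q.hyp_word_of_walk hS (fun g ⟨s, hs⟩ => ⟨s, hs.symm⟩) hw
      obtain ⟨z, hz1, hz2⟩ := hC w (by simpa using h2)
      have hgen : ∀ (g : Q.Grp) (s : α),
          wordLength (Set.range Q.gen) ((a * g)⁻¹ * (a * (g * Q.gen s))) ≤ 1 := by
        intro g s
        have := hyp_wl_le (S := Set.range Q.gen) (l := [Q.gen s]) (by simp)
        simpa [mul_assoc] using this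
      have k1 := Q.hypOm_d2 (fun x => u (a * x)) (fun x => v (a * x))
        (fun g s => hu _ _ (hgen g s)) (fun g s => hv _ _ (hgen g s)) z
      rw [hz1, h3 a 1 (mul_one a)] at k1
      have k2 : ((z.sum fun _ n => n.natAbs : ℕ) : ℤ) ≤ C * n := by
        exact_mod_cast hz2.trans (Nat.mul_le_mul_left C h1)
      push_cast
      linarith
  refine ⟨Finset.univ.image Q.gen, by rw [hSeq, hS], 1056 * (2 * C : ℕ) + 18, by positivity,
    fun w x y z => ?_⟩
  rw [hSeq]
  simp only [gromovProduct, wordDist]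
  have hC0 : (0 : ℝ) ≤ ((2 * C : ℕ) : ℝ) := Nat.cast_nonneg _
  rcases HypAux.four_point H w x y z with h | h
  · have h' := (Nat.cast_le (α := ℝ)).mpr h
    simp only [Nat.cast_add, Nat.cast_mul (1056 : ℕ), Nat.cast_ofNat] at h'
    linarith [min_le_left ((↑(wordLength (Set.range Q.gen) (x⁻¹ * w)) +
      ↑(wordLength (Set.range Q.gen) (y⁻¹ * w)) - ↑(wordLength (Set.range Q.gen) (x⁻¹ * y))) / 2 : ℝ)
      ((↑(wordLength (Set.range Q.gen) (y⁻¹ * w)) + ↑(wordLength (Set.range Q.gen) (z⁻¹ * w)) -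
        ↑(wordLength (Set.range Q.gen) (y⁻¹ * z))) / 2)]
  · have h' := (Nat.cast_le (α := ℝ)).mpr h
    simp only [Nat.cast_add, Nat.cast_mul (1056 : ℕ), Nat.cast_ofNat] at h'
    linarith [min_le_right ((↑(wordLength (Set.range Q.gen) (x⁻¹ * w)) +
      ↑(wordLength (Set.range Q.gen) (y⁻¹ * w)) - ↑(wordLength (Set.range Q.gen) (x⁻¹ * y))) / 2 : ℝ)
      ((↑(wordLength (Set.range Q.gen) (y⁻¹ * w)) + ↑(wordLength (Set.range Q.gen) (z⁻¹ * w)) -
        ↑(wordLength (Set.range Q.gen) (y⁻¹ * z))) / 2)]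

end Crest.Agent.R177
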