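import Crest.Agent.R177.IsoAux4

/-! Local-to-global principle for the linear isoperimetric inequality (task ISO). -/

set_option autoImplicit false

namespace Crest.Agent.R177

open Equiv

section

variable {α T : Type} {Q : TriPres α T}

/-- the part `J` of the map `M` after unmatching some darts -/
def isoPart (M : RMap Q) (η : Perm (M.I × Fin 3)) (J : Finset M.I) (hs : IsoSub M.ε η)
    (hη : ∀ d, η (η d) = d) (hJ : IsoClosed η J) : RMap Q where
  I := {i // i ∈ J}
  ty i := M.ty i.1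
  ε := Function.Involutive.toPerm
    (fun d => (⟨(η (d.1.1, d.2)).1, hJ (d.1.1, d.2) d.1.2⟩, (η (d.1.1, d.2)).2))
    (fun d => by
      refine Prod.ext (Subtype.ext ?_) ?_ <;> simp [hη])
  invol d := by
    refine Prod.ext (Subtype.ext ?_) ?_ <;> simp [Function.Involutive.toPerm, hη]
  lab_inv d hd := by
    rcases hs (d.1.1, d.2) with h | h
    · exact (hd (Prod.ext (Subtype.ext (congrArg Prod.fst h :)) (congrArg Prod.snd h :))).elim
    · have h' : M.ε (d.1.1, d.2) ≠ (d.1.1, d.2) := fun h' => by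
        rw [h'] at h
        exact hd (Prod.ext (Subtype.ext (congrArg Prod.fst h)) (congrArg Prod.snd h :))
      have := M.lab_inv _ h'
      rw [← h] at this
      exact this
  red d hd := by
    rcases hs (d.1.1, d.2) with h | h
    · exact (hd (Prod.ext (Subtype.ext (congrArg Prod.fst h :)) (congrArg Prod.snd h :))).elim
    · have h' : M.ε (d.1.1, d.2) ≠ (d.1.1, d.2) := fun h' => by
        rw [h'] at h
        exact hd (Prod.ext (Subtype.ext (congrArg Prod.fst h)) (congrArg Prod.snd h :))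
      have := M.red _ h'
      rw [← h] at this
      exact this

theorem iso_wt {wt : α → ℕ} {g : ℕ} (ha : ∀ t, wt (Q.a t) = g) (hb : ∀ t, wt (Q.b t) = 1)
    (hc : ∀ t, wt (Q.c t) = g) (M : RMap Q) (d : M.I × Fin 3) : wt (M.lab d).1 = isoW g d := by
  obtain ⟨i, k⟩ := d
  unfold RMap.lab TriPres.side isoW
  split_ifs <;> fin_cases k <;> simp_all

theorem isoPart_area (M : RMap Q) (η : Perm (M.I × Fin 3)) (J : Finset M.I) (hs : IsoSub M.ε η)
    (hη : ∀ d, η (η d) = d) (hJ : IsoClosed η J) : (isoPart M η J hs hη hJ).area = J.card :=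
  Fintype.card_coe J

theorem isoPart_disc (M : RMap Q) (η : Perm (M.I × Fin 3)) (J : Finset M.I) (hs : IsoSub M.ε η)
    (hη : ∀ d, η (η d) = d) (hJ : IsoClosed η J) (hD : DiscLike (rot M.I) η) :
    (isoPart M η J hs hη hJ).Disc :=
  DiscLike.of_embed (D' := {i // i ∈ J} × Fin 3) (fun d => (d.1.1, d.2))
    (fun _ _ h => Prod.ext (Subtype.ext (congrArg Prod.fst h)) (congrArg Prod.snd h :))
    (fun _ => rfl) (fun _ => rfl) hD

theorem iso_bw {wt : α → ℕ} {g : ℕ} (ha : ∀ t, wt (Q.a t) = g) (hb : ∀ t, wt (Q.b t) = 1)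
    (hc : ∀ t, wt (Q.c t) = g) (M : RMap Q) : M.bw wt = isoBw g M.ε Finset.univ := by
  unfold RMap.bw isoBw
  simp only [iso_wt ha hb hc, Finset.mem_univ, true_and]

theorem isoPart_bw {wt : α → ℕ} {g : ℕ} (ha : ∀ t, wt (Q.a t) = g) (hb : ∀ t, wt (Q.b t) = 1)
    (hc : ∀ t, wt (Q.c t) = g) (M : RMap Q) (η : Perm (M.I × Fin 3)) (J : Finset M.I)
    (hs : IsoSub M.ε η) (hη : ∀ d, η (η d) = d) (hJ : IsoClosed η J) :
    (isoPart M η J hs hη hJ).bw wt = isoBw g η J := by
  rw [iso_bw ha hb hc]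
  unfold isoBw
  refine Finset.sum_bij (fun (d : {i // i ∈ J} × Fin 3) _ => (d.1.1, d.2)) (fun d hd => ?_)
    (fun _ _ _ _ h => Prod.ext (Subtype.ext (congrArg Prod.fst h)) (congrArg Prod.snd h :))
    (fun d hd => ?_) (fun _ _ => rfl)
  · have h := (Finset.mem_filter.mp hd).2.2
    exact Finset.mem_filter.mpr ⟨Finset.mem_univ _, d.1.2,
      Prod.ext (congrArg (fun x => x.1.1) h) (congrArg Prod.snd h :)⟩
  · obtain ⟨h1, h2⟩ := (Finset.mem_filter.mp hd).2
    exact ⟨(⟨d.1, h1⟩, d.2), Finset.mem_filter.mpr ⟨Finset.mem_univ _, Finset.mem_univ _,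
      Prod.ext (Subtype.ext (congrArg Prod.fst h2)) (congrArg Prod.snd h2 :)⟩, rfl⟩

end

theorem iso_main (C₀ : ℕ) : ∃ K : ℕ, ∀ {α T : Type} (Q : TriPres α T) (wt : α → ℕ) (g : ℕ),
    0 < g → (∀ t, wt (Q.a t) = g) → (∀ t, wt (Q.b t) = 1) → (∀ t, wt (Q.c t) = g) →
    (∀ M : RMap Q, 0 < M.area → g ≤ M.area ∨ g ≤ M.bw wt) →
    (∀ M : RMap Q, M.Disc → M.area ≤ K * g → M.area ≤ C₀ * M.bw wt) →
    ∀ M : RMap Q, M.Disc → M.area ≤ 2 * C₀ * M.bw wt := by
  set c : ℕ := 7 * C₀ * (66 + 64 * C₀) with hcdef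
  refine ⟨5 * c ^ 2 + 10 + 4 * C₀, fun {α T} Q wt g hg ha hb hc H1 H2 => ?_⟩
  have key : ∀ n, ∀ M : RMap Q, M.area = n → M.Disc →
      (M.area : ℝ) + isoH c g M.area ≤ 2 * C₀ * M.bw wt := by
    intro n
    induction n using Nat.strong_induction_on with
    | _ n ih =>
    intro M hn hD
    by_cases hA : M.area ≤ (5 * c ^ 2 + 10 + 4 * C₀) * g
    · have k1 : (M.area : ℝ) ≤ C₀ * M.bw wt := by exact_mod_cast H2 M hD hA
      have k2 := isoH_le c g M.area
      linarith
    have X : IsoCtx M.ε g C₀ c := by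
      refine ⟨M.invol, fun d => ?_, fun η J hs hη hJ hne => ?_, fun η J hs hη hD' hJ hlt => ?_⟩
      · by_cases hd : M.ε d = d
        · rw [hd]
        · rw [← iso_wt ha hb hc M, ← iso_wt ha hb hc M]
          exact congrArg (fun x => wt x.1) (M.lab_inv d hd)
      · have := H1 (isoPart M η J hs hη hJ) (by rw [isoPart_area]; exact hne.card_pos)
        rwa [isoPart_area, isoPart_bw ha hb hc] at this
      · have := ih _ (hn ▸ hlt) (isoPart M η J hs hη hJ) (isoPart_area ..)
          (isoPart_disc M η J hs hη hJ hD')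
        rwa [isoPart_area, isoPart_bw ha hb hc] at this
    rw [iso_bw ha hb hc]
    refine X.step (by rw [hcdef]; push_cast; exact le_rfl) hg hD ?_
    exact_mod_cast (not_le.mp hA).le
  intro M hD
  have k1 := key _ M rfl hD
  have k2 := isoH_nonneg (c := c) (by positivity) g M.area
  have : (M.area : ℝ) ≤ 2 * C₀ * M.bw wt := by linarith
  exact_mod_cast this

end Crest.Agent.R177
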