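import Crest.Agent.R177.Perm

/-! Cutting permutation maps along edges that are connected to the hole (task ISO, part 1). -/

set_option autoImplicit false
set_option linter.unusedSectionVars false

namespace Crest.Agent.R177

open Equiv

variable {D : Type} [Fintype D] [DecidableEq D]

theorem iso_cyc_ind {σ : Perm D} {P : D → Prop} (h : ∀ y, P y → P (σ y)) {x y : D}
    (hxy : σ.SameCycle x y) (hx : P x) : P y :=
  sameCycle_induction h hxy hx

theorem iso_sum_insert_le (w : D → ℕ) (a : D) (s : Finset D) :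
    ∑ d ∈ insert a s, w d ≤ w a + ∑ d ∈ s, w d := by
  by_cases h : a ∈ s
  · rw [Finset.insert_eq_of_mem h]; omega
  · rw [Finset.sum_insert h]

theorem iso_conn_ind {φ ε : Perm D} {P : D → Prop} (h1 : ∀ y, P y → P (φ y))
    (h2 : ∀ y, P y → P (ε y)) {x y : D} (hxy : Conn φ ε x y) (hx : P x) : P y := by
  have : P x ↔ P y := by
    clear hx
    induction hxy with
    | rel a b hab =>
      rcases hab with rfl | rfl
      · exact ⟨h1 a, iso_cyc_ind h1 (Perm.sameCycle_apply_left.mpr Perm.SameCycle.rfl)⟩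
      · exact ⟨h2 a, iso_cyc_ind h2 (Perm.sameCycle_apply_left.mpr Perm.SameCycle.rfl)⟩
    | refl a => exact Iff.rfl
    | symm a b _ ih => exact ih.symm
    | trans a b c _ _ ih1 ih2 => exact ih1.trans ih2
  exact this.mp hx

theorem iso_conn_refl (φ ε : Perm D) (x : D) : Conn φ ε x x := Relation.EqvGen.refl x

theorem Conn.iso_symm {φ ε : Perm D} {x y : D} (h : Conn φ ε x y) : Conn φ ε y x :=
  Relation.EqvGen.symm _ _ h

theorem Conn.iso_trans {φ ε : Perm D} {x y z : D} (h : Conn φ ε x y) (h' : Conn φ ε y z) :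
    Conn φ ε x z := Relation.EqvGen.trans _ _ _ h h'

theorem iso_conn_phi (φ ε : Perm D) (x : D) : Conn φ ε x (φ x) :=
  Relation.EqvGen.rel _ _ (Or.inl rfl)

theorem iso_conn_eps (φ ε : Perm D) (x : D) : Conn φ ε x (ε x) :=
  Relation.EqvGen.rel _ _ (Or.inr rfl)

theorem iso_conn_of_cyc {φ ε : Perm D} {x y : D} (h : (φ * ε).SameCycle x y) : Conn φ ε x y :=
  iso_cyc_ind (P := fun y => Conn φ ε x y)
    (fun y hy => (hy.iso_trans (iso_conn_eps φ ε y)).iso_trans (iso_conn_phi φ ε _)) h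
    (iso_conn_refl _ _ _)

/-- `η` is obtained from `ε` by unmatching some darts -/
def IsoSub (ε η : Perm D) : Prop := ∀ d, η d = d ∨ η d = ε d

theorem iso_conn_mono {φ ε η : Perm D} (h : IsoSub ε η) {x y : D} (hxy : Conn φ η x y) :
    Conn φ ε x y := by
  refine iso_conn_ind (P := fun y => Conn φ ε x y)
    (fun y hy => hy.iso_trans (iso_conn_phi _ _ _)) (fun y hy => ?_) hxy (iso_conn_refl _ _ _)
  rcases h y with h | h
  · rw [h]; exact hy
  · rw [h]; exact hy.iso_trans (iso_conn_eps _ _ _)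

/-- the dart lies on a hole -/
def OnHole (φ η : Perm D) (x : D) : Prop := ∃ u, η u = u ∧ (φ * η).SameCycle u x

theorem iso_onHole {φ ε η : Perm D} (h : IsoSub ε η) {p x : D} (hp : η p = p)
    (hpx : (φ * ε).SameCycle p x) : OnHole φ η x := by
  obtain ⟨n, hn⟩ := hpx.symm.exists_nat_pow_eq
  clear hpx
  induction n generalizing x with
  | zero => exact ⟨x, by simpa [← hn] using hp, Perm.SameCycle.rfl⟩
  | succ n ih =>
    rcases h x with hx | hx
    · exact ⟨x, hx, Perm.SameCycle.rfl⟩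
    · obtain ⟨u, hu, hu'⟩ := ih (x := (φ * ε) x) (by rw [← hn, pow_succ]; rfl)
      refine ⟨u, hu, ?_⟩
      have : (φ * ε) x = (φ * η) x := by simp [hx]
      rw [this] at hu'
      exact Perm.sameCycle_apply_right.mp hu'

theorem iso_cyc_of_untouched {φ ε η : Perm D} {x y : D}
    (h : ∀ z, (φ * ε).SameCycle x z → η z = ε z) (hxy : (φ * η).SameCycle x y) :
    (φ * ε).SameCycle x y := by
  refine iso_cyc_ind (P := fun y => (φ * ε).SameCycle x y) (fun z hz => ?_) hxy Perm.SameCycle.rfl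
  have : (φ * η) z = (φ * ε) z := by simp [h z hz]
  rw [this]; exact Perm.sameCycle_apply_right.mpr hz

/-- `η` is `ε` cut along `L` -/
def IsoCut (ε : Perm D) (L : Finset D) (η : Perm D) : Prop :=
  ∀ d, η d = if d ∈ L then d else ε d

theorem iso_exists_cut {ε : Perm D} (hε : ∀ d, ε (ε d) = d) {L : Finset D}
    (hL : ∀ d ∈ L, ε d ∈ L) : ∃ η, IsoCut ε L η := by
  have : Function.Involutive fun d => if d ∈ L then d else ε d := by
    intro d
    by_cases h : d ∈ L
    · simp [h]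
    · have : ε d ∉ L := fun h' => h (hε d ▸ hL _ h')
      simp [h, this, hε]
  exact ⟨this.toPerm _, fun d => rfl⟩

theorem IsoCut.sub {ε η : Perm D} {L : Finset D} (h : IsoCut ε L η) : IsoSub ε η := fun d => by
  rw [h d]; split_ifs <;> simp

theorem IsoCut.invol {ε η : Perm D} {L : Finset D} (h : IsoCut ε L η) (hε : ∀ d, ε (ε d) = d)
    (hL : ∀ d ∈ L, ε d ∈ L) (d : D) : η (η d) = d := by
  by_cases hd : d ∈ L
  · have : η d = d := by rw [h d, if_pos hd]
    rw [this, this]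
  · have h' : ε d ∉ L := fun h' => hd (hε d ▸ hL _ h')
    rw [h d, if_neg hd, h, if_neg h', hε]

theorem IsoCut.of_mem {ε η : Perm D} {L : Finset D} (h : IsoCut ε L η) {d : D} (hd : d ∈ L) :
    η d = d := by rw [h d, if_pos hd]

theorem IsoCut.of_not_mem {ε η : Perm D} {L : Finset D} (h : IsoCut ε L η) {d : D} (hd : d ∉ L) :
    η d = ε d := by rw [h d, if_neg hd]

theorem IsoCut.sub_of_subset {ε η η' : Perm D} {L L' : Finset D} (h : IsoCut ε L η)
    (h' : IsoCut ε L' η') (hL : L ⊆ L') : IsoSub η η' := fun d => by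
  by_cases hd : d ∈ L'
  · exact Or.inl (h'.of_mem hd)
  · exact Or.inr (by rw [h'.of_not_mem hd, h.of_not_mem fun h => hd (hL h)])

theorem IsoCut.eq_mul_swap {ε η η' : Perm D} (hε : ∀ d, ε (ε d) = d) {L L' : Finset D} {d : D}
    (h : IsoCut ε L η) (h' : IsoCut ε L' η') (hd : d ∉ L') (hd' : ε d ∉ L')
    (hL : ∀ x, x ∈ L ↔ x ∈ L' ∨ x = d ∨ x = ε d) : η = η' * swap d (η' d) := by
  rw [h'.of_not_mem hd]
  ext x
  rw [Perm.mul_apply]
  by_cases h1 : x = d
  · subst h1
    rw [swap_apply_left, h'.of_not_mem hd', hε, h.of_mem ((hL _).mpr (by simp))]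
  by_cases h2 : x = ε d
  · subst h2
    rw [swap_apply_right, h'.of_not_mem hd, h.of_mem ((hL _).mpr (by simp))]
  rw [swap_apply_of_ne_of_ne h1 h2, h x, h' x]
  simp [hL x, h1, h2]

theorem iso_cut_one {ε : Perm D} (hε : ∀ d, ε (ε d) = d) (d : D) :
    IsoCut ε {d, ε d} (ε * swap d (ε d)) := by
  intro x
  rw [Perm.mul_apply]
  by_cases h1 : x = d
  · subst h1; simp [hε]
  by_cases h2 : x = ε d
  · subst h2; simp
  rw [swap_apply_of_ne_of_ne h1 h2]; simp [h1, h2]

/-- weighted distance from the hole, with a choice of parent edges -/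
structure IsoDist (φ ε : Perm D) (w r : D → ℕ) (par : D → D) : Prop where
  invol : ∀ d, ε (ε d) = d
  w_pos : ∀ d, 0 < w d
  w_eps : ∀ d, w (ε d) = w d
  r_cyc : ∀ d, r (φ (ε d)) = r d
  r_zero : ∀ d, r d = 0 → OnHole φ ε d
  hole_zero : ∀ d, ε d = d → r d = 0
  r_le : ∀ d, r (φ d) ≤ r d + w d
  le_r : ∀ d, r d ≤ r (φ d) + w d
  par_cyc : ∀ d, (φ * ε).SameCycle (par d) d
  par_eq : ∀ d d', (φ * ε).SameCycle d d' → par d = par d'
  par_le : ∀ d, 0 < r d → r (φ (par d)) + w (par d) ≤ r d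

theorem iso_exists_dist {φ ε : Perm D} (hε : ∀ d, ε (ε d) = d) {w : D → ℕ} (hw : ∀ d, 0 < w d)
    (hwε : ∀ d, w (ε d) = w d) (hconn : ∀ x y, Conn φ ε x y) {u : D} (hu : ε u = u) :
    ∃ r par, IsoDist φ ε w r par := by
  classical
  let Reach : ℕ → D → Prop := fun n d => ∃ l : List D, (l.map w).sum = n ∧
    (List.rec (motive := fun _ => D → Prop) (fun d => OnHole φ ε d)
      (fun p _ ih d => (φ * ε).SameCycle p d ∧ ih (φ p)) l d)
  have R0 : ∀ d, OnHole φ ε d → Reach 0 d := fun d h => ⟨[], rfl, h⟩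
  have R1 : ∀ n p d, (φ * ε).SameCycle p d → Reach n (φ p) → Reach (w p + n) d := by
    rintro n p d h ⟨l, h1, h2⟩
    exact ⟨p :: l, by simp [h1], h, h2⟩
  have Rc : ∀ n d, Reach n d → (n = 0 ∧ OnHole φ ε d) ∨
      ∃ p m, (φ * ε).SameCycle p d ∧ Reach m (φ p) ∧ n = w p + m := by
    rintro n d ⟨l, h1, h2⟩
    cases l with
    | nil => exact Or.inl ⟨by simpa using h1.symm, h2⟩
    | cons p l => exact Or.inr ⟨p, _, h2.1, ⟨l, rfl, h2.2⟩, by simpa using h1.symm⟩
  have Rs : ∀ n d d', (φ * ε).SameCycle d d' → Reach n d → Reach n d' := by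
    intro n d d' h hr
    rcases Rc n d hr with ⟨rfl, v, hv, hv'⟩ | ⟨p, m, h1, h2, rfl⟩
    · exact R0 _ ⟨v, hv, hv'.trans h⟩
    · exact R1 _ _ _ (h1.trans h) h2
  have c1 : ∀ d, (φ * ε).SameCycle (ε d) (φ d) := fun d => by
    have : φ d = (φ * ε) (ε d) := by simp [hε]
    rw [this]; exact Perm.sameCycle_apply_right.mpr Perm.SameCycle.rfl
  have c2 : ∀ d, (φ * ε).SameCycle d (φ (ε d)) := fun d => by
    have : φ (ε d) = (φ * ε) d := rfl
    rw [this]; exact Perm.sameCycle_apply_right.mpr Perm.SameCycle.rfl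
  have Rφ : ∀ n d, Reach n d → Reach (w d + n) (φ d) := fun n d h => by
    have := R1 n (ε d) (φ d) (c1 d) (Rs _ _ _ (c2 d) h)
    rwa [hwε] at this
  have hex : ∀ d, ∃ n, Reach n d := fun d =>
    iso_conn_ind (P := fun d => ∃ n, Reach n d) (fun y ⟨n, hn⟩ => ⟨_, Rφ n y hn⟩)
      (fun y ⟨n, hn⟩ => ⟨_, Rs _ _ _ (c1 y).symm (Rφ n y hn)⟩) (hconn u d)
      ⟨0, R0 _ ⟨u, hu, Perm.SameCycle.rfl⟩⟩
  let r : D → ℕ := fun d => Nat.find (hex d)
  have hr : ∀ d, Reach (r d) d := fun d => Nat.find_spec (hex d)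
  have hmin : ∀ d n, Reach n d → r d ≤ n := fun d n h => Nat.find_min' (hex d) h
  have rs : ∀ d d', (φ * ε).SameCycle d d' → r d = r d' := fun d d' h =>
    le_antisymm (hmin _ _ (Rs _ _ _ h.symm (hr d'))) (hmin _ _ (Rs _ _ _ h (hr d)))
  have hpar : ∀ q : Quotient (Perm.SameCycle.setoid (φ * ε)), ∃ p,
      (φ * ε).SameCycle p q.out ∧ (0 < r q.out → r (φ p) + w p ≤ r q.out) := by
    intro q
    rcases Rc _ _ (hr q.out) with ⟨h, -⟩ | ⟨p, m, h1, h2, h3⟩
    · exact ⟨q.out, Perm.SameCycle.rfl, fun h' => by omega⟩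
    · exact ⟨p, h1, fun _ => by have := hmin _ _ h2; omega⟩
  choose par' hp1 hp2 using hpar
  have hout : ∀ d, (φ * ε).SameCycle (Quotient.mk (Perm.SameCycle.setoid (φ * ε)) d).out d :=
    fun d => Quotient.mk_out (s := Perm.SameCycle.setoid (φ * ε)) d
  refine ⟨r, fun d => par' (Quotient.mk _ d), hε, hw, hwε, fun d => (rs _ _ (c2 d)).symm,
    fun d h => ?_, fun d h => ?_, fun d => ?_, fun d => ?_, fun d => (hp1 _).trans (hout d),
    fun d d' h => ?_, fun d h => ?_⟩
  · rcases Rc _ _ (hr d) with ⟨-, h'⟩ | ⟨p, m, -, -, h3⟩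
    · exact h'
    · have := hw p; omega
  · exact Nat.le_zero.mp (hmin _ _ (R0 _ ⟨d, h, Perm.SameCycle.rfl⟩))
  · have := hmin _ _ (Rφ _ d (hr d)); omega
  · have := hmin _ _ (R1 _ d d Perm.SameCycle.rfl (hr (φ d))); omega
  · congr 1; exact Quotient.sound h
  · rw [← rs _ _ (hout d)] at h ⊢
    exact hp2 _ h

namespace IsoDist

variable {φ ε : Perm D} {w r : D → ℕ} {par : D → D} (h : IsoDist φ ε w r par)
include h

theorem r_eq {d d' : D} (hd : (φ * ε).SameCycle d d') : r d = r d' :=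
  iso_cyc_ind (P := fun y => r d = r y) (fun y hy => hy.trans (h.r_cyc y).symm) hd rfl

theorem r_eps (d : D) : r (ε d) = r (φ d) := by
  have := h.r_cyc (ε d); rw [h.invol] at this; exact this.symm

theorem r_par (d : D) : r (par d) = r d := h.r_eq (h.par_cyc d)

theorem par_par (d : D) : par (par d) = par d := h.par_eq _ _ (h.par_cyc d)

theorem r_eps_par {d : D} (hd : 0 < r d) : r (ε (par d)) < r d := by
  have := h.par_le d hd
  have := h.w_pos (par d)
  rw [h.r_eps]; omega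

theorem onHole_of_cut {η : Perm D} (hs : IsoSub ε η) {d : D} (hd : 0 < r d → η (par d) = par d) :
    OnHole φ η d := by
  rcases Nat.eq_zero_or_pos (r d) with h0 | h0
  · obtain ⟨u, hu, hu'⟩ := h.r_zero d h0
    refine iso_onHole hs ?_ hu'
    rcases hs u with h1 | h1
    · exact h1
    · rw [h1, hu]
  · exact iso_onHole hs (hd h0) (h.par_cyc d)

/-- a set of darts closed under `ε` and under parents -/
def Good (_h : IsoDist φ ε w r par) (L : Finset D) : Prop :=
  (∀ d ∈ L, ε d ∈ L) ∧ ∀ d ∈ L, 0 < r d → par d ∈ L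

/-- parent edges -/
def IsTree (_h : IsoDist φ ε w r par) (d : D) : Prop :=
  (0 < r d ∧ par d = d) ∨ (0 < r (ε d) ∧ par (ε d) = ε d)

/-- Cutting along a set of edges each of which is reached from the hole through edges of smaller
rank keeps the map disc-like; if only parent edges are cut, the components do not change. -/
theorem cut_aux (hD : DiscLike φ ε) (L : Finset D) (hL : ∀ d ∈ L, ε d ∈ L)
    (hacc : ∀ d ∈ L, r d ≤ r (ε d) → 0 < r d → par d ∈ L) :
    ∀ η, IsoCut ε L η → DiscLike φ η ∧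
      ((∀ d ∈ L, h.IsTree d) → ∀ x y, Conn φ ε x y → Conn φ η x y) := by
  induction L using Finset.strongInduction with
  | H L ih =>
  intro η hη
  rcases L.eq_empty_or_nonempty with rfl | hne
  · have : η = ε := by ext d; simpa using hη d
    rw [this]; exact ⟨hD, fun _ _ _ h => h⟩
  obtain ⟨d₀, hd₀, hmax₀⟩ := L.exists_max_image (fun d => min (r d) (r (ε d))) hne
  obtain ⟨d, hd, hmax, hle⟩ : ∃ d ∈ L, (∀ x ∈ L, min (r x) (r (ε x)) ≤ r d) ∧ r d ≤ r (ε d) := by
    rcases le_total (r d₀) (r (ε d₀)) with h1 | h1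
    · exact ⟨d₀, hd₀, fun x hx => (hmax₀ x hx).trans (min_le_left _ _), h1⟩
    · exact ⟨ε d₀, hL _ hd₀, fun x hx => (hmax₀ x hx).trans (min_le_right _ _),
        by rw [h.invol]; exact h1⟩
  set L' := (L.erase d).erase (ε d) with hL'
  have mem' : ∀ x, x ∈ L' ↔ x ∈ L ∧ x ≠ d ∧ x ≠ ε d := fun x => by
    simp only [hL', Finset.mem_erase]; tauto
  have hss : L' ⊂ L := ⟨fun x hx => ((mem' x).mp hx).1, fun hh => ((mem' d).mp (hh hd)).2.1 rfl⟩
  have hLc : ∀ x ∈ L', ε x ∈ L' := fun x hx => by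
    obtain ⟨h1, h2, h3⟩ := (mem' x).mp hx
    refine (mem' _).mpr ⟨hL x h1, fun h4 => h3 ?_, fun h4 => h2 (ε.injective h4)⟩
    rw [← h4, h.invol]
  have par_mem : ∀ x ∈ L, r x ≤ r (ε x) → 0 < r x → par x ∈ L' := fun x hx h1 h2 => by
    have k1 := hmax x hx
    have k2 := h.r_eps_par h2
    have k3 := h.r_par x
    refine (mem' _).mpr ⟨hacc x hx h1 h2, fun h4 => ?_, fun h4 => ?_⟩
    · rw [h4] at k2 k3; omega
    · rw [h4, h.invol] at k2; omega
  obtain ⟨η', hη'⟩ := iso_exists_cut h.invol hLc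
  obtain ⟨i1, i2⟩ := ih L' hss hLc (fun x hx => par_mem x ((mem' x).mp hx).1) η' hη'
  have hd1 : d ∉ L' := fun hh => ((mem' d).mp hh).2.1 rfl
  have hd2 : ε d ∉ L' := fun hh => ((mem' _).mp hh).2.2 rfl
  have heq : η = η' * swap d (η' d) := hη.eq_mul_swap h.invol hη' hd1 hd2 fun x => by
    rw [mem']
    constructor
    · intro hx; by_cases h1 : x = d <;> by_cases h2 : x = ε d <;> simp [h1, h2, hx]
    · rintro (hx | rfl | rfl)
      exacts [hx.1, hd, hL _ hd]
  have hinv := hη'.invol h.invol hLc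
  have hole : OnHole φ η' d :=
    h.onHole_of_cut hη'.sub fun h0 => hη'.of_mem (par_mem d hd hle h0)
  refine ⟨heq ▸ DiscLike.cut hinv i1 (Or.inl hole), fun hT x y hxy => ?_⟩
  have hc := i2 (fun x hx => hT x ((mem' x).mp hx).1) x y hxy
  rw [heq]
  refine (conn_cut_iff φ η' hinv (fun hsc => ?_) x y).mpr hc
  rw [hη'.of_not_mem hd1] at hsc
  -- `ε d` is the parent dart of a vertex none of whose darts has been cut
  have hp : 0 < r (ε d) ∧ par (ε d) = ε d := by
    rcases hT d hd with ⟨h1, h2⟩ | h1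
    · have := h.r_eps_par h1
      rw [h2] at this; omega
    · exact h1
  have hlt : r d < r (ε d) := by
    have := h.r_eps_par hp.1
    rwa [hp.2, h.invol] at this
  have unt : ∀ z, (φ * ε).SameCycle (ε d) z → η' z = ε z := fun z hz => by
    refine hη'.of_not_mem fun hzL => ?_
    obtain ⟨h1, h2, h3⟩ := (mem' z).mp hzL
    have k1 := h.r_eq hz
    have k2 := hmax z h1
    rcases hT z h1 with ⟨-, h5⟩ | ⟨h4, h5⟩
    · exact h3 (by rw [← h5, ← h.par_eq _ _ hz, hp.2])
    · have := h.r_eps_par h4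
      rw [h5, h.invol] at this
      omega
  have := h.r_eq (iso_cyc_of_untouched unt hsc.symm)
  omega

theorem cut_disc (hD : DiscLike φ ε) {L : Finset D} (hL : h.Good L) {η : Perm D}
    (hη : IsoCut ε L η) : DiscLike φ η :=
  (h.cut_aux hD L hL.1 (fun d hd _ => hL.2 d hd) η hη).1

theorem exists_path (x : D) : ∃ L : Finset D, h.Good L ∧ (∀ d ∈ L, h.IsTree d) ∧
    (0 < r x → par x ∈ L) ∧ ∑ d ∈ L, w d ≤ 2 * r x := by
  induction hn : r x using Nat.strong_induction_on generalizing x with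
  | _ n ih =>
  subst hn
  rcases Nat.eq_zero_or_pos (r x) with h0 | h0
  · exact ⟨∅, ⟨by simp, by simp⟩, by simp, fun h' => by omega, by simp⟩
  obtain ⟨L, ⟨g1, g2⟩, t, p, s⟩ := ih _ (h.r_eps_par h0) (ε (par x)) rfl
  refine ⟨insert (par x) (insert (ε (par x)) L), ⟨?_, ?_⟩, ?_, fun _ => by simp, ?_⟩
  · intro d hd
    simp only [Finset.mem_insert] at hd ⊢
    rcases hd with rfl | rfl | hd
    · simp
    · simp [h.invol]
    · simp [g1 d hd]
  · intro d hd hr
    simp only [Finset.mem_insert] at hd ⊢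
    rcases hd with rfl | rfl | hd
    · simp [h.par_par]
    · simp [p hr]
    · simp [g2 d hd hr]
  · intro d hd
    simp only [Finset.mem_insert] at hd
    rcases hd with rfl | rfl | hd
    · exact Or.inl ⟨by rw [h.r_par]; exact h0, h.par_par x⟩
    · exact Or.inr (by rw [h.invol]; exact ⟨by rw [h.r_par]; exact h0, h.par_par x⟩)
    · exact t d hd
  · have k1 := iso_sum_insert_le w (par x) (insert (ε (par x)) L)
    have k2 := iso_sum_insert_le w (ε (par x)) L
    have k3 := h.par_le x h0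
    rw [h.w_eps] at k2
    rw [h.r_eps] at s
    omega

end IsoDist

end Crest.Agent.R177
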