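import Crest.Agent.R177.IsoAux1

/-! A balanced edge in a tree of triangles (task ISO, part 2). -/

set_option autoImplicit false
set_option linter.unusedSectionVars false

namespace Crest.Agent.R177

open Equiv

variable {I : Type} [Fintype I] [DecidableEq I]

theorem iso_rot_fst (d : I × Fin 3) : (rot I d).1 = d.1 := rfl

theorem iso_rot3 (d : I × Fin 3) : rot I (rot I (rot I d)) = d := by
  obtain ⟨i, k⟩ := d
  fin_cases k <;> rfl

theorem iso_tri {d y : I × Fin 3} (h : y.1 = d.1) :
    y = d ∨ y = rot I d ∨ y = rot I (rot I d) := by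
  obtain ⟨i, k⟩ := d
  obtain ⟨j, l⟩ := y
  obtain rfl : j = i := h
  fin_cases k <;> fin_cases l <;> first
    | exact Or.inl rfl
    | exact Or.inr (Or.inl rfl)
    | exact Or.inr (Or.inr rfl)

theorem iso_conn_tri (η : Perm (I × Fin 3)) {d y : I × Fin 3} (h : y.1 = d.1) :
    Conn (rot I) η d y := by
  rcases iso_tri h with rfl | rfl | rfl
  · exact iso_conn_refl _ _ _
  · exact iso_conn_phi _ _ _
  · exact (iso_conn_phi _ _ _).iso_trans (iso_conn_phi _ _ _)

open Classical in
/-- the triangles in the component of a dart -/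
noncomputable def isoComp (η : Perm (I × Fin 3)) (d : I × Fin 3) : Finset I :=
  Finset.univ.filter fun i => Conn (rot I) η d (i, 0)

theorem iso_mem_comp {η : Perm (I × Fin 3)} {d y : I × Fin 3} :
    y.1 ∈ isoComp η d ↔ Conn (rot I) η d y := by
  simp only [isoComp, Finset.mem_filter, Finset.mem_univ, true_and]
  exact ⟨fun h => h.iso_trans (iso_conn_tri η rfl), fun h => h.iso_trans (iso_conn_tri η rfl)⟩

theorem iso_cut_apply {D : Type} [DecidableEq D] {τ : Perm D} (hτ : ∀ d, τ (τ d) = d) (d y : D) :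
    ((y = d ∨ y = τ d) ∧ (τ * swap d (τ d)) y = y) ∨
      (y ≠ d ∧ y ≠ τ d ∧ (τ * swap d (τ d)) y = τ y) := by
  by_cases h1 : y = d
  · subst h1; left; simp [hτ]
  by_cases h2 : y = τ d
  · subst h2; left; simp
  right
  exact ⟨h1, h2, by rw [Perm.mul_apply, swap_apply_of_ne_of_ne h1 h2]⟩

theorem iso_cut_symm {D : Type} [DecidableEq D] {τ : Perm D} (hτ : ∀ d, τ (τ d) = d) (d : D) :
    τ * swap (τ d) (τ (τ d)) = τ * swap d (τ d) := by
  rw [hτ, swap_comm]

theorem iso_cover {τ : Perm (I × Fin 3)} (hτ : ∀ d, τ (τ d) = d)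
    (hconn : ∀ x y, Conn (rot I) τ x y) (d y : I × Fin 3) :
    Conn (rot I) (τ * swap d (τ d)) d y ∨ Conn (rot I) (τ * swap d (τ d)) (τ d) y := by
  refine iso_conn_ind (P := fun y => Conn (rot I) (τ * swap d (τ d)) d y ∨
    Conn (rot I) (τ * swap d (τ d)) (τ d) y) (fun y hy => ?_) (fun y hy => ?_) (hconn d y)
    (Or.inl (iso_conn_refl _ _ _))
  · exact hy.imp (fun h => h.iso_trans (iso_conn_phi _ _ _))
      (fun h => h.iso_trans (iso_conn_phi _ _ _))
  · rcases iso_cut_apply hτ d y with ⟨rfl | rfl, -⟩ | ⟨-, -, h⟩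
    · exact Or.inr (iso_conn_refl _ _ _)
    · rw [hτ]; exact Or.inl (iso_conn_refl _ _ _)
    · rw [← h]
      exact hy.imp (fun h => h.iso_trans (iso_conn_eps _ _ _))
        (fun h => h.iso_trans (iso_conn_eps _ _ _))

theorem iso_exists_matched {τ : Perm (I × Fin 3)} (hconn : ∀ x y, Conn (rot I) τ x y)
    (hA : 2 ≤ Fintype.card I) : ∃ d, τ d ≠ d := by
  by_contra hn
  push Not at hn
  obtain ⟨i, j, hij⟩ := Fintype.exists_pair_of_one_lt_card (α := I) (by omega)
  refine hij (iso_conn_ind (P := fun y => i = y.1) (fun y hy => hy) (fun y hy => ?_)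
    (hconn (i, 0) (j, 0)) rfl)
  rw [hn]; exact hy

/-- the side of the matched dart `d` after cutting it -/
noncomputable def isoSide (τ : Perm (I × Fin 3)) (d : I × Fin 3) : Finset I :=
  isoComp (τ * swap d (τ d)) d

theorem iso_balanced {τ : Perm (I × Fin 3)} (hτ : ∀ d, τ (τ d) = d)
    (hconn : ∀ x y, Conn (rot I) τ x y)
    (htree : ∀ d, τ d ≠ d → ¬ Conn (rot I) (τ * swap d (τ d)) d (τ d))
    (hA : 10 ≤ Fintype.card I) :
    ∃ d, τ d ≠ d ∧ Fintype.card I ≤ 5 * (isoSide τ d).card ∧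
      Fintype.card I ≤ 5 * (isoSide τ (τ d)).card := by
  classical
  have mem1 : ∀ d y : I × Fin 3, y.1 ∈ isoSide τ d ↔ Conn (rot I) (τ * swap d (τ d)) d y :=
    fun d y => iso_mem_comp
  have mem2 : ∀ d y : I × Fin 3, y.1 ∈ isoSide τ (τ d) ↔
      Conn (rot I) (τ * swap d (τ d)) (τ d) y := fun d y => by
    rw [mem1, iso_cut_symm hτ]
  have cov : ∀ d, Fintype.card I ≤ (isoSide τ d).card + (isoSide τ (τ d)).card := fun d => by
    refine le_trans ?_ (Finset.card_union_le _ _)
    rw [← Finset.card_univ]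
    refine Finset.card_le_card fun i _ => ?_
    rw [Finset.mem_union]
    exact (iso_cover hτ hconn d (i, 0)).imp (mem1 d (i, 0)).mpr (mem2 d (i, 0)).mpr
  obtain ⟨d₀, hd₀⟩ := iso_exists_matched hconn (by omega)
  have hne : (Finset.univ.filter fun d => τ d ≠ d ∧
      Fintype.card I ≤ 2 * (isoSide τ d).card).Nonempty := by
    have := cov d₀
    by_cases h : Fintype.card I ≤ 2 * (isoSide τ d₀).card
    · exact ⟨d₀, by simp [hd₀, h]⟩
    · refine ⟨τ d₀, ?_⟩
      simp only [Finset.mem_filter, Finset.mem_univ, true_and]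
      exact ⟨by rw [hτ]; exact hd₀.symm, by omega⟩
  obtain ⟨d, hd, hmin⟩ := Finset.exists_min_image _ (fun d => (isoSide τ d).card) hne
  simp only [Finset.mem_filter, Finset.mem_univ, true_and] at hd hmin
  obtain ⟨hd, hbig⟩ := hd
  let S' : I × Fin 3 → Finset I := fun e => if τ e = e then ∅ else isoSide τ (τ e)
  -- the children of the triangle of `d`
  have hsub : isoSide τ d ⊆ insert d.1 (S' (rot I d) ∪ S' (rot I (rot I d))) := by
    have step : ∀ e : I × Fin 3, e.1 = d.1 → ∀ y : I × Fin 3, y.1 ∈ S' e →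
        (τ y).1 = d.1 ∨ (τ y).1 ∈ S' e := by
      intro e he y hy
      by_cases hτe : τ e = e
      · simp [S', hτe] at hy
      simp only [S', if_neg hτe] at hy ⊢
      rw [mem2] at hy ⊢
      rcases iso_cut_apply hτ e y with ⟨rfl | rfl, -⟩ | ⟨-, -, h⟩
      · exact Or.inr (iso_conn_refl _ _ _)
      · rw [hτ]; exact Or.inl he
      · rw [← h]; exact Or.inr (hy.iso_trans (iso_conn_eps _ _ _))
    have self : ∀ e : I × Fin 3, (τ e).1 = e.1 ∨ (τ e).1 ∈ S' e := by
      intro e
      by_cases hτe : τ e = e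
      · exact Or.inl (by rw [hτe])
      · right
        simp only [S', if_neg hτe]
        exact (mem2 _ _).mpr (iso_conn_refl _ _ _)
    intro i hi
    refine iso_conn_ind (P := fun y : I × Fin 3 =>
      y.1 ∈ insert d.1 (S' (rot I d) ∪ S' (rot I (rot I d)))) (fun y hy => hy) (fun y hy => ?_)
      ((mem1 d (i, 0)).mp hi) (Finset.mem_insert_self _ _)
    rcases iso_cut_apply hτ d y with ⟨-, h⟩ | ⟨h1, -, h⟩
    · rw [h]; exact hy
    rw [h]
    simp only [Finset.mem_insert, Finset.mem_union] at hy ⊢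
    rcases hy with hy | hy | hy
    · rcases iso_tri hy with rfl | rfl | rfl
      · exact absurd rfl h1
      · exact (self _).imp id Or.inl
      · exact (self _).imp id Or.inr
    · exact (step (rot I d) rfl y hy).imp id Or.inl
    · exact (step (rot I (rot I d)) rfl y hy).imp id Or.inr
  have hlt : ∀ e : I × Fin 3, e.1 = d.1 → e ≠ d → τ e ≠ e →
      (isoSide τ (τ e)).card < (isoSide τ d).card := by
    intro e he hed hτe
    refine Finset.card_lt_card ⟨fun i hi => ?_, fun hh => ?_⟩
    · have hi' := (mem2 e (i, 0)).mp hi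
      refine (mem1 d (i, 0)).mpr (iso_conn_ind (P := fun y =>
        Conn (rot I) (τ * swap e (τ e)) (τ e) y ∧ Conn (rot I) (τ * swap d (τ d)) d y)
        (fun y hy => ⟨hy.1.iso_trans (iso_conn_phi _ _ _), hy.2.iso_trans (iso_conn_phi _ _ _)⟩)
        (fun y hy => ⟨hy.1.iso_trans (iso_conn_eps _ _ _), ?_⟩) hi'
        ⟨iso_conn_refl _ _ _, ?_⟩).2
      · rcases iso_cut_apply hτ e y with ⟨-, h⟩ | ⟨-, -, h⟩
        · rw [h]; exact hy.2
        rw [h]
        rcases iso_cut_apply hτ d y with ⟨rfl | rfl, -⟩ | ⟨-, -, h'⟩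
        · exact absurd (hy.1.iso_trans (iso_conn_tri _ he)).iso_symm (htree e hτe)
        · exact absurd hy.2 (htree d hd)
        · rw [← h']; exact hy.2.iso_trans (iso_conn_eps _ _ _)
      · rcases iso_cut_apply hτ d e with ⟨h | h, -⟩ | ⟨-, -, h'⟩
        · exact absurd h hed
        · exact absurd (iso_conn_tri _ (h ▸ he)) (htree d hd)
        · rw [← h']; exact (iso_conn_tri _ he).iso_trans (iso_conn_eps _ _ _)
    · have := hh ((mem1 d d).mpr (iso_conn_refl _ _ _))
      rw [← he, mem2] at this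
      exact htree e hτe this.iso_symm
  have fin : ∀ e : I × Fin 3, e.1 = d.1 → e ≠ d → Fintype.card I ≤ 5 * (S' e).card →
      ∃ d, τ d ≠ d ∧ Fintype.card I ≤ 5 * (isoSide τ d).card ∧
        Fintype.card I ≤ 5 * (isoSide τ (τ d)).card := by
    intro e he hed hbig'
    by_cases hτe : τ e = e
    · simp only [S', if_pos hτe, Finset.card_empty] at hbig'; omega
    simp only [S', if_neg hτe] at hbig'
    refine ⟨e, hτe, ?_, hbig'⟩
    have k1 := hlt e he hed hτe
    have k2 := hmin (τ e)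
    have k3 := cov e
    by_cases h : Fintype.card I ≤ 2 * (isoSide τ (τ e)).card
    · have := k2 ⟨by rw [hτ]; exact Ne.symm hτe, h⟩
      omega
    · omega
  have k1 := Finset.card_le_card hsub
  have k2 := Finset.card_insert_le d.1 (S' (rot I d) ∪ S' (rot I (rot I d)))
  have k3 := Finset.card_union_le (S' (rot I d)) (S' (rot I (rot I d)))
  have n1 : rot I d ≠ d := by
    obtain ⟨i, k⟩ := d
    intro h
    have := congrArg Prod.snd h
    fin_cases k <;> simp [rot] at this
  have n2 : rot I (rot I d) ≠ d := fun h => n1 (by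
    have := iso_rot3 d
    rw [h] at this; exact this)
  by_cases h : Fintype.card I ≤ 5 * (S' (rot I d)).card
  · exact fin (rot I d) rfl n1 h
  · exact fin (rot I (rot I d)) rfl n2 (by omega)

end Crest.Agent.R177
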