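import Crest.Agent.R177.IsoAux2

/-! Arithmetic for the inductive step (task ISO, part 3). -/

set_option autoImplicit false
set_option linter.unusedSectionVars false

namespace Crest.Agent.R177

open Equiv

/-! ### arithmetic -/

/-- the gain in the inductive statement -/
noncomputable def isoH (c : ℝ) (g A : ℕ) : ℝ := min (A : ℝ) (c * √((g : ℝ) * A))

theorem isoH_nonneg {c : ℝ} (hc : 0 ≤ c) (g A : ℕ) : 0 ≤ isoH c g A :=
  le_min (by positivity) (by positivity)

theorem isoH_le (c : ℝ) (g A : ℕ) : isoH c g A ≤ A := min_le_left _ _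

theorem iso_sqrt_add (x y : ℝ) (hx : 0 ≤ x) (hy : 0 ≤ y) : √(x + y) ≤ √x + √y := by
  rw [Real.sqrt_le_left (by positivity)]
  have h1 := Real.sq_sqrt hx
  have h2 := Real.sq_sqrt hy
  have h3 : 0 ≤ √x * √y := by positivity
  nlinarith

theorem isoH_aux {c g x y : ℝ} (hc : 0 ≤ c) (hg : 0 ≤ g) (hx : 0 ≤ x) (hy : 0 ≤ y)
    (h : c * √(g * x) ≤ x) : min (x + y) (c * √(g * (x + y))) ≤ c * √(g * x) + y := by
  rcases hx.eq_or_lt with rfl | hx'
  · simp
  refine (min_le_right _ _).trans ?_
  have hs : 0 ≤ √(g * x) := Real.sqrt_nonneg _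
  have h1 : √(g * x) ^ 2 = g * x := Real.sq_sqrt (by positivity)
  have h2 : c ^ 2 * g ≤ x := by
    have : (c * √(g * x)) ^ 2 ≤ x ^ 2 := pow_le_pow_left₀ (by positivity) h 2
    rw [mul_pow, h1] at this
    nlinarith
  have h3 : c ^ 2 * g ≤ c * √(g * x) := by
    have : c * g ≤ √(g * x) := by
      refine Real.le_sqrt_of_sq_le ?_
      nlinarith
    nlinarith
  have h4 : c * √(g * (x + y)) = √(c ^ 2 * (g * (x + y))) := by
    rw [Real.sqrt_mul (sq_nonneg c), Real.sqrt_sq hc]
  rw [h4, Real.sqrt_le_left (by positivity)]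
  have h5 : (c * √(g * x)) ^ 2 = c ^ 2 * (g * x) := by rw [mul_pow, h1]
  have h6 : 0 ≤ c * √(g * x) := by positivity
  nlinarith

theorem isoH_add {c : ℝ} (hc : 0 ≤ c) (g A B : ℕ) :
    isoH c g (A + B) ≤ isoH c g A + isoH c g B := by
  unfold isoH
  push_cast
  have hA : (0 : ℝ) ≤ A := by positivity
  have hB : (0 : ℝ) ≤ B := by positivity
  have hg : (0 : ℝ) ≤ g := by positivity
  rcases le_total (A : ℝ) (c * √((g : ℝ) * A)) with h1 | h1 <;>
    rcases le_total (B : ℝ) (c * √((g : ℝ) * B)) with h2 | h2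
  · rw [min_eq_left h1, min_eq_left h2]; exact min_le_left _ _
  · rw [min_eq_left h1, min_eq_right h2, add_comm (A : ℝ) B, add_comm (A : ℝ)]
    exact isoH_aux hc hg hB hA h2
  · rw [min_eq_right h1, min_eq_left h2]
    exact isoH_aux hc hg hA hB h1
  · rw [min_eq_right h1, min_eq_right h2, ← mul_add]
    refine (min_le_right _ _).trans (mul_le_mul_of_nonneg_left ?_ hc)
    rw [mul_add]
    exact iso_sqrt_add _ _ (by positivity) (by positivity)

theorem iso_decay (a : ℕ → ℕ) (g A C : ℕ) (hg : 0 < g) (h0 : a 0 ≤ A)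
    (hs : ∀ n, (1 + C) * a (n + 1) ≤ C * a n) :
    ∃ n, a n < g ∧ (n : ℝ) * g ≤ 2 * (1 + C) * √((g : ℝ) * A) + g := by
  have hg' : (0 : ℝ) < g := by exact_mod_cast hg
  set m : ℝ := 1 + C with hm
  have hm1 : 1 ≤ m := by rw [hm]; have : (0 : ℝ) ≤ C := by positivity
                         linarith
  set t : ℝ := 2 * m * √((g : ℝ) * A) / g with ht
  have ht0 : 0 ≤ t := by positivity
  have htg : t * g = 2 * m * √((g : ℝ) * A) := by rw [ht]; field_simp
  have hsq : √((g : ℝ) * A) ^ 2 = g * A := Real.sq_sqrt (by positivity)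
  have key : ∀ n : ℕ, a n < g ∨ ((n : ℝ) ≤ t ∧ (2 * m) ^ 2 * a n ≤ (t - n) ^ 2 * g) := by
    intro n
    induction n with
    | zero =>
      right
      refine ⟨by simpa using ht0, ?_⟩
      have : (t * g) ^ 2 = (2 * m) ^ 2 * (g * A) := by rw [htg, mul_pow, hsq]
      have h0' : (a 0 : ℝ) ≤ A := by exact_mod_cast h0
      have h1 : t ^ 2 * g = (2 * m) ^ 2 * A := by
        apply mul_right_cancel₀ hg'.ne'
        linear_combination this
      simp only [Nat.cast_zero, sub_zero]
      rw [h1]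
      exact mul_le_mul_of_nonneg_left h0' (by positivity)
    | succ n ih =>
      by_cases hlt : a n < g
      · left
        have := hs n
        by_contra hh
        have : C * a n ≤ C * a (n + 1) := Nat.mul_le_mul_left _ (by omega)
        have : (1 + C) * a (n + 1) = a (n + 1) + C * a (n + 1) := by ring
        omega
      right
      obtain ⟨h1, h2⟩ := ih.resolve_left hlt
      have h3 : (g : ℝ) ≤ a n := by exact_mod_cast not_lt.mp hlt
      have h4 : 2 * m ≤ t - n := by
        refine (abs_le_of_sq_le_sq' ?_ (by linarith)).2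
        have : (2 * m) ^ 2 * g ≤ (t - n) ^ 2 * g :=
          (mul_le_mul_of_nonneg_left h3 (by positivity)).trans h2
        exact le_of_mul_le_mul_right this hg'
      have h5 : m * a (n + 1) ≤ (m - 1) * a n := by
        have : ((1 + C) * a (n + 1) : ℝ) ≤ C * a n := by exact_mod_cast hs n
        rw [hm]; simpa using this
      push_cast
      refine ⟨by linarith, ?_⟩
      set u := t - n with hu
      have : t - (n + 1) = u - 1 := by rw [hu]; ring
      rw [this]
      have h6 : m * ((2 * m) ^ 2 * a (n + 1)) ≤ (m - 1) * (u ^ 2 * g) := by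
        calc m * ((2 * m) ^ 2 * a (n + 1)) = (2 * m) ^ 2 * (m * a (n + 1)) := by ring
          _ ≤ (2 * m) ^ 2 * ((m - 1) * a n) := mul_le_mul_of_nonneg_left h5 (by positivity)
          _ = (m - 1) * ((2 * m) ^ 2 * a n) := by ring
          _ ≤ _ := mul_le_mul_of_nonneg_left h2 (by linarith)
      have h7 : (m - 1) * u ^ 2 ≤ m * (u - 1) ^ 2 := by nlinarith
      have h8 : (m - 1) * (u ^ 2 * g) ≤ m * ((u - 1) ^ 2 * g) := by nlinarith
      exact le_of_mul_le_mul_left (h6.trans h8) (by linarith)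
  refine ⟨⌊t⌋₊ + 1, (key _).resolve_right fun h => ?_, ?_⟩
  · have := Nat.lt_floor_add_one t
    have := h.1
    push_cast at this
    linarith
  · have := Nat.floor_le ht0
    push_cast
    nlinarith

theorem iso_sqrt_gain {g x y : ℝ} (hg : 0 ≤ g) (hx : 0 ≤ x) (hy : 0 ≤ y) (h1 : x + y ≤ 5 * x)
    (h2 : x + y ≤ 5 * y) : 13 / 10 * √(g * (x + y)) ≤ √(g * x) + √(g * y) := by
  have e1 : √(g * x) ^ 2 = g * x := Real.sq_sqrt (by positivity)
  have e2 : √(g * y) ^ 2 = g * y := Real.sq_sqrt (by positivity)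
  have e3 : √(g * (x + y)) ^ 2 = g * (x + y) := Real.sq_sqrt (by positivity)
  have e4 : 2 / 5 * (g * (x + y)) ≤ √(g * x) * √(g * y) := by
    rw [← Real.sqrt_mul (by positivity)]
    refine Real.le_sqrt_of_sq_le ?_
    have : 4 / 25 * (x + y) ^ 2 ≤ x * y := by nlinarith
    nlinarith [mul_le_mul_of_nonneg_left this (sq_nonneg g)]
  refine abs_le_of_sq_le_sq' ?_ (by positivity) |>.2
  have : 0 ≤ g * (x + y) := by positivity
  nlinarith

end Crest.Agent.R177
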