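import Crest.Agent.R177.IsoAux3

/-! Radius bound, separator and the inductive step (task ISO, part 4). -/

set_option autoImplicit false
set_option linter.unusedSectionVars false

namespace Crest.Agent.R177

open Equiv

variable {I : Type} [Fintype I] [DecidableEq I]

/-- weight of a dart -/
def isoW (g : ℕ) (d : I × Fin 3) : ℕ := if d.2 = 1 then 1 else g

/-- boundary weight of the part `J` of the map `η` -/
def isoBw (g : ℕ) (η : Perm (I × Fin 3)) (J : Finset I) : ℕ :=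
  ∑ d ∈ Finset.univ.filter (fun d => d.1 ∈ J ∧ η d = d), isoW g d

def IsoClosed (η : Perm (I × Fin 3)) (J : Finset I) : Prop := ∀ d, d.1 ∈ J → (η d).1 ∈ J

theorem isoW_pos {g : ℕ} (hg : 0 < g) (d : I × Fin 3) : 0 < isoW g d := by
  unfold isoW; split_ifs <;> omega

theorem isoW_le {g : ℕ} (hg : 0 < g) (d : I × Fin 3) : isoW g d ≤ g := by
  unfold isoW; split_ifs <;> omega

theorem isoW_mul {g : ℕ} (hg : 0 < g) (d : I × Fin 3) :
    isoW g d * min (isoW g (rot I d)) (isoW g (rot I (rot I d))) ≤ g := by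
  obtain ⟨i, k⟩ := d
  fin_cases k
  · change g * min 1 g ≤ g
    rw [min_eq_left hg, mul_one]
  · change 1 * min g g ≤ g
    simp
  · change g * min g 1 ≤ g
    rw [min_eq_right hg, mul_one]

theorem isoBw_add (g : ℕ) (η : Perm (I × Fin 3)) (J : Finset I) :
    isoBw g η J + isoBw g η Jᶜ = isoBw g η Finset.univ := by
  unfold isoBw
  rw [← Finset.sum_filter_add_sum_filter_not
    (Finset.univ.filter (fun d : I × Fin 3 => d.1 ∈ Finset.univ ∧ η d = d)) (fun d => d.1 ∈ J),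
    Finset.filter_filter, Finset.filter_filter]
  congr 1 <;> refine Finset.sum_congr (Finset.filter_congr fun d _ => ?_) fun _ _ => rfl
  · simp [and_comm]
  · simp [and_comm]

theorem isoBw_cut (g : ℕ) {ε η : Perm (I × Fin 3)} {L : Finset (I × Fin 3)} (h : IsoCut ε L η) :
    isoBw g η Finset.univ ≤ isoBw g ε Finset.univ + ∑ d ∈ L, isoW g d := by
  unfold isoBw
  refine le_trans (Finset.sum_le_sum_of_subset (t := Finset.univ.filter
    (fun d : I × Fin 3 => d.1 ∈ Finset.univ ∧ ε d = d) ∪ L) fun d hd => ?_) ?_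
  · simp only [Finset.mem_filter, Finset.mem_univ, true_and, Finset.mem_union] at hd ⊢
    by_cases hL : d ∈ L
    · exact Or.inr hL
    · exact Or.inl (by rwa [h.of_not_mem hL] at hd)
  · rw [← Finset.sum_union_inter]; omega

theorem iso_closed_comp (η : Perm (I × Fin 3)) (d : I × Fin 3) : IsoClosed η (isoComp η d) :=
  fun _ hy => iso_mem_comp.mpr ((iso_mem_comp.mp hy).iso_trans (iso_conn_eps _ _ _))

theorem IsoClosed.compl {η : Perm (I × Fin 3)} (hη : ∀ d, η (η d) = d) {J : Finset I}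
    (h : IsoClosed η J) : IsoClosed η Jᶜ := fun y hy => by
  rw [Finset.mem_compl] at hy ⊢
  exact fun h' => hy (by simpa [hη] using h _ h')

theorem IsoSub.iso_trans {D : Type} {ε η τ : Perm D} (h : IsoSub ε η) (h' : IsoSub η τ) :
    IsoSub ε τ := fun d => by
  rcases h' d with h1 | h1
  · exact Or.inl h1
  · rw [h1]; exact h d

/-- the data of the inductive step -/
structure IsoCtx (ε : Perm (I × Fin 3)) (g C₀ : ℕ) (c : ℝ) : Prop where
  invol : ∀ d, ε (ε d) = d
  w_eps : ∀ d, isoW g (ε d) = isoW g d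
  small : ∀ (η : Perm (I × Fin 3)) (J : Finset I), IsoSub ε η → (∀ d, η (η d) = d) →
    IsoClosed η J → J.Nonempty → g ≤ J.card ∨ g ≤ isoBw g η J
  ih : ∀ (η : Perm (I × Fin 3)) (J : Finset I), IsoSub ε η → (∀ d, η (η d) = d) →
    DiscLike (rot I) η → IsoClosed η J → J.card < Fintype.card I →
    (J.card : ℝ) + isoH c g J.card ≤ 2 * C₀ * isoBw g η J

namespace IsoCtx

variable {ε : Perm (I × Fin 3)} {g C₀ : ℕ} {c : ℝ} (X : IsoCtx ε g C₀ c)
include X

theorem sub {η : Perm (I × Fin 3)} (hs : IsoSub ε η) (hη : ∀ d, η (η d) = d) :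
    IsoCtx η g C₀ c where
  invol := hη
  w_eps d := by
    rcases hs d with h | h
    · rw [h]
    · rw [h, X.w_eps]
  small τ J h := X.small τ J (hs.iso_trans h)
  ih τ J h := X.ih τ J (hs.iso_trans h)

theorem radius (hc : 0 ≤ c) (hg : 0 < g) (hD : DiscLike (rot I) ε) {r : I × Fin 3 → ℕ}
    {par : I × Fin 3 → I × Fin 3} (h : IsoDist (rot I) ε (isoW g) r par) {u : I × Fin 3}
    (hu : ε u = u) (d : I × Fin 3) :
    (r d : ℝ) ≤ 8 * (1 + 2 * C₀) * √((g : ℝ) * Fintype.card I) + 8 * g := by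
  classical
  let L : ℕ → Finset (I × Fin 3) := fun ρ => Finset.univ.filter fun d => r d ≤ ρ ∧ r (rot I d) ≤ ρ
  let J : ℕ → Finset I := fun ρ => Finset.univ.filter fun i => ∃ k, ρ < r (i, k)
  have memL : ∀ ρ d, d ∈ L ρ ↔ r d ≤ ρ ∧ r (rot I d) ≤ ρ := fun ρ d => by simp [L]
  have memJ : ∀ ρ (d : I × Fin 3), d.1 ∈ J ρ ↔
      ρ < r d ∨ ρ < r (rot I d) ∨ ρ < r (rot I (rot I d)) := fun ρ d => by
    simp only [J, Finset.mem_filter, Finset.mem_univ, true_and]
    constructor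
    · rintro ⟨k, hk⟩
      rcases iso_tri (d := d) (y := (d.1, k)) rfl with h | h | h <;> rw [h] at hk <;> simp [hk]
    · rintro (h | h | h)
      exacts [⟨d.2, h⟩, ⟨(rot I d).2, h⟩, ⟨(rot I (rot I d)).2, h⟩]
  have good : ∀ ρ, h.Good (L ρ) := fun ρ => by
    refine ⟨fun d hd => ?_, fun d hd h0 => ?_⟩
    · rw [memL] at hd ⊢
      rw [h.r_eps, h.r_cyc]; exact hd.symm
    · rw [memL] at hd ⊢
      have := h.par_le d h0
      rw [h.r_par]; omega
  choose η hη using fun ρ => iso_exists_cut h.invol (good ρ).1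
  have hinv : ∀ ρ d, η ρ (η ρ d) = d := fun ρ => (hη ρ).invol h.invol (good ρ).1
  have hcl : ∀ ρ, IsoClosed (η ρ) (J ρ) := fun ρ d hd => by
    by_cases hL : d ∈ L ρ
    · rw [(hη ρ).of_mem hL]; exact hd
    · rw [(hη ρ).of_not_mem hL, memJ, h.r_eps, h.r_cyc]
      rw [memL] at hL; omega
  have hanti : ∀ ρ ρ', ρ ≤ ρ' → J ρ' ⊆ J ρ := fun ρ ρ' hρ i hi => by
    have := (memJ ρ' (i, 0)).mp hi
    exact (memJ ρ (i, 0)).mpr (by omega)
  have hlt : ∀ ρ, g ≤ ρ → (J ρ).card < Fintype.card I := fun ρ hρ => by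
    refine Finset.card_lt_univ_of_notMem (x := u.1) fun hh => ?_
    rw [memJ] at hh
    have k1 := h.hole_zero u hu
    have k2 := h.r_eps u
    rw [hu] at k2
    have k3 := h.r_le (rot I u)
    have k4 := isoW_le hg (rot I u)
    omega
  -- averaging over the radius
  have avg : ∀ ρ₀, ∃ ρ, ρ₀ ≤ ρ ∧ ρ < ρ₀ + 3 * g ∧
      isoBw g (η ρ) (J ρ) + (J (ρ₀ + 4 * g)).card ≤ (J ρ₀).card := by
    intro ρ₀
    set Z := J ρ₀ \ J (ρ₀ + 4 * g) with hZ
    have hZc : Z.card + (J (ρ₀ + 4 * g)).card = (J ρ₀).card :=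
      Finset.card_sdiff_add_card_eq_card (hanti _ _ (by omega))
    have hsum : ∑ ρ ∈ Finset.Ico ρ₀ (ρ₀ + 3 * g), isoBw g (η ρ) (J ρ) ≤
        ∑ _ρ ∈ Finset.Ico ρ₀ (ρ₀ + 3 * g), Z.card := by
      have e1 : ∀ ρ, isoBw g (η ρ) (J ρ) =
          ∑ d, if d.1 ∈ J ρ ∧ η ρ d = d then isoW g d else 0 := fun ρ => Finset.sum_filter _ _
      simp only [e1]
      rw [Finset.sum_comm]
      have e2 : ∀ d : I × Fin 3, ∑ ρ ∈ Finset.Ico ρ₀ (ρ₀ + 3 * g),
          (if d.1 ∈ J ρ ∧ η ρ d = d then isoW g d else 0) ≤ if d.1 ∈ Z then g else 0 := by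
        intro d
        have hprop : ∀ ρ, d.1 ∈ J ρ ∧ η ρ d = d →
            r d ≤ ρ ∧ r (rot I d) ≤ ρ ∧ ρ < r (rot I (rot I d)) := by
          rintro ρ ⟨h1, h2⟩
          rw [memJ] at h1
          by_cases hL : d ∈ L ρ
          · rw [memL] at hL; omega
          · rw [(hη ρ).of_not_mem hL] at h2
            have k1 := h.hole_zero d h2
            have k2 := h.r_eps d
            rw [h2] at k2
            omega
        have k1 := h.r_le (rot I d)
        have k2 := h.le_r (rot I (rot I d))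
        rw [iso_rot3] at k2
        rw [← Finset.sum_filter, Finset.sum_const, smul_eq_mul]
        split_ifs with hd
        · refine le_trans ?_ (isoW_mul hg d)
          rw [mul_comm]
          refine Nat.mul_le_mul_left _ ?_
          refine le_trans (Finset.card_le_card (t := Finset.Ico (max (r d) (r (rot I d)))
            (r (rot I (rot I d)))) fun ρ hρ => ?_) ?_
          · have := hprop ρ (Finset.mem_filter.mp hρ).2
            rw [Finset.mem_Ico]; omega
          · rw [Nat.card_Ico]; omega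
        · rw [Finset.filter_eq_empty_iff.mpr, Finset.card_empty, zero_mul]
          intro ρ hρ hh
          have k3 := hprop ρ hh
          have k4 := isoW_le hg (rot I d)
          rw [Finset.mem_Ico] at hρ
          apply hd
          rw [hZ, Finset.mem_sdiff, memJ, memJ]
          omega
      refine (Finset.sum_le_sum fun d _ => e2 d).trans (le_of_eq ?_)
      rw [Fintype.sum_prod_type]
      have e3 : ∀ x : I, (∑ y : Fin 3, if (x, y).1 ∈ Z then g else 0) =
          if x ∈ Z then 3 * g else 0 := fun x => by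
        rw [Fin.sum_univ_three]; split_ifs <;> omega
      simp only [e3]
      rw [← Finset.sum_filter, Finset.sum_const, Finset.filter_mem_eq_inter, Finset.univ_inter,
        smul_eq_mul, Finset.sum_const, Nat.card_Ico, smul_eq_mul, Nat.add_sub_cancel_left,
        mul_comm]
    obtain ⟨ρ, hρ, hle⟩ := Finset.exists_le_of_sum_le ⟨ρ₀, by rw [Finset.mem_Ico]; omega⟩ hsum
    rw [Finset.mem_Ico] at hρ
    exact ⟨ρ, hρ.1, hρ.2, by omega⟩
  obtain ⟨n, hn1, hn2⟩ := iso_decay (fun n => (J (g + 4 * g * n)).card) g (Fintype.card I)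
    (2 * C₀) hg (Finset.card_le_univ _) fun n => by
      obtain ⟨ρ, h1, h2, h3⟩ := avg (g + 4 * g * n)
      have k1 := X.ih (η ρ) (J ρ) (hη ρ).sub (hinv ρ) (h.cut_disc hD (good ρ) (hη ρ)) (hcl ρ)
        (hlt ρ (by omega))
      have k2 := isoH_nonneg hc g (J ρ).card
      have k3 : (J ρ).card ≤ 2 * C₀ * isoBw g (η ρ) (J ρ) := by
        have : ((J ρ).card : ℝ) ≤ 2 * C₀ * isoBw g (η ρ) (J ρ) := by linarith
        exact_mod_cast this
      have k4 := Finset.card_le_card (hanti ρ (g + 4 * g * n + 4 * g) (by omega))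
      have e : g + 4 * g * (n + 1) = g + 4 * g * n + 4 * g := by ring
      simp only [e]
      nlinarith [Nat.mul_le_mul_left (2 * C₀) h3]
  obtain ⟨ρ, h1, h2, h3⟩ := avg (g + 4 * g * n)
  have hemp : d.1 ∉ J ρ := fun hd => by
    have k1 := X.small (η ρ) (J ρ) (hη ρ).sub (hinv ρ) (hcl ρ) ⟨_, hd⟩
    have k2 := Finset.card_le_card (hanti _ _ h1)
    omega
  rw [memJ] at hemp
  have k1 : r d ≤ 4 * g + 4 * (n * g) := by
    have : 4 * g * n = 4 * (n * g) := by ring
    omega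
  have k2 : (r d : ℝ) ≤ 4 * g + 4 * (n * g) := by exact_mod_cast k1
  push_cast at hn2
  linarith

/-- splitting into two closed parts -/
theorem split {η : Perm (I × Fin 3)} (hs : IsoSub ε η) (hη : ∀ d, η (η d) = d)
    (hD : DiscLike (rot I) η) {x y : I × Fin 3} (hxy : ¬ Conn (rot I) η x y) :
    (Fintype.card I : ℝ) + isoH c g (isoComp η x).card + isoH c g (isoComp η x)ᶜ.card ≤
      2 * C₀ * isoBw g η Finset.univ := by
  have k1 := X.ih η _ hs hη hD (iso_closed_comp η x)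
    (Finset.card_lt_univ_of_notMem (x := y.1) fun h => hxy (iso_mem_comp.mp h))
  have k2 := X.ih η _ hs hη hD ((iso_closed_comp η x).compl hη)
    (Finset.card_lt_univ_of_notMem (x := x.1) fun h =>
      Finset.mem_compl.mp h (iso_mem_comp.mpr (iso_conn_refl _ _ _)))
  have k3 : ((isoComp η x).card : ℝ) + (isoComp η x)ᶜ.card = Fintype.card I := by
    exact_mod_cast Finset.card_add_card_compl (isoComp η x)
  have k4 : (isoBw g η (isoComp η x) : ℝ) + isoBw g η (isoComp η x)ᶜ = isoBw g η Finset.univ := by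
    exact_mod_cast isoBw_add g η (isoComp η x)
  rw [← k4]
  linarith

end IsoCtx

/-- a short separating path -/
theorem iso_separator {ε : Perm (I × Fin 3)} (hD : DiscLike (rot I) ε)
    (hconn : ∀ x y, Conn (rot I) ε x y) {w r : I × Fin 3 → ℕ}
    {par : I × Fin 3 → I × Fin 3} (h : IsoDist (rot I) ε w r par) (hA : 10 ≤ Fintype.card I) :
    ∃ (L : Finset (I × Fin 3)) (η : Perm (I × Fin 3)) (x y : I × Fin 3), IsoCut ε L η ∧
      (∀ d, η (η d) = d) ∧ DiscLike (rot I) η ∧ ¬ Conn (rot I) η x y ∧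
      ∑ d ∈ L, w d ≤ 2 * r x + 2 * r y + 2 * w x ∧
      Fintype.card I ≤ 5 * (isoComp η x).card ∧ Fintype.card I ≤ 5 * (isoComp η x)ᶜ.card := by
  classical
  -- cutting along parent edges: if both ends are on the hole, one more cut disconnects
  have key : ∀ (L : Finset (I × Fin 3)) (η : Perm (I × Fin 3)), h.Good L →
      (∀ d ∈ L, h.IsTree d) → IsoCut ε L η → (∀ d, η (η d) = d) ∧ DiscLike (rot I) η ∧
      (∀ x y, Conn (rot I) η x y) ∧ ∀ d, η d ≠ d → (0 < r d → par d ∈ L) →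
        (0 < r (η d) → par (η d) ∈ L) → OnHole (rot I) η d ∧
        ¬ Conn (rot I) (η * swap d (η d)) d (η d) := by
    intro L η hL hT hη
    obtain ⟨i1, i2⟩ := h.cut_aux hD L hL.1 (fun d hd _ => hL.2 d hd) η hη
    have i3 : ∀ x y, Conn (rot I) η x y := fun x y => i2 hT x y (hconn x y)
    refine ⟨hη.invol h.invol hL.1, i1, i3, fun d hd h1 h2 => ?_⟩
    obtain ⟨u, hu, hu'⟩ := h.onHole_of_cut hη.sub fun h0 => hη.of_mem (h1 h0)
    obtain ⟨v, hv, hv'⟩ := h.onHole_of_cut hη.sub fun h0 => hη.of_mem (h2 h0)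
    exact ⟨⟨u, hu, hu'⟩, not_conn_of_cut _ _ (hη.invol h.invol hL.1) i1.1 hd
      ((hu'.symm.trans (i1.2 u v hu hv (i3 u v))).trans hv')⟩
  let T : Finset (I × Fin 3) := Finset.univ.filter fun d => h.IsTree d
  have memT : ∀ d, d ∈ T ↔ h.IsTree d := fun d => by simp [T]
  have parT : ∀ d, 0 < r d → par d ∈ T := fun d h0 =>
    (memT _).mpr (Or.inl ⟨by rw [h.r_par]; exact h0, h.par_par d⟩)
  have goodT : h.Good T := by
    refine ⟨fun d hd => ?_, fun d _ h0 => parT d h0⟩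
    rw [memT] at hd ⊢
    unfold IsoDist.IsTree at hd ⊢
    rw [h.invol]; exact hd.symm
  obtain ⟨τ, hτ⟩ := iso_exists_cut h.invol goodT.1
  obtain ⟨t1, -, t3, t4⟩ := key T τ goodT (fun d => (memT d).mp) hτ
  obtain ⟨d, hd, b1, b2⟩ := iso_balanced t1 t3
    (fun d hd => (t4 d hd (parT _) (parT _)).2) hA
  have hdT : d ∉ T := fun hh => hd (hτ.of_mem hh)
  have hτd : τ d = ε d := hτ.of_not_mem hdT
  have hdT' : ε d ∉ T := fun hh => hdT (h.invol d ▸ goodT.1 _ hh)
  obtain ⟨L₁, g1, s1, p1, w1⟩ := h.exists_path d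
  obtain ⟨L₂, g2, s2, p2, w2⟩ := h.exists_path (ε d)
  have gU : h.Good (L₁ ∪ L₂) := by
    refine ⟨fun x hx => ?_, fun x hx h0 => ?_⟩ <;> rw [Finset.mem_union] at hx ⊢
    · exact hx.imp (g1.1 x) (g2.1 x)
    · exact hx.imp (fun hx => g1.2 x hx h0) (fun hx => g2.2 x hx h0)
  have sU : ∀ x ∈ L₁ ∪ L₂, h.IsTree x := fun x hx =>
    (Finset.mem_union.mp hx).elim (s1 x) (s2 x)
  obtain ⟨η₀, hη₀⟩ := iso_exists_cut h.invol gU.1
  obtain ⟨u1, u2, -, u4⟩ := key _ η₀ gU sU hη₀
  have n1 : d ∉ L₁ ∪ L₂ := fun hh => hdT ((memT _).mpr (sU _ hh))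
  have n2 : ε d ∉ L₁ ∪ L₂ := fun hh => hdT' ((memT _).mpr (sU _ hh))
  have e0 : η₀ d = ε d := hη₀.of_not_mem n1
  obtain ⟨v1, v2⟩ := u4 d (by rw [e0, ← hτd]; exact hd)
    (fun h0 => Finset.mem_union_left _ (p1 h0))
    (by rw [e0]; exact fun h0 => Finset.mem_union_right _ (p2 h0))
  have hLc : ∀ x ∈ insert d (insert (ε d) (L₁ ∪ L₂)), ε x ∈ insert d (insert (ε d) (L₁ ∪ L₂)) := by
    intro x hx
    simp only [Finset.mem_insert] at hx ⊢
    rcases hx with rfl | rfl | hx
    · simp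
    · simp [h.invol]
    · exact Or.inr (Or.inr (gU.1 x hx))
  obtain ⟨η, hη⟩ := iso_exists_cut h.invol hLc
  have heq : η = η₀ * swap d (η₀ d) := hη.eq_mul_swap h.invol hη₀ n1 n2 fun x => by
    simp only [Finset.mem_insert]; tauto
  have hsub : IsoSub η (τ * swap d (τ d)) := fun x => by
    rcases iso_cut_apply t1 d x with ⟨-, h1⟩ | ⟨h1, h2, h3⟩
    · exact Or.inl h1
    rw [h3]
    by_cases hx : x ∈ T
    · exact Or.inl (hτ.of_mem hx)
    · right
      rw [hτ.of_not_mem hx, hη.of_not_mem]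
      simp only [Finset.mem_insert, not_or]
      exact ⟨h1, hτd ▸ h2, fun hh => hx ((memT _).mpr (sU _ hh))⟩
  have hnc : ¬ Conn (rot I) η d (ε d) := by rw [heq, ← e0]; exact v2
  refine ⟨_, η, d, ε d, hη, hη.invol h.invol hLc, heq ▸ DiscLike.cut u1 u2 (Or.inl v1), hnc,
    ?_, b1.trans ?_, b2.trans ?_⟩
  · have k1 := iso_sum_insert_le w d (insert (ε d) (L₁ ∪ L₂))
    have k2 := iso_sum_insert_le w (ε d) (L₁ ∪ L₂)
    have k3 := Finset.sum_union_inter (s₁ := L₁) (s₂ := L₂) (f := w)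
    rw [h.w_eps] at k2
    omega
  · refine Nat.mul_le_mul_left _ (Finset.card_le_card fun i hi => ?_)
    exact (iso_mem_comp (y := (i, 0))).mpr (iso_conn_mono hsub ((iso_mem_comp (y := (i, 0))).mp hi))
  · refine Nat.mul_le_mul_left _ (Finset.card_le_card fun i hi => ?_)
    rw [Finset.mem_compl]
    intro hh
    have k1 := (iso_mem_comp (y := (i, 0))).mp hi
    rw [iso_cut_symm t1] at k1
    have k2 := iso_conn_mono hsub k1
    rw [hτd] at k2
    exact hnc (((iso_mem_comp (y := (i, 0))).mp hh).iso_trans k2.iso_symm)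

namespace IsoCtx

variable {ε : Perm (I × Fin 3)} {g C₀ : ℕ} {c : ℝ} (X : IsoCtx ε g C₀ c)
include X

theorem step_hole (hc : 7 * C₀ * (66 + 64 * C₀) ≤ c) (hg : 0 < g) (hD : DiscLike (rot I) ε)
    (hA : (5 * c ^ 2 + 10) * g ≤ Fintype.card I) {u : I × Fin 3} (hu : ε u = u) :
    (Fintype.card I : ℝ) + isoH c g (Fintype.card I) ≤ 2 * C₀ * isoBw g ε Finset.univ := by
  have hC : (0 : ℝ) ≤ C₀ := by positivity
  have hc0 : 0 ≤ c := le_trans (by positivity) hc
  by_cases hconn : ∀ x y, Conn (rot I) ε x y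
  swap
  · push Not at hconn
    obtain ⟨x, y, hxy⟩ := hconn
    have k1 := X.split (fun _ => Or.inr rfl) X.invol hD hxy
    have k2 := isoH_add hc0 g (isoComp ε x).card (isoComp ε x)ᶜ.card
    rw [Finset.card_add_card_compl] at k2
    linarith
  have hg' : (1 : ℝ) ≤ g := by exact_mod_cast hg
  have hA1 : 10 * (g : ℝ) ≤ Fintype.card I := by nlinarith [sq_nonneg c]
  have hA2 : 10 ≤ Fintype.card I := by
    have : (10 : ℝ) ≤ Fintype.card I := by linarith
    exact_mod_cast this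
  obtain ⟨r, par, h⟩ := iso_exists_dist X.invol (isoW_pos hg) X.w_eps hconn hu
  obtain ⟨L, η, x, y, hη, hinv, hD', hxy, hw, b1, b2⟩ := iso_separator hD hconn h hA2
  have k1 := X.split hη.sub hinv hD' hxy
  have k2 : (isoBw g η Finset.univ : ℝ) ≤ isoBw g ε Finset.univ + (2 * r x + 2 * r y + 2 * g) := by
    have := isoBw_cut g hη
    have := isoW_le hg x
    have : isoBw g η Finset.univ ≤ isoBw g ε Finset.univ + (2 * r x + 2 * r y + 2 * g) := by omega
    exact_mod_cast this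
  have k3 := X.radius hc0 hg hD h hu x
  have k4 := X.radius hc0 hg hD h hu y
  have k5 : ((isoComp η x).card : ℝ) + (isoComp η x)ᶜ.card = Fintype.card I := by
    exact_mod_cast Finset.card_add_card_compl (isoComp η x)
  have b1' : (Fintype.card I : ℝ) ≤ 5 * (isoComp η x).card := by exact_mod_cast b1
  have b2' : (Fintype.card I : ℝ) ≤ 5 * (isoComp η x)ᶜ.card := by exact_mod_cast b2
  have hH : ∀ B : ℕ, (Fintype.card I : ℝ) ≤ 5 * B → isoH c g B = c * √((g : ℝ) * B) := by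
    intro B hB
    refine min_eq_right ?_
    have e : c * √((g : ℝ) * B) = √(c ^ 2 * (g * B)) := by
      rw [Real.sqrt_mul (sq_nonneg c), Real.sqrt_sq hc0]
    rw [e, Real.sqrt_le_left (by positivity)]
    have : c ^ 2 * g ≤ B := by nlinarith
    have hB0 : (0 : ℝ) ≤ B := by positivity
    nlinarith
  rw [hH _ b1', hH _ b2'] at k1
  have k6 := iso_sqrt_gain (g := g) (by positivity) (by positivity) (by positivity)
    (k5 ▸ b1') (k5 ▸ b2')
  rw [k5] at k6
  have k7 : isoH c g (Fintype.card I) ≤ c * √((g : ℝ) * Fintype.card I) := min_le_right _ _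
  set s := √((g : ℝ) * Fintype.card I) with hs
  have k8 : (g : ℝ) ≤ s := by
    refine Real.le_sqrt_of_sq_le ?_
    nlinarith
  have k9 : 2 * (r x : ℝ) + 2 * r y + 2 * g ≤ (66 + 64 * C₀) * s := by nlinarith
  have k10 : 2 * (C₀ : ℝ) * ((66 + 64 * C₀) * s) ≤ 3 / 10 * c * s := by
    have : 2 * (C₀ : ℝ) * (66 + 64 * C₀) ≤ 3 / 10 * c := by nlinarith
    nlinarith
  have k11 := mul_le_mul_of_nonneg_left k6 hc0
  have k12 := mul_le_mul_of_nonneg_left (k2.trans (add_le_add_right k9 _))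
    (show (0 : ℝ) ≤ 2 * C₀ by positivity)
  nlinarith

theorem step (hc : 7 * C₀ * (66 + 64 * C₀) ≤ c) (hg : 0 < g) (hD : DiscLike (rot I) ε)
    (hA : (5 * c ^ 2 + 10 + 4 * C₀) * g ≤ Fintype.card I) :
    (Fintype.card I : ℝ) + isoH c g (Fintype.card I) ≤ 2 * C₀ * isoBw g ε Finset.univ := by
  have hC : (0 : ℝ) ≤ C₀ := by positivity
  have hc0 : 0 ≤ c := le_trans (by positivity) hc
  have hg' : (1 : ℝ) ≤ g := by exact_mod_cast hg
  have hA' : (5 * c ^ 2 + 10) * g ≤ Fintype.card I := by nlinarith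
  by_cases hu : ∃ u, ε u = u
  · obtain ⟨u, hu⟩ := hu
    exact X.step_hole hc hg hD hA' hu
  exfalso
  push Not at hu
  have hpos : 0 < Fintype.card I := by
    have : (0 : ℝ) < Fintype.card I := by nlinarith [sq_nonneg c]
    exact_mod_cast this
  obtain ⟨i⟩ := Fintype.card_pos_iff.mp hpos
  let d : I × Fin 3 := (i, 0)
  have hcut := iso_cut_one X.invol d
  have hinv := hcut.invol X.invol (by simp [X.invol])
  have k1 := (X.sub hcut.sub hinv).step_hole hc hg
    (DiscLike.cut X.invol hD (Or.inr fun u h => absurd h (hu u))) hA' (u := d)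
    (hcut.of_mem (by simp))
  have k2 := isoBw_cut g hcut
  have k3 : isoBw g ε Finset.univ = 0 := by
    unfold isoBw
    rw [Finset.filter_eq_empty_iff.mpr fun x _ h => hu x h.2, Finset.sum_empty]
  have k4 := iso_sum_insert_le (isoW g) d {ε d}
  rw [Finset.sum_singleton] at k4
  have k5 := isoW_le hg d
  have k6 := isoW_le hg (ε d)
  have k7 : (isoBw g (ε * swap d (ε d)) Finset.univ : ℝ) ≤ 2 * g := by
    have : isoBw g (ε * swap d (ε d)) Finset.univ ≤ 2 * g := by omega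
    exact_mod_cast this
  have k8 := isoH_nonneg hc0 g (Fintype.card I)
  have k9 := mul_le_mul_of_nonneg_left k7 (show (0 : ℝ) ≤ 2 * C₀ by positivity)
  nlinarith [sq_nonneg c]

end IsoCtx

end Crest.Agent.R177
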