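import Crest.Agent.R177.MapApi
import Crest.Agent.R177.Chains

/-! Level sets of the edge multiplicity of a small map (Ollivier's argument). -/

set_option autoImplicit false
set_option linter.unusedSectionVars false

namespace Crest.Agent.R177

open BGraph Finset
open scoped Classical

section Cnt

variable {E X : Type} [Fintype E]

noncomputable def cnt2 (uu : E → X) (x₀ : X) : ℕ :=
  (((Finset.univ.image uu).erase x₀).filter
    fun x => 2 ≤ (Finset.univ.filter fun d => uu d = x).card).card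

noncomputable def cnt1 (uu : E → X) (x₀ : X) : ℕ :=
  (((Finset.univ.image uu).erase x₀).filter
    fun x => ¬ 2 ≤ (Finset.univ.filter fun d => uu d = x).card).card

noncomputable def cntI (ww : E → X) : ℕ := (Finset.univ.image ww).card

theorem cnt2_add_cnt1 (uu : E → X) (x₀ : X) :
    cnt2 uu x₀ + cnt1 uu x₀ = ((Finset.univ.image uu).erase x₀).card :=
  Finset.card_filter_add_card_filter_not _

end Cnt

/-- double counting over levels -/
theorem lev_sum_eq {X : Type} (s : Finset X) (B : ℕ) (p : ℕ → X → Prop)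
    [∀ j, DecidablePred (p j)] :
    ∑ j ∈ range B, (s.filter (p j)).card = ∑ x ∈ s, ((range B).filter fun j => p j x).card := by
  simp only [Finset.card_filter]
  exact Finset.sum_comm

theorem lev_sum_le {X : Type} (s : Finset X) (B : ℕ) (p : ℕ → X → Prop)
    [∀ j, DecidablePred (p j)] (v : X → ℕ)
    (h : ∀ j x, x ∈ s → p j x → j < v x) :
    ∑ j ∈ range B, (s.filter (p j)).card ≤ ∑ x ∈ s, v x := by
  rw [lev_sum_eq]
  refine Finset.sum_le_sum fun x hx => ?_
  calc _ ≤ (range (v x)).card := Finset.card_le_card fun j hj => by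
        simp only [mem_filter, mem_range] at hj ⊢
        exact h j x hx hj.2
    _ = v x := card_range _

theorem lev_sum_ge {X : Type} (s : Finset X) (B : ℕ) (p : ℕ → X → Prop)
    [∀ j, DecidablePred (p j)] (v : X → ℕ)
    (hB : ∀ x ∈ s, v x ≤ B) (h : ∀ j x, x ∈ s → j < v x → p j x) :
    ∑ x ∈ s, v x ≤ ∑ j ∈ range B, (s.filter (p j)).card := by
  rw [lev_sum_eq]
  refine Finset.sum_le_sum fun x hx => ?_
  calc v x = (range (v x)).card := (card_range _).symm
    _ ≤ _ := Finset.card_le_card fun j hj => by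
        simp only [mem_filter, mem_range] at hj ⊢
        exact ⟨hj.trans_le (hB x hx), h j x hx hj⟩

variable {P U W T : Type} {Γ : BGraph P U W T} (M : RMap Γ.pres)

/-- multiplicity of an edge -/
noncomputable def mult (t : T) : ℕ := (Finset.univ.filter fun i : M.I => (M.ty i).1 = t).card

/-- level set -/
abbrev Lev (j : ℕ) : Type := {t : T // j < mult M t}

/-- number of triangles ending at a vertex -/
noncomputable def cin (x : U ⊕ W) : ℕ :=
  (Finset.univ.filter fun i : M.I => Γ.tgt (M.ty i) = x).card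

noncomputable def vis (x : U ⊕ W) : ℕ :=
  (Finset.univ.filter fun i : M.I => Γ.src (M.ty i) = x).card +
  (Finset.univ.filter fun i : M.I => Γ.tgt (M.ty i) = x ∧ M.ε (i, 2) = (i, 2)).card

variable {M}

theorem exists_of_mult_pos {t : T} (h : 0 < mult M t) : ∃ i, (M.ty i).1 = t := by
  obtain ⟨i, hi⟩ := Finset.card_pos.1 h
  exact ⟨i, (mem_filter.1 hi).2⟩

theorem mult_pos (i : M.I) : 0 < mult M (M.ty i).1 :=
  Finset.card_pos.2 ⟨i, by simp⟩

theorem mult_le_vis (i₀ : M.I) {x : U ⊕ W} (hx : Γ.src (M.ty i₀) = x ∨ Γ.tgt (M.ty i₀) = x) :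
    mult M (M.ty i₀).1 ≤ vis M x := by
  unfold mult vis
  set t := (M.ty i₀).1 with ht
  have h1 := Finset.card_filter_add_card_filter_not
    (s := Finset.univ.filter fun i : M.I => (M.ty i).1 = t)
    (fun i => Γ.tgt (M.ty i) = x ∧ M.ε (i, 2) = (i, 2))
  have h2 : ((Finset.univ.filter fun i : M.I => (M.ty i).1 = t).filter
      (fun i => Γ.tgt (M.ty i) = x ∧ M.ε (i, 2) = (i, 2))).card ≤
      (Finset.univ.filter fun i : M.I => Γ.tgt (M.ty i) = x ∧ M.ε (i, 2) = (i, 2)).card :=
    Finset.card_le_card (Finset.filter_subset_filter _ (Finset.filter_subset _ _))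
  have h3 : ((Finset.univ.filter fun i : M.I => (M.ty i).1 = t).filter
      (fun i => ¬ (Γ.tgt (M.ty i) = x ∧ M.ε (i, 2) = (i, 2)))).card ≤
      (Finset.univ.filter fun i : M.I => Γ.src (M.ty i) = x).card := by
    refine Finset.card_le_card_of_injOn
      (fun i => if Γ.src (M.ty i) = x then i else nx M i) ?_ ?_
    · intro i hi
      simp only [coe_filter, mem_filter, mem_univ, true_and, Set.mem_ofPred_eq] at hi ⊢
      split_ifs with h
      · exact h
      · have h4 : Γ.tgt (M.ty i) = x := (inc_of_edge_eq hi.1 hx).resolve_left h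
        have h5 : M.ε (i, 2) ≠ (i, 2) := fun h6 => hi.2 ⟨h4, h6⟩
        rw [← (eps2 h5).2.1, h4]
    · intro i hi j hj hij
      simp only [coe_filter, mem_filter, mem_univ, true_and, Set.mem_ofPred_eq] at hi hj hij
      have key : ∀ k : M.I, (M.ty k).1 = t → ¬ (Γ.tgt (M.ty k) = x ∧ M.ε (k, 2) = (k, 2)) →
          ¬ Γ.src (M.ty k) = x → M.ε (k, 2) ≠ (k, 2) := fun k h1 h2 h3 h4 =>
        h2 ⟨(inc_of_edge_eq h1 hx).resolve_left h3, h4⟩
      split_ifs at hij with h h' h'
      · exact hij
      · exfalso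
        have := (eps2 (key j hj.1 hj.2 h')).2.edge_ne
        rw [← hij, hi.1, hj.1] at this
        exact this rfl
      · exfalso
        have := (eps2 (key i hi.1 hi.2 h)).2.edge_ne
        rw [hij, hi.1, hj.1] at this
        exact this rfl
      · exact nx_inj (key i hi.1 hi.2 h) (key j hj.1 hj.2 h') hij
  omega

theorem good_edge {x : U ⊕ W} (hx : GoodV M x) {i k : M.I} (hi : Γ.tgt (M.ty i) = x)
    (hk : Γ.src (M.ty k) = x ∨ Γ.tgt (M.ty k) = x) :
    (M.ty k).1 = (M.ty i).1 ∨ (M.ty k).1 = (M.ty (nx M i)).1 := by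
  obtain ⟨h1, -, h, h', h3⟩ := hx
  have hs := (eps2 (h1 i hi)).2
  have a1 := h3 i (Or.inr hi)
  have a2 := h3 (nx M i) (Or.inl (hs.1 ▸ hi))
  have a3 := h3 k hk
  have a4 := hs.edge_ne
  rcases a1 with a1 | a1 <;> rcases a2 with a2 | a2 <;> rcases a3 with a3 | a3 <;> simp_all

theorem cin_le_mult {x : U ⊕ W} (hx : GoodV M x) (k : M.I)
    (hk : Γ.src (M.ty k) = x ∨ Γ.tgt (M.ty k) = x) : cin M x ≤ mult M (M.ty k).1 := by
  unfold cin mult
  refine Finset.card_le_card_of_injOn
    (fun i => if (M.ty i).1 = (M.ty k).1 then i else nx M i) ?_ ?_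
  · intro i hi
    simp only [coe_filter, mem_univ, true_and, Set.mem_ofPred_eq] at hi ⊢
    split_ifs with h
    · exact h
    · exact ((good_edge hx hi hk).resolve_left (Ne.symm h)).symm
  · intro i hi j hj hij
    simp only [coe_filter, mem_univ, true_and, Set.mem_ofPred_eq] at hi hj hij
    split_ifs at hij with h h' h'
    · exact hij
    · exfalso
      have := (eps2 (hx.1 j hj)).2.1
      rw [← hij, hj, ← hi] at this
      exact src_ne_tgt _ this.symm
    · exfalso
      have := (eps2 (hx.1 i hi)).2.1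
      rw [hij, hi, ← hj] at this
      exact src_ne_tgt _ this.symm
    · exact nx_inj (hx.1 i hi) (hx.1 j hj) hij

theorem mult_le_cin {x : U ⊕ W} (hx : GoodV M x) (k : M.I)
    (hk : Γ.src (M.ty k) = x ∨ Γ.tgt (M.ty k) = x) : mult M (M.ty k).1 ≤ cin M x := by
  unfold cin mult
  have key : ∀ i : M.I, (M.ty i).1 = (M.ty k).1 → ¬ Γ.tgt (M.ty i) = x →
      Γ.src (M.ty i) = x ∧ M.ε (i, 0) ≠ (i, 0) := fun i h1 h2 =>
    ⟨(inc_of_edge_eq h1 hk).resolve_right h2, hx.2.1 i ((inc_of_edge_eq h1 hk).resolve_right h2)⟩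
  refine Finset.card_le_card_of_injOn
    (fun i => if Γ.tgt (M.ty i) = x then i else pv M i) ?_ ?_
  · intro i hi
    simp only [coe_filter, mem_univ, true_and, Set.mem_ofPred_eq] at hi ⊢
    split_ifs with h
    · exact h
    · rw [(eps0 (key i hi h).2).2.1, (key i hi h).1]
  · intro i hi j hj hij
    simp only [coe_filter, mem_univ, true_and, Set.mem_ofPred_eq] at hi hj hij
    split_ifs at hij with h h' h'
    · exact hij
    · exfalso
      have := (eps0 (key j hj h').2).2.edge_ne
      rw [← hij, hi, hj] at this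
      exact this rfl
    · exfalso
      have := (eps0 (key i hi h).2).2.edge_ne
      rw [hij, hi, hj] at this
      exact this rfl
    · rw [← nx_pv (key i hi h).2, hij, nx_pv (key j hj h').2]

/-- positively oriented triangles -/
theorem plus_le (M : RMap Γ.pres) (b : Bool) :
    (Finset.univ.filter fun i : M.I => (M.ty i).2 = b).card ≤
      (Finset.univ.filter fun i : M.I => ¬ (M.ty i).2 = b).card + nArcs M := by
  unfold nArcs
  have h1 := Finset.card_filter_add_card_filter_not
    (s := Finset.univ.filter fun i : M.I => (M.ty i).2 = b) (fun i => M.ε (i, 2) = (i, 2))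
  have h2 : ((Finset.univ.filter fun i : M.I => (M.ty i).2 = b).filter
      (fun i => M.ε (i, 2) = (i, 2))).card ≤
      (Finset.univ.filter fun i : M.I => M.ε (i, 2) = (i, 2)).card :=
    Finset.card_le_card (Finset.filter_subset_filter _ (Finset.filter_subset _ _))
  have h3 : ((Finset.univ.filter fun i : M.I => (M.ty i).2 = b).filter
      (fun i => ¬ M.ε (i, 2) = (i, 2))).card ≤
      (Finset.univ.filter fun i : M.I => ¬ (M.ty i).2 = b).card := by
    refine Finset.card_le_card_of_injOn (fun i => nx M i) ?_ ?_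
    · intro i hi
      simp only [coe_filter, mem_filter, mem_univ, true_and, Set.mem_ofPred_eq] at hi ⊢
      rw [(eps2 hi.2).2.sign, hi.1]
      cases b <;> simp
    · intro i hi j hj hij
      simp only [coe_filter, mem_filter, mem_univ, true_and, Set.mem_ofPred_eq] at hi hj
      exact nx_inj hi.2 hj.2 hij
  omega

theorem plus_add (M : RMap Γ.pres) (b : Bool) :
    (Finset.univ.filter fun i : M.I => (M.ty i).2 = b).card +
      (Finset.univ.filter fun i : M.I => ¬ (M.ty i).2 = b).card = M.area :=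
  Finset.card_filter_add_card_filter_not _

section Sums

variable [Fintype U] [Fintype W] [Fintype T]

theorem lev_card (j : ℕ) :
    Fintype.card (Lev M j) = (Finset.univ.filter fun t => j < mult M t).card :=
  Fintype.card_subtype _

theorem sum_mult (M : RMap Γ.pres) : ∑ t, mult M t = M.area := by
  unfold mult RMap.area
  rw [← Finset.card_univ, Finset.card_eq_sum_card_fiberwise (f := fun i : M.I => (M.ty i).1)
    (t := Finset.univ) (fun _ _ => mem_univ _)]

theorem level_one {B : ℕ} (hB : ∀ t, mult M t ≤ B) :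
    ∑ j ∈ range B, Fintype.card (Lev M j) = M.area := by
  simp only [lev_card]
  rw [← sum_mult M]
  exact le_antisymm (lev_sum_le _ _ _ _ fun _ _ _ h => h)
    (lev_sum_ge _ _ _ _ (fun t _ => hB t) fun _ _ _ h => h)

theorem sum_vis (M : RMap Γ.pres) : ∑ x, vis M x = M.area + nArcs M := by
  unfold vis RMap.area nArcs
  rw [Finset.sum_add_distrib, ← Finset.card_univ,
    Finset.card_eq_sum_card_fiberwise (f := fun i : M.I => Γ.src (M.ty i))
      (t := Finset.univ) (fun _ _ => mem_univ _),
    Finset.card_eq_sum_card_fiberwise (f := fun i : M.I => Γ.tgt (M.ty i))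
      (t := Finset.univ) (fun _ _ => mem_univ _)]
  congr 1
  refine Finset.sum_congr rfl fun x _ => ?_
  rw [Finset.filter_filter]
  congr 1
  ext i
  simp [and_comm]

/-- the `U`-end of a level edge -/
def uL (M : RMap Γ.pres) (j : ℕ) (d : Lev M j) : U := Γ.u d.1
/-- the `W`-end of a level edge -/
def wL (M : RMap Γ.pres) (j : ℕ) (d : Lev M j) : W := Γ.w d.1

theorem level_two (B : ℕ) (c₀ : U) :
    ∑ j ∈ range B, (cnt2 (uL M j) c₀ + (cnt1 (uL M j) c₀ + cntI (wL M j))) + nPin M c₀ ≤
      M.area + nArcs M := by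
  have h1 : ∑ j ∈ range B, (cnt2 (uL M j) c₀ + cnt1 (uL M j) c₀) ≤
      ∑ x ∈ Finset.univ.erase c₀, vis M (Sum.inl x) := by
    refine le_trans (le_of_eq (Finset.sum_congr rfl fun j _ => ?_))
      (lev_sum_le _ B (fun j x => ∃ d, uL M j d = x) _ ?_)
    · rw [cnt2_add_cnt1]
      congr 1
      ext x
      simp
    · rintro j x - ⟨⟨t, ht⟩, rfl⟩
      obtain ⟨i, rfl⟩ := exists_of_mult_pos (Nat.zero_lt_of_lt ht)
      exact ht.trans_le (mult_le_vis i (inc_inl.2 rfl))
  have h2 : ∑ j ∈ range B, cntI (wL M j) ≤ ∑ y : W, vis M (Sum.inr y) := by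
    refine le_trans (le_of_eq (Finset.sum_congr rfl fun j _ => ?_))
      (lev_sum_le _ B (fun j x => ∃ d, wL M j d = x) _ ?_)
    · unfold cntI
      congr 1
      ext x
      simp
    · rintro j x - ⟨⟨t, ht⟩, rfl⟩
      obtain ⟨i, rfl⟩ := exists_of_mult_pos (Nat.zero_lt_of_lt ht)
      exact ht.trans_le (mult_le_vis i (inc_inr.2 rfl))
  have h3 : nPin M c₀ ≤ vis M (Sum.inl c₀) := by
    unfold nPin
    split_ifs with h
    · obtain ⟨i, hi⟩ := h
      exact (mult_pos i).trans_le (mult_le_vis i (inc_inl.2 hi))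
    · exact Nat.zero_le _
  have h4 := sum_vis M
  rw [Fintype.sum_sum_type, ← Finset.add_sum_erase _ _ (mem_univ c₀)] at h4
  simp only [Finset.sum_add_distrib] at h1 ⊢
  omega

theorem level_three {B : ℕ} (hB : ∀ t, mult M t ≤ B)
    (hbad : (Finset.univ.filter fun i : M.I =>
      ¬ GoodV M (Γ.src (M.ty i)) ∨ ¬ GoodV M (Γ.tgt (M.ty i))).card ≤ B) (c₀ : U) :
    M.area ≤ 2 * ∑ j ∈ range B, cnt2 (uL M j) c₀ + nArcs M + 4 * B := by
  have hc : ∀ x, GoodV M x → cin M x ≤ B := by
    intro x hx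
    rcases Nat.eq_zero_or_pos (cin M x) with h | h
    · omega
    · obtain ⟨i, hi⟩ := Finset.card_pos.1 h
      exact (cin_le_mult hx i (Or.inr (mem_filter.1 hi).2)).trans (hB _)
  set s : Finset U := (Finset.univ.erase c₀).filter fun x => GoodV M (Sum.inl x) with hs
  have h1 : ∑ x ∈ s, cin M (Sum.inl x) ≤ ∑ j ∈ range B, cnt2 (uL M j) c₀ := by
    refine le_trans (lev_sum_ge s B
      (fun j x => 2 ≤ (Finset.univ.filter fun d => uL M j d = x).card) _ ?_ ?_)
      (Finset.sum_le_sum fun j _ => Finset.card_le_card ?_)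
    · intro x hx
      exact hc _ (mem_filter.1 hx).2
    · intro j x hx hj
      have hg := (mem_filter.1 hx).2
      obtain ⟨i, hi⟩ := Finset.card_pos.1 (Nat.zero_lt_of_lt hj)
      have hi := (mem_filter.1 hi).2
      have hst := (eps2 (hg.1 i hi)).2
      have hi' : Γ.src (M.ty (nx M i)) = Sum.inl x := hst.1 ▸ hi
      refine Finset.one_lt_card.2 ⟨⟨(M.ty i).1, hj.trans_le (cin_le_mult hg i (Or.inr hi))⟩, ?_,
        ⟨(M.ty (nx M i)).1, hj.trans_le (cin_le_mult hg _ (Or.inl hi'))⟩, ?_, ?_⟩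
      · simpa [uL] using inc_inl.1 (Or.inr hi)
      · simpa [uL] using inc_inl.1 (Or.inl hi')
      · intro h
        exact hst.edge_ne (congrArg Subtype.val h).symm
    · intro x hx
      simp only [hs, mem_filter, mem_erase, mem_univ, and_true, mem_image, true_and] at hx ⊢
      refine ⟨⟨hx.1.1, ?_⟩, hx.2⟩
      obtain ⟨d, hd⟩ := Finset.card_pos.1 (lt_of_lt_of_le two_pos hx.2)
      exact ⟨d, (mem_filter.1 hd).2⟩
  have h2 : (Finset.univ.filter fun i : M.I => ¬ (M.ty i).2 = true).card ≤
      ∑ x ∈ s, cin M (Sum.inl x) + B + B := by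
    have hsub : (Finset.univ.filter fun i : M.I => ¬ (M.ty i).2 = true) ⊆
        (s.biUnion fun x => Finset.univ.filter fun i : M.I => Γ.tgt (M.ty i) = Sum.inl x) ∪
        (Finset.univ.filter fun i : M.I =>
          ¬ GoodV M (Γ.src (M.ty i)) ∨ ¬ GoodV M (Γ.tgt (M.ty i))) ∪
        (Finset.univ.filter fun i : M.I =>
          Γ.tgt (M.ty i) = Sum.inl c₀ ∧ GoodV M (Sum.inl c₀)) := by
      intro i hi
      simp only [mem_filter, mem_univ, true_and, Bool.not_eq_true] at hi
      have ht : Γ.tgt (M.ty i) = Sum.inl (Γ.u (M.ty i).1) := by simp [tgt, hi]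
      simp only [hs, mem_union, mem_biUnion, mem_filter, mem_univ, true_and, mem_erase, and_true]
      by_cases hg : GoodV M (Γ.tgt (M.ty i))
      · by_cases h0 : Γ.u (M.ty i).1 = c₀
        · right
          rw [← h0, ← ht]
          exact ⟨rfl, hg⟩
        · left; left
          exact ⟨_, ⟨h0, ht ▸ hg⟩, ht⟩
      · left; right; right; exact hg
    have h5 : (Finset.univ.filter fun i : M.I =>
          Γ.tgt (M.ty i) = Sum.inl c₀ ∧ GoodV M (Sum.inl c₀)).card ≤ B := by
      by_cases hg : GoodV M (Sum.inl c₀)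
      · refine le_trans (Finset.card_le_card ?_) (hc _ hg)
        intro i hi
        simp only [mem_filter, mem_univ, true_and] at hi ⊢
        exact hi.1
      · simp [hg]
    calc _ ≤ _ := Finset.card_le_card hsub
      _ ≤ _ := Finset.card_union_le _ _
      _ ≤ _ := Nat.add_le_add (Finset.card_union_le _ _) h5
      _ ≤ _ := Nat.add_le_add_right (Nat.add_le_add Finset.card_biUnion_le hbad) _
  have h3 := plus_le M true
  have h4 := plus_add M true
  omega

/-- allowed labellings of a level set -/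
noncomputable def Lam [Fintype P] (M : RMap Γ.pres) (Pi : Finset (P × P)) (j : ℕ) :
    Finset (Lev M j → P) :=
  Finset.univ.filter fun l => (∀ a b : Lev M j, Γ.w a.1 = Γ.w b.1 → a ≠ b → (l a, l b) ∈ Pi) ∧
    ∀ (i i' : M.I) (a b : Lev M j), a.1 = (M.ty i).1 → b.1 = (M.ty i').1 →
      M.ε (i, 1) = (i', 1) → l a = l b

theorem exists_rank (c : W → ℕ) :
    ∃ rk : W → ℕ, Function.Injective rk ∧ ∀ y y', rk y' < rk y → c y ≤ c y' := by
  set N := Fintype.card W with hN
  set e := Fintype.equivFin W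
  set C := Finset.univ.sup c with hC
  have hc : ∀ y, c y ≤ C := fun y => Finset.le_sup (f := c) (mem_univ y)
  refine ⟨fun y => (C - c y) * N + e y, ?_, ?_⟩
  · intro y y' h
    have h1 := congrArg (· % N) h
    simp only [Nat.mul_add_mod_self_right] at h1
    rw [Nat.mod_eq_of_lt (e y).2, Nat.mod_eq_of_lt (e y').2] at h1
    exact e.injective (Fin.ext h1)
  · intro y y' h
    by_contra hlt
    push Not at hlt
    have h1 : C - c y + 1 ≤ C - c y' := by have := hc y; omega
    have h2 := Nat.mul_le_mul_right N h1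
    have h3 := (e y).2
    simp only at h
    nlinarith

/-- partner corner -/
def pt (M : RMap Γ.pres) (i : M.I) : M.I := mt M (nx M i)

/-- `W`-end of the edge of a triangle -/
def wv (M : RMap Γ.pres) (i : M.I) : W := Γ.w (M.ty i).1

theorem tgt_eq_inr {i : M.I} {y : W} (h : Γ.tgt (M.ty i) = Sum.inr y) :
    (M.ty i).2 = true ∧ wv M i = y := by
  unfold wv
  rcases hty : M.ty i with ⟨t, _ | _⟩ <;> simp_all [tgt]

theorem tgt_of_plus {i : M.I} (h : (M.ty i).2 = true) : Γ.tgt (M.ty i) = Sum.inr (wv M i) := by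
  simp [tgt, h, wv]

theorem Reg.pt_plus {i : M.I} (h : Reg M i) (hi : (M.ty i).2 = true) :
    (M.ty (pt M i)).2 = true := by
  have h' := reg_iff.1 h
  unfold pt
  rw [(eps1 h'.2.2.1).2.2.1, (eps2 h'.1).2.sign, hi]
  rfl

theorem Reg.wv_pt_ne {i : M.I} (h : Reg M i) : wv M (pt M i) ≠ wv M i ∨ (M.ty i).2 = false := by
  by_cases hi : (M.ty i).2 = true
  · left
    intro hw
    have h' := reg_iff.1 h
    have h1 := (eps2 (reg_iff.1 h.opp).1).2.1
    rw [h.nx_mt_nx] at h1
    have h2 : Γ.w (M.ty (mt M i)).1 = wv M (pt M i) := by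
      rw [← inc_inr]
      left
      rw [← h1]
      exact tgt_of_plus (Reg.pt_plus h hi)
    exact (eps1 h'.2.1).2.2.2 (Γ.foldW _ _ (h2.trans hw) (eps1 h'.2.1).2.1)
  · right; simpa using hi

/-- the labels at `y` are determined by the labels at a vertex of smaller rank -/
def Det (M : RMap Γ.pres) (rk : W → ℕ) (y : W) : Prop :=
  ∃ i, Γ.tgt (M.ty i) = Sum.inr y ∧ Reg M i ∧ GoodV M (Sum.inr (wv M (pt M i))) ∧
    rk (wv M (pt M i)) < rk y

/-- free vertices at level `j` -/
noncomputable def Free (M : RMap Γ.pres) (rk : W → ℕ) (j : ℕ) : Finset W :=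
  (Finset.univ.filter fun y => GoodV M (Sum.inr y) ∧ ¬ Det M rk y).filter
    fun y => j < cin M (Sum.inr y)

theorem level_four [Fintype P] (Pi : Finset (P × P)) {B : ℕ}
    (hbad : (Finset.univ.filter fun i : M.I =>
      ¬ GoodV M (Γ.src (M.ty i)) ∨ ¬ GoodV M (Γ.tgt (M.ty i))).card ≤ B)
    (rk : W → ℕ) (hrk : ∀ y y', rk y' < rk y → cin M (Sum.inr y) ≤ cin M (Sum.inr y')) (j : ℕ) :
    (Lam M Pi j).card ≤ Pi.card ^ (Free M rk j).card * (Fintype.card P + 1) ^ B := by
  have hex : ∀ y : Free M rk j, ∃ i, Γ.tgt (M.ty i) = Sum.inr y.1 := by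
    rintro ⟨y, hy⟩
    obtain ⟨i, hi⟩ := Finset.card_pos.1 (Nat.zero_lt_of_lt (mem_filter.1 hy).2)
    exact ⟨i, (mem_filter.1 hi).2⟩
  choose r hr using hex
  have hg : ∀ y : Free M rk j, GoodV M (Sum.inr y.1) := fun y =>
    (mem_filter.1 (mem_filter.1 y.2).1).2.1
  have hst : ∀ y : Free M rk j, Γ.Step (M.ty (r y)) (M.ty (nx M (r y))) := fun y =>
    (eps2 ((hg y).1 _ (hr y))).2
  have hr' : ∀ y : Free M rk j, Γ.src (M.ty (nx M (r y))) = Sum.inr y.1 := fun y => by
    rw [← (hst y).1, hr y]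
  let a : Free M rk j → Lev M j := fun y => ⟨(M.ty (r y)).1,
    (mem_filter.1 y.2).2.trans_le (cin_le_mult (hg y) _ (Or.inr (hr y)))⟩
  let b : Free M rk j → Lev M j := fun y => ⟨(M.ty (nx M (r y))).1,
    (mem_filter.1 y.2).2.trans_le (cin_le_mult (hg y) _ (Or.inl (hr' y)))⟩
  let BE := {t : Lev M j // ¬ GoodV M (Sum.inr (Γ.w t.1))}
  have hBE : Fintype.card BE ≤ B := by
    have hex2 : ∀ t : BE, ∃ i, (M.ty i).1 = t.1.1 := fun t =>
      exists_of_mult_pos (Nat.zero_lt_of_lt t.1.2)
    choose s hs using hex2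
    refine le_trans ?_ hbad
    rw [← Finset.card_univ]
    refine Finset.card_le_card_of_injOn s ?_ ?_
    · intro t _
      simp only [coe_filter, mem_univ, true_and, Set.mem_ofPred_eq]
      have h1 := t.2
      rw [← hs t] at h1
      rcases inc_inr.2 (rfl : Γ.w (M.ty (s t)).1 = _) with h | h
      · left; rwa [h]
      · right; rwa [h]
    · intro t _ t' _ h
      apply Subtype.ext; apply Subtype.ext
      rw [← hs t, ← hs t', h]
  let Φ : Lam M Pi j → (Free M rk j → Pi) × (BE → P) := fun l =>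
    (fun y => ⟨(l.1 (a y), l.1 (b y)), (mem_filter.1 l.2).2.1 _ _
      ((inc_inr.1 (Or.inr (hr y))).trans (inc_inr.1 (Or.inl (hr' y))).symm)
      (fun h => (hst y).edge_ne (congrArg Subtype.val h).symm)⟩, fun t => l.1 t.1)
  have hΦ : Function.Injective Φ := by
    intro l l' h
    have h1 : ∀ y, l.1 (a y) = l'.1 (a y) ∧ l.1 (b y) = l'.1 (b y) := fun y => by
      have := congrArg Subtype.val (congrFun (congrArg Prod.fst h) y)
      exact Prod.mk.inj this
    have h2 : ∀ t : BE, l.1 t.1 = l'.1 t.1 := fun t => congrFun (congrArg Prod.snd h) t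
    have key : ∀ n, ∀ t : Lev M j, rk (Γ.w t.1) = n → l.1 t = l'.1 t := by
      intro n
      induction n using Nat.strong_induction_on with
      | _ n ih =>
        intro t ht
        by_cases hgood : GoodV M (Sum.inr (Γ.w t.1))
        swap
        · exact h2 ⟨t, hgood⟩
        obtain ⟨k, hk⟩ := exists_of_mult_pos (Nat.zero_lt_of_lt t.2)
        have hkinc : Γ.src (M.ty k) = Sum.inr (Γ.w t.1) ∨ Γ.tgt (M.ty k) = Sum.inr (Γ.w t.1) :=
          inc_inr.2 (by rw [hk])
        have hj : j < cin M (Sum.inr (Γ.w t.1)) :=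
          t.2.trans_le (by have := mult_le_cin hgood k hkinc; rwa [hk] at this)
        by_cases hdet : Det M rk (Γ.w t.1)
        · obtain ⟨i, hi, hreg, hg', hlt⟩ := hdet
          have hreg' := reg_iff.1 hreg
          have hj' : j < cin M (Sum.inr (wv M (pt M i))) := hj.trans_le (hrk _ _ hlt)
          have hp : Γ.tgt (M.ty (pt M i)) = Sum.inr (wv M (pt M i)) :=
            tgt_of_plus (Reg.pt_plus hreg (tgt_eq_inr hi).1)
          have hm : Γ.src (M.ty (mt M i)) = Sum.inr (wv M (pt M i)) := by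
            have h3 := (eps2 (reg_iff.1 hreg.opp).1).2.1
            rw [hreg.nx_mt_nx] at h3
            rw [← h3]; exact hp
          rcases good_edge hgood hi hkinc with h3 | h3
          · let t' : Lev M j := ⟨(M.ty (mt M i)).1, hj'.trans_le (cin_le_mult hg' _ (Or.inl hm))⟩
            have e1 := (mem_filter.1 l.2).2.2 i (mt M i) t t' (hk.symm.trans h3) rfl
              (eps1 hreg'.2.1).1
            have e2 := (mem_filter.1 l'.2).2.2 i (mt M i) t t' (hk.symm.trans h3) rfl
              (eps1 hreg'.2.1).1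
            rw [e1, e2]
            refine ih _ ?_ t' rfl
            rw [show Γ.w t'.1 = wv M (pt M i) from inc_inr.1 (Or.inl hm), ← ht]
            exact hlt
          · let t' : Lev M j := ⟨(M.ty (pt M i)).1, hj'.trans_le (cin_le_mult hg' _ (Or.inr hp))⟩
            have e1 := (mem_filter.1 l.2).2.2 (nx M i) (pt M i) t t' (hk.symm.trans h3) rfl
              (eps1 hreg'.2.2.1).1
            have e2 := (mem_filter.1 l'.2).2.2 (nx M i) (pt M i) t t' (hk.symm.trans h3) rfl
              (eps1 hreg'.2.2.1).1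
            rw [e1, e2]
            refine ih _ ?_ t' rfl
            rw [← ht]
            exact hlt
        · let y : Free M rk j := ⟨Γ.w t.1, by
            simp only [Free, mem_filter, mem_univ, true_and]
            exact ⟨⟨hgood, hdet⟩, hj⟩⟩
          rcases good_edge hgood (hr y) hkinc with h3 | h3
          · have : t = a y := Subtype.ext (hk.symm.trans h3)
            rw [this]; exact (h1 y).1
          · have : t = b y := Subtype.ext (hk.symm.trans h3)
            rw [this]; exact (h1 y).2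
    exact Subtype.ext (funext fun t => key _ t rfl)
  have h3 := Fintype.card_le_of_injective Φ hΦ
  simp only [Fintype.card_coe, Fintype.card_prod, Fintype.card_fun] at h3
  refine h3.trans (Nat.mul_le_mul_left _ ?_)
  calc _ ≤ (Fintype.card P + 1) ^ Fintype.card BE := Nat.pow_le_pow_left (Nat.le_succ _) _
    _ ≤ _ := Nat.pow_le_pow_right (Nat.succ_pos _) hBE

theorem level_five {B : ℕ}
    (hbad : (Finset.univ.filter fun i : M.I =>
      ¬ GoodV M (Γ.src (M.ty i)) ∨ ¬ GoodV M (Γ.tgt (M.ty i))).card ≤ B)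
    (rk : W → ℕ) (hrk : Function.Injective rk) :
    4 * ∑ j ∈ range B, (Free M rk j).card ≤
      M.area + 3 * nArcs M + 2 * nIrr M + 2 * nUS M + 4 * B := by
  set s : Finset W := Finset.univ.filter fun y => GoodV M (Sum.inr y) ∧ ¬ Det M rk y with hs
  set Pl : Finset M.I := Finset.univ.filter fun i : M.I => (M.ty i).2 = true with hPl
  set F : Finset M.I := Pl.filter fun i => wv M i ∈ s with hF
  set R : Finset M.I := Pl.filter fun i => Reg M i ∧ GoodV M (Sum.inr (wv M i)) ∧
    GoodV M (Sum.inr (wv M (pt M i))) with hR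
  have h1 : ∑ j ∈ range B, (Free M rk j).card ≤ F.card := by
    refine (lev_sum_le s B (fun j y => j < cin M (Sum.inr y)) (fun y => cin M (Sum.inr y))
      fun _ _ _ h => h).trans (le_of_eq ?_)
    rw [Finset.card_eq_sum_card_fiberwise (f := wv M) (t := s) (s := F)
      (fun i hi => (mem_filter.1 hi).2)]
    refine Finset.sum_congr rfl fun y hy => ?_
    unfold cin
    congr 1
    ext i
    simp only [hF, hPl, mem_filter, mem_univ, true_and]
    constructor
    · intro h
      obtain ⟨h1, h2⟩ := tgt_eq_inr h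
      exact ⟨⟨h1, h2 ▸ hy⟩, h2⟩
    · rintro ⟨⟨h1, -⟩, h2⟩
      rw [tgt_of_plus h1, h2]
  have h2 : (F ∩ R).card ≤ (R \ F).card := by
    refine Finset.card_le_card_of_injOn (pt M) ?_ ?_
    · intro i hi
      simp only [hF, hR, hPl, hs, coe_inter, coe_filter, mem_filter, mem_univ, true_and,
        Set.mem_inter_iff, Set.mem_ofPred_eq, coe_sdiff, Set.mem_sdiff] at hi ⊢
      obtain ⟨⟨hp, hg, hnd⟩, -, hreg, -, hg'⟩ := hi
      have hpp : pt M (pt M i) = i := hreg.opp_opp
      refine ⟨⟨Reg.pt_plus hreg hp, hreg.opp, hg', by rw [hpp]; exact hg⟩, ?_⟩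
      rintro ⟨-, -, hnd'⟩
      have hne : wv M (pt M i) ≠ wv M i := (Reg.wv_pt_ne hreg).resolve_right (by simp [hp])
      rcases lt_trichotomy (rk (wv M (pt M i))) (rk (wv M i)) with h | h | h
      · exact hnd ⟨i, tgt_of_plus hp, hreg, hg', h⟩
      · exact hne (hrk h)
      · exact hnd' ⟨pt M i, tgt_of_plus (Reg.pt_plus hreg hp), hreg.opp, by rw [hpp]; exact hg,
          by rw [hpp]; exact h⟩
    · intro i hi k hk h
      have hi' : Reg M i := (mem_filter.1 (mem_inter.1 hi).2).2.1
      have hk' : Reg M k := (mem_filter.1 (mem_inter.1 hk).2).2.1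
      calc i = pt M (pt M i) := hi'.opp_opp.symm
        _ = pt M (pt M k) := by rw [h]
        _ = k := hk'.opp_opp
  have h3 : (R \ F).card + (F ∩ R).card = R.card := by
    rw [Finset.inter_comm]; exact Finset.card_sdiff_add_card_inter _ _
  have h4 : (F \ R).card + (F ∩ R).card = F.card := Finset.card_sdiff_add_card_inter _ _
  have h5 : (F \ R).card ≤ (Pl \ R).card :=
    Finset.card_le_card (Finset.sdiff_subset_sdiff (Finset.filter_subset _ _) subset_rfl)
  have h6 : (Pl \ R).card + R.card = Pl.card :=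
    Finset.card_sdiff_add_card_eq_card (Finset.filter_subset _ _)
  have h7 := plus_le M true
  have h8 := plus_add M true
  rw [← hPl] at h7 h8
  set Bd := Finset.univ.filter fun i : M.I =>
      ¬ GoodV M (Γ.src (M.ty i)) ∨ ¬ GoodV M (Γ.tgt (M.ty i)) with hBd
  have h9 : (Pl \ R).card ≤ nArcs M + nIrr M + nUS M + B + B := by
    have hsub : Pl \ R ⊆ (Finset.univ.filter fun i : M.I => M.ε (i, 2) = (i, 2)) ∪
        (Finset.univ.filter fun i : M.I => Irr M i) ∪
        (Finset.univ.filter fun i : M.I => M.ε (i, 1) = (i, 1)) ∪ Bd ∪ Bd.image (pt M) := by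
      intro i hi
      simp only [hR, hPl, hBd, mem_sdiff, mem_filter, mem_univ, true_and, mem_union,
        mem_image] at hi ⊢
      obtain ⟨hp, hn⟩ := hi
      by_cases hreg : Reg M i
      · by_cases hg : GoodV M (Sum.inr (wv M i))
        · right
          refine ⟨pt M i, Or.inr ?_, hreg.opp_opp⟩
          rw [tgt_of_plus (Reg.pt_plus hreg hp)]
          exact fun h => hn ⟨hp, hreg, hg, h⟩
        · left; right; right
          rwa [tgt_of_plus hp]
      · left; left
        by_cases h2 : M.ε (i, 2) = (i, 2)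
        · exact Or.inl (Or.inl h2)
        · by_cases h1 : M.ε (i, 1) = (i, 1)
          · exact Or.inr h1
          · exact Or.inl (Or.inr (irr_iff.2 ⟨h2, hreg, fun h => h1 h.1⟩))
    refine (Finset.card_le_card hsub).trans ?_
    refine (Finset.card_union_le _ _).trans (Nat.add_le_add ?_ (Finset.card_image_le.trans hbad))
    refine (Finset.card_union_le _ _).trans (Nat.add_le_add ?_ hbad)
    refine (Finset.card_union_le _ _).trans (Nat.add_le_add ?_ le_rfl)
    exact Finset.card_union_le _ _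
  omega

theorem level_main [Fintype P] (Pi : Finset (P × P)) {B : ℕ} (hB : ∀ t, mult M t ≤ B)
    (hbad : (Finset.univ.filter fun i : M.I =>
      ¬ GoodV M (Γ.src (M.ty i)) ∨ ¬ GoodV M (Γ.tgt (M.ty i))).card ≤ B) (c₀ : U) :
    ∃ fr : ℕ → ℕ,
      (∀ j, (Lam M Pi j).card ≤ Pi.card ^ fr j * (Fintype.card P + 1) ^ B) ∧
      ∑ j ∈ range B, Fintype.card (Lev M j) = M.area ∧
      ∑ j ∈ range B, (cnt2 (uL M j) c₀ + (cnt1 (uL M j) c₀ + cntI (wL M j))) + nPin M c₀ ≤
        M.area + nArcs M ∧
      M.area ≤ 2 * ∑ j ∈ range B, cnt2 (uL M j) c₀ + nArcs M + 4 * B ∧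
      4 * ∑ j ∈ range B, fr j ≤ M.area + 3 * nArcs M + 2 * nIrr M + 2 * nUS M + 4 * B := by
  obtain ⟨rk, h1, h2⟩ := exists_rank (fun y : W => cin M (Sum.inr y))
  exact ⟨fun j => (Free M rk j).card, level_four Pi hbad rk h2, level_one hB, level_two B c₀,
    level_three hB hbad c₀, level_five hbad rk h1⟩

end Sums

end Crest.Agent.R177
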