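import Crest.Agent.R177.Defs

/-! The numerical part of the first-moment argument. -/

set_option autoImplicit false

namespace Crest.Agent.R177

open Finset Filter

theorem num_eventually_log {κ : ℝ} (hκ : 0 < κ) (a b : ℝ) (hb : 0 ≤ b) :
    ∀ᶠ g : ℕ in atTop, a + b * Real.log (g + 2) ≤ κ * g := by
  set t : ℝ := 2 * b / κ + 1 with ht
  have ht0 : 0 < t := by positivity
  have hbt : b / t ≤ κ / 2 := by
    rw [div_le_iff₀ ht0, ht]
    have : κ / 2 * (2 * b / κ + 1) = b + κ / 2 := by field_simp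
    rw [this]; linarith
  obtain ⟨g₀, hg₀⟩ := exists_nat_ge (2 * (a + b * Real.log t + κ) / κ)
  filter_upwards [eventually_ge_atTop g₀] with g hg
  have hg' : (g₀ : ℝ) ≤ g := by exact_mod_cast hg
  have h0 : (0 : ℝ) < g + 2 := by positivity
  have h1 : Real.log (g + 2) ≤ Real.log t + (g + 2) / t := by
    have := Real.log_le_sub_one_of_pos (div_pos h0 ht0)
    rw [Real.log_div h0.ne' ht0.ne'] at this
    linarith
  have h2 : b * ((g + 2) / t) ≤ κ / 2 * (g + 2) := by
    rw [show b * (((g : ℝ) + 2) / t) = (b / t) * (g + 2) by ring]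
    exact mul_le_mul_of_nonneg_right hbt h0.le
  have h3 : 2 * (a + b * Real.log t + κ) ≤ κ * g := by
    rw [div_le_iff₀ hκ] at hg₀
    nlinarith
  have h4 := mul_le_mul_of_nonneg_left h1 hb
  nlinarith

theorem num_log_ratio {x y ε : ℝ} (hx : 0 < x) (hy : 0 < y) (h : x - y ≤ ε * y) :
    Real.log x - Real.log y ≤ ε := by
  have := Real.log_le_sub_one_of_pos (div_pos hx hy)
  rw [Real.log_div hx.ne' hy.ne'] at this
  have h2 : x / y - 1 ≤ ε := by
    rw [div_sub_one hy.ne', div_le_iff₀ hy]; exact h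
  linarith

theorem numeric_main (p Q n c : ℕ) (hp : 0 < p) (hpQ : p < Q ^ 2) :
    ∃ C₁ : ℕ, ∀ K B B' : ℕ, ∃ g m : ℕ, 2 ≤ g ∧ 0 < m ∧ K * g + ballB n g < Q * (2 * m) ∧
    ∀ (A arcs irr US pin : ℕ) (e n2 n1 fr : ℕ → ℕ),
      arcs ≤ K → irr ≤ K →
      ∑ j ∈ range B, e j = A →
      ∑ j ∈ range B, (n2 j + n1 j) + pin ≤ A + arcs →
      A ≤ 2 * ∑ j ∈ range B, n2 j + arcs + 4 * B →
      4 * ∑ j ∈ range B, fr j ≤ A + 3 * arcs + 2 * irr + 2 * US + 4 * B →
      C₁ * (US + g * (arcs - pin)) + g < 2 * A →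
      ∃ j < B, 2 * (g + 2) ^ B' *
        (p ^ fr j * (n + 1) ^ B * (2 * m + c) ^ n2 j * (Q * (2 * m) + c) ^ n1 j) <
        (Q * (2 * m) - K * g - ballB n g) ^ e j := by
  have hQ : 0 < Q := by
    rcases Nat.eq_zero_or_pos Q with h | h
    · simp [h] at hpQ
    · exact h
  have hQr : (1 : ℝ) ≤ Q := by exact_mod_cast hQ
  have hpr : (1 : ℝ) ≤ p := by exact_mod_cast hp
  set lp := Real.log p with hlp
  set lQ := Real.log Q with hlQ
  have hlp0 : 0 ≤ lp := Real.log_nonneg hpr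
  have hκ₀ : lp < 2 * lQ := by
    have h1 : (p : ℝ) < (Q : ℝ) ^ 2 := by exact_mod_cast hpQ
    have := Real.log_lt_log (by linarith) h1
    rw [Real.log_pow] at this
    exact_mod_cast this
  set ε : ℝ := (lQ / 2 - lp / 4) / 3 with hε
  have hε0 : 0 < ε := by rw [hε]; linarith
  obtain ⟨N, hN⟩ := exists_nat_ge (1 / ε)
  have hN0 : (0 : ℝ) < N := lt_of_lt_of_le (by positivity) hN
  have hN1 : 0 < N := by exact_mod_cast hN0
  have hNε : 1 ≤ ε * N := by rw [div_le_iff₀ hε0] at hN; linarith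
  set C' : ℝ := Real.log (2 * Q * N + 1) + 1 + Real.log 2 + 2 * Real.log (n + 1) with hC'
  have hl1 : 0 ≤ Real.log (2 * Q * N + 1) := Real.log_nonneg (by
    have : (0 : ℝ) ≤ 2 * Q * N := by positivity
    linarith)
  have hl2 : 0 ≤ Real.log 2 := Real.log_nonneg (by norm_num)
  have hl3 : 0 ≤ Real.log (n + 1) := Real.log_nonneg (by
    have : (0 : ℝ) ≤ n := by positivity
    linarith)
  have hC'0 : 0 ≤ C' := by rw [hC']; positivity
  set κ : ℝ := 3 * ε / 2 with hκ
  have hκ0 : 0 < κ := by positivity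
  obtain ⟨C₁, hC₁⟩ := exists_nat_ge (2 * (lp / 2 + C') / κ)
  have hC₁' : lp / 2 + C' ≤ κ / 2 * C₁ := by
    rw [div_le_iff₀ hκ0] at hC₁; linarith
  refine ⟨C₁, fun K B B' => ?_⟩
  set Z₀ : ℝ := B * Real.log 2 + B * (B * Real.log (n + 1)) + (K + 4 * B) / 2 * lQ +
    (5 * K + 4 * B) / 4 * lp with hZ₀
  obtain ⟨g, hg1, hg2, hg3⟩ := ((num_eventually_log (half_pos hκ0) Z₀ (B * B')
    (by positivity)).and ((num_eventually_log one_pos (Real.log (c + K + 1)) 1 zero_le_one).and
    (eventually_ge_atTop 2))).exists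
  set X : ℕ := c + K * g + ballB n g with hX
  have hball : 1 ≤ ballB n g := by
    unfold ballB
    have : 0 < (n + 1) ^ (g + 1) := by positivity
    omega
  have hX0 : 0 < X := by omega
  have hlt : K * g + ballB n g < Q * (2 * (N * X)) := by
    have h1 : X ≤ N * X := Nat.le_mul_of_pos_left _ hN1
    have h2 : 2 * (N * X) ≤ Q * (2 * (N * X)) := Nat.le_mul_of_pos_left _ hQ
    omega
  refine ⟨g, N * X, hg3, Nat.mul_pos hN1 hX0, hlt, ?_⟩
  intro A arcs irr US pin e n2 n1 fr harcs hirr he h2 h3 h5 hfail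
  by_contra hcon
  push Not at hcon
  set D : ℕ := Q * (2 * (N * X)) - K * g - ballB n g with hD
  set m₁ : ℕ := 2 * (N * X) + c with hm₁
  set m₂ : ℕ := Q * (2 * (N * X)) + c with hm₂
  have hD0 : 0 < D := by omega
  have hDX : D + X = m₂ := by omega
  have hXr : (0 : ℝ) < X := by exact_mod_cast hX0
  have hDr : (0 : ℝ) < D := by exact_mod_cast hD0
  have hm₁r : (0 : ℝ) < m₁ := by
    have : 0 < m₁ := by have := Nat.mul_pos hN1 hX0; omega
    exact_mod_cast this
  have hm₂r : (1 : ℝ) ≤ m₂ := by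
    have : 1 ≤ m₂ := by omega
    exact_mod_cast this
  have hcX : (c : ℝ) ≤ X := by
    have : c ≤ X := by omega
    exact_mod_cast this
  have hm₂eq : (m₂ : ℝ) = Q * (2 * (N * X)) + c := by rw [hm₂]; push_cast; ring
  have hm₁eq : (m₁ : ℝ) = 2 * (N * X) + c := by rw [hm₁]; push_cast; ring
  have hDeq : (D : ℝ) + X = m₂ := by exact_mod_cast hDX
  have hc0 : (0 : ℝ) ≤ c := by positivity
  have hN1r : (1 : ℝ) ≤ N := by exact_mod_cast hN1
  have hNX : (X : ℝ) ≤ N * X := by nlinarith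
  have hεNX : (X : ℝ) ≤ ε * (N * X) := by nlinarith
  set lD := Real.log D
  set l₁ := Real.log m₁
  set l₂ := Real.log m₂
  have ha : l₂ - lD ≤ ε := by
    refine num_log_ratio (by linarith) hDr ?_
    have h1 : (N : ℝ) * X ≤ D := by nlinarith
    nlinarith
  have hb : lQ + l₁ - l₂ ≤ ε := by
    rw [hlQ, ← Real.log_mul (by linarith) hm₁r.ne']
    refine num_log_ratio (by positivity) (by linarith) ?_
    rw [hm₁eq, hm₂eq]
    have h1 : (Q : ℝ) * c ≤ Q * (ε * (N * X)) := by nlinarith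
    have h2 : 0 ≤ ε * (Q * (N * X)) := by positivity
    have h3 : 0 ≤ ε * c := by positivity
    nlinarith
  have hl₂0 : 0 ≤ l₂ := Real.log_nonneg hm₂r
  have hg1r : (1 : ℝ) ≤ g := by
    have : 1 ≤ g := by omega
    exact_mod_cast this
  have hc : l₂ ≤ C' * g := by
    have h1 : m₂ ≤ (2 * Q * N + 1) * ((c + K + 1) * ((g + 2) * (2 * (n + 1) ^ (g + 1)))) := by
      have h1 : X ≤ (c + K + 1) * ((g + 2) * (2 * (n + 1) ^ (g + 1))) := by
        rw [hX]
        unfold ballB at hball ⊢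
        generalize 2 * (n + 1) ^ (g + 1) = Y at hball ⊢
        have a1 : c ≤ c * ((g + 2) * Y) := Nat.le_mul_of_pos_right _ (by positivity)
        have a2 : K * g ≤ K * ((g + 2) * Y) := Nat.mul_le_mul_left _ (by nlinarith)
        have a3 : Y ≤ (g + 2) * Y := Nat.le_mul_of_pos_left _ (by positivity)
        nlinarith
      calc m₂ ≤ (2 * Q * N + 1) * X := by
            rw [hm₂]
            have : c ≤ X := by omega
            nlinarith
        _ ≤ _ := Nat.mul_le_mul_left _ h1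
    have h2 : (m₂ : ℝ) ≤ (2 * Q * N + 1) * ((c + K + 1) * ((g + 2) * (2 * (n + 1) ^ (g + 1)))) := by
      exact_mod_cast h1
    have h3 := Real.log_le_log (by linarith) h2
    rw [Real.log_mul (by positivity) (by positivity), Real.log_mul (by positivity) (by positivity),
      Real.log_mul (by positivity) (by positivity), Real.log_mul (by positivity) (by positivity),
      Real.log_pow] at h3
    push_cast at h3
    rw [hC']
    nlinarith
  have hlev : ∀ j ∈ range B, (e j : ℝ) * lD ≤ (Real.log 2 + B' * Real.log (g + 2) +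
      B * Real.log (n + 1)) + (fr j * lp + (n2 j * l₁ + n1 j * l₂)) := by
    intro j hj
    have h1 := hcon j (mem_range.1 hj)
    have h2 : (D : ℝ) ^ e j ≤ 2 * (g + 2) ^ B' *
        (p ^ fr j * (n + 1) ^ B * m₁ ^ n2 j * m₂ ^ n1 j) := by exact_mod_cast h1
    have h3 := Real.log_le_log (by positivity) h2
    rw [Real.log_mul (by positivity) (by positivity), Real.log_mul (by positivity) (by positivity),
      Real.log_mul (by positivity) (by positivity), Real.log_mul (by positivity) (by positivity),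
      Real.log_mul (by positivity) (by positivity)] at h3
    simp only [Real.log_pow] at h3
    linarith
  have hsum := Finset.sum_le_sum hlev
  simp only [Finset.sum_add_distrib, ← Finset.sum_mul, Finset.sum_const, card_range,
    nsmul_eq_mul] at hsum
  rw [Finset.sum_add_distrib] at h2
  have he' : ∑ j ∈ range B, (e j : ℝ) = A := by exact_mod_cast he
  rw [he'] at hsum
  set F : ℝ := ∑ j ∈ range B, (fr j : ℝ) with hF
  set N2 : ℝ := ∑ j ∈ range B, (n2 j : ℝ) with hN2
  set N1 : ℝ := ∑ j ∈ range B, (n1 j : ℝ) with hN1'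
  set d : ℕ := arcs - pin with hd
  have h2' : N2 + N1 ≤ A + d := by
    have : ∑ j ∈ range B, n2 j + ∑ j ∈ range B, n1 j ≤ A + d := by omega
    rw [hN2, hN1']
    exact_mod_cast this
  have h3' : (A : ℝ) ≤ 2 * N2 + K + 4 * B := by
    have : A ≤ 2 * ∑ j ∈ range B, n2 j + K + 4 * B := by omega
    rw [hN2]
    exact_mod_cast this
  have h5' : 4 * F ≤ A + 5 * K + 2 * US + 4 * B := by
    have : 4 * ∑ j ∈ range B, fr j ≤ A + 5 * K + 2 * US + 4 * B := by omega
    rw [hF]
    exact_mod_cast this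
  have hfail' : (C₁ : ℝ) * (US + g * d) + g < 2 * A := by exact_mod_cast hfail
  have hN20 : 0 ≤ N2 := Finset.sum_nonneg fun _ _ => by positivity
  have hA0 : (0 : ℝ) ≤ A := by positivity
  have hd0 : (0 : ℝ) ≤ d := by positivity
  have hUS0 : (0 : ℝ) ≤ US := by positivity
  have hK0 : (0 : ℝ) ≤ K := by positivity
  have hB0 : (0 : ℝ) ≤ B := by positivity
  have hQε : 0 ≤ lQ - ε := by rw [hε]; linarith
  -- combine
  have s1 : (A : ℝ) * (l₂ - ε) ≤ A * lD := mul_le_mul_of_nonneg_left (by linarith) hA0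
  have s2 : N2 * l₁ ≤ N2 * (l₂ - (lQ - ε)) := mul_le_mul_of_nonneg_left (by linarith) hN20
  have s3 : (N2 + N1) * l₂ ≤ (A + d) * l₂ := mul_le_mul_of_nonneg_right h2' hl₂0
  have s4 : (d : ℝ) * l₂ ≤ d * (C' * g) := mul_le_mul_of_nonneg_left hc hd0
  have s5 : (A - K - 4 * B) / 2 * (lQ - ε) ≤ N2 * (lQ - ε) :=
    mul_le_mul_of_nonneg_right (by linarith) hQε
  have s6 : F * lp ≤ (A + 5 * K + 2 * US + 4 * B) / 4 * lp :=
    mul_le_mul_of_nonneg_right (by linarith) hlp0
  have s7 : κ / 2 * (C₁ * (US + g * d) + g) < κ / 2 * (2 * A) :=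
    mul_lt_mul_of_pos_left hfail' (half_pos hκ0)
  have s8 : (lp / 2 + C') * (US + g * d) ≤ κ / 2 * C₁ * (US + g * d) :=
    mul_le_mul_of_nonneg_right hC₁' (by positivity)
  have s9 : 0 ≤ C' * US := by positivity
  have s10 : 0 ≤ lp * (g * d) := by positivity
  have s11 : 0 ≤ (K + 4 * B) * ε := by positivity
  have s12 : κ * A = A * ((lQ - ε) / 2 - lp / 4 - ε) := by
    rw [hκ, hε]; ring
  rw [hZ₀] at hg1
  linarith

end Crest.Agent.R177
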