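import Crest.Agent.R177.Switch
import Crest.Agent.R177.Chains
import Crest.Agent.R177.Level
import Crest.Agent.R177.Numeric

/-! Existence of a matching with large girth and the local isoperimetric inequality. -/

set_option autoImplicit false
set_option linter.unusedSectionVars false

namespace Crest.Agent.R177

open BGraph Finset
open scoped Classical

section

variable {P J : Type} [Fintype P] [DecidableEq P] [DecidableEq J] {S : Slots P J}

theorem rnd_lab_mem (σ : S.Matching) (h : S.HU) :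
    (S.graph σ).lab h ∈ S.τW ((S.graph σ).w h) := by
  have h1 := (σ.1 h).2
  rw [(σ.2 h).1] at h1
  exact h1

theorem rnd_pi {q c m : ℕ} {Pi : Finset (P × P)} (hS : S.Good q c m Pi) (σ : S.Matching)
    {h h' : S.HU} (hw : (S.graph σ).w h = (S.graph σ).w h') (hne : h ≠ h') :
    ((S.graph σ).lab h, (S.graph σ).lab h') ∈ Pi :=
  hS.pi _ _ _ (rnd_lab_mem σ h) (hw ▸ rnd_lab_mem σ h')
    (fun hl => hne ((S.graph σ).foldW _ _ hw hl))

theorem rnd_col (σ : S.Matching) (t : S.HU) :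
    S.ιW ((S.graph σ).w t) = S.ιU ((S.graph σ).u t) := (σ.2 t).2

/-- the degenerate case: no two labels at a `W`-vertex -/
theorem rnd_empty {q c m : ℕ} (hS : S.Good q c m ∅) (σ : S.Matching) (K : ℕ) {g : ℕ}
    (hg : 4 ≤ g) (c₀ : S.U) : (S.graph σ).Loc K 1 g c₀ := by
  intro M _ _ _
  have h1 : (Finset.univ.filter fun i : M.I => (M.ty i).2 = true).card ≤ nArcs M := by
    refine Finset.card_le_card fun i hi => ?_
    simp only [mem_filter, mem_univ, true_and] at hi ⊢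
    by_contra h
    have hs := (eps2 h).2
    have h2 : (S.graph σ).w (M.ty (nx M i)).1 = (S.graph σ).w (M.ty i).1 :=
      inc_inr.1 (Or.inl (hs.1.symm.trans (tgt_of_plus hi)))
    simpa using rnd_pi hS σ h2 hs.edge_ne
  have h2 : (Finset.univ.filter fun i : M.I => ¬ (M.ty i).2 = true).card ≤ nArcs M := by
    rw [← card_unmatched_zero]
    refine Finset.card_le_card fun i hi => ?_
    simp only [mem_filter, mem_univ, true_and] at hi ⊢
    by_contra h
    have hs := (eps0 h).2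
    have h3 : (M.ty (pv M i)).2 = true := by
      have := hs.sign
      cases h4 : (M.ty (pv M i)).2 <;> simp_all
    have h2 : (S.graph σ).w (M.ty i).1 = (S.graph σ).w (M.ty (pv M i)).1 :=
      inc_inr.1 (Or.inl (hs.1.symm.trans (tgt_of_plus h3)))
    simpa using rnd_pi hS σ h2 hs.edge_ne
  have h3 := plus_add M true
  have h4 : nPin M c₀ ≤ 1 := by unfold nPin; split_ifs <;> simp
  have h5 : 4 * (nArcs M - nPin M c₀) ≤ g * (nArcs M - nPin M c₀) := Nat.mul_le_mul_right _ hg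
  omega

/-- A map with the same skeleton realises the level pattern. -/
theorem rnd_realise {q c m g : ℕ} {Pi : Finset (P × P)} (hS : S.Good q c m Pi) (hg : 2 ≤ g)
    (c₀ : S.U) (σ₀ σ : S.Matching) (h₀ : (S.graph σ₀).Girth g) (h : (S.graph σ).Girth g)
    (M₀ : RMap (S.graph σ₀).pres) (M : RMap (S.graph σ).pres) (θ : M₀.I → M.I)
    (hu : ∀ i i', (S.graph σ₀).u (M₀.ty i).1 = (S.graph σ₀).u (M₀.ty i').1 ↔
      (S.graph σ).u (M.ty (θ i)).1 = (S.graph σ).u (M.ty (θ i')).1)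
    (hw : ∀ i i', (S.graph σ₀).w (M₀.ty i).1 = (S.graph σ₀).w (M₀.ty i').1 ↔
      (S.graph σ).w (M.ty (θ i)).1 = (S.graph σ).w (M.ty (θ i')).1)
    (hl : ∀ i i', M₀.ε (i, 1) = (i', 1) →
      (S.graph σ).lab (M.ty (θ i)).1 = (S.graph σ).lab (M.ty (θ i')).1)
    (hc : ∀ i, (S.graph σ₀).u (M₀.ty i).1 = c₀ → (S.graph σ).u (M.ty (θ i)).1 = c₀)
    (hι : ∀ i, S.ιU ((S.graph σ).u (M.ty (θ i)).1) = S.ιU ((S.graph σ₀).u (M₀.ty i).1)) (j : ℕ) :
    ∃ e : Lev M₀ j → S.HU, Function.Injective e ∧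
      (∀ d d', uL M₀ j d = uL M₀ j d' → (S.graph σ).u (e d) = (S.graph σ).u (e d')) ∧
      (∀ d d', wL M₀ j d = wL M₀ j d' → (S.graph σ).w (e d) = (S.graph σ).w (e d')) ∧
      (∀ d, uL M₀ j d = c₀ → (S.graph σ).u (e d) = c₀) ∧
      (∀ d, S.ιU ((S.graph σ).u (e d)) = S.ιU (uL M₀ j d)) ∧
      (fun d => (S.graph σ).lab (e d)) ∈ Lam M₀ Pi j := by
  have hex : ∀ d : Lev M₀ j, ∃ i, (M₀.ty i).1 = d.1 := fun d =>
    exists_of_mult_pos (Nat.zero_lt_of_lt d.2)
  choose r hr using hex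
  have hinj : Function.Injective fun d : Lev M₀ j => (M.ty (θ (r d))).1 := by
    intro d d' hd
    simp only at hd
    have h1 := (hu (r d) (r d')).2 (by rw [hd])
    have h2 := (hw (r d) (r d')).2 (by rw [hd])
    rw [hr, hr] at h1 h2
    exact Subtype.ext (h₀.edge_eq hg h1 h2)
  have hsame : ∀ (d : Lev M₀ j) (i : M₀.I), d.1 = (M₀.ty i).1 →
      (M.ty (θ (r d))).1 = (M.ty (θ i)).1 := fun d i hd =>
    h.edge_eq hg ((hu _ _).1 (by rw [hr, hd])) ((hw _ _).1 (by rw [hr, hd]))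
  refine ⟨fun d => (M.ty (θ (r d))).1, hinj, ?_, ?_, ?_, ?_, ?_⟩
  · intro d d' hd
    exact (hu _ _).1 (by rw [hr, hr]; exact hd)
  · intro d d' hd
    exact (hw _ _).1 (by rw [hr, hr]; exact hd)
  · intro d hd
    exact hc _ (by rw [hr]; exact hd)
  · intro d
    rw [hι, hr]; rfl
  · simp only [Lam, mem_filter, mem_univ, true_and]
    constructor
    · intro a b hab hne
      exact rnd_pi hS σ ((hw _ _).1 (by rw [hr, hr]; exact hab)) (fun h' => hne (hinj h'))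
    · intro i i' a b ha hb he
      rw [hsame a i ha, hsame b i' hb]
      exact hl i i' he

theorem rnd_exp (S : Slots P J) (g m₁ m₂ m₃ : ℕ) (c₀ : S.U)
    (h₁ : ∀ j r r', r ≠ r' → S.cntU₂ j r r' ≤ m₁) (h₂ : ∀ j r, S.cntU j r ≤ m₂)
    (h₂' : ∀ j r, S.cntW j r ≤ m₂) (h₃ : ∀ j r, m₃ ≤ S.cntU j r)
    {E X Y : Type} [Fintype E] (uu : E → X) (ww : E → Y) (x₀ : X) (col : E → J)
    (Λ : Finset (E → P)) (F : Finset (S.girthSet g))
    (hF : ∀ σ ∈ F, ∃ e : E → S.HU, Function.Injective e ∧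
        (∀ d d', uu d = uu d' → (S.graph σ.1).u (e d) = (S.graph σ.1).u (e d')) ∧
        (∀ d d', ww d = ww d' → (S.graph σ.1).w (e d) = (S.graph σ.1).w (e d')) ∧
        (∀ d, uu d = x₀ → (S.graph σ.1).u (e d) = c₀) ∧
        (∀ d, S.ιU ((S.graph σ.1).u (e d)) = col d) ∧
        (fun d => (S.graph σ.1).lab (e d)) ∈ Λ) :
    F.card * (m₃ - Fintype.card E - ballB (Fintype.card P) g) ^ Fintype.card E ≤
      (S.girthSet g).card * Λ.card * m₁ ^ cnt2 uu x₀ * m₂ ^ (cnt1 uu x₀ + cntI ww) := by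
  refine le_trans (Nat.mul_le_mul_right _ ?_) (S.exp_bound g m₁ m₂ m₃ c₀ h₁ h₂ h₂' h₃ uu ww x₀ col Λ)
  refine Finset.card_le_card_of_injOn (fun σ => σ.1) ?_ (fun _ _ _ _ h => Subtype.ext h)
  intro σ hσ
  exact mem_coe.2 (mem_filter.2 ⟨σ.2, hF σ hσ⟩)

end

theorem random_main (P J : Type) [Fintype P] [DecidableEq P] [Fintype J] [DecidableEq J]
    (q c : ℕ) (Pi : Finset (P × P)) (hPi : Pi.card < (q + 1) ^ 2) :
    ∃ C₁ : ℕ, ∀ K : ℕ, ∃ g m : ℕ, 2 ≤ g ∧ 0 < m ∧ ∀ S : Slots P J, S.Good q c (2 * m) Pi →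
      ∀ c₀ : S.U, ∃ σ : S.Matching, (S.graph σ).Girth g ∧ (S.graph σ).Loc K C₁ g c₀ := by
  rcases Nat.eq_zero_or_pos Pi.card with hp | hp
  · rw [Finset.card_eq_zero] at hp
    subst hp
    refine ⟨1, fun K => ⟨4, ballB (Fintype.card P) 4 + 1, by norm_num, Nat.succ_pos _,
      fun S hS c₀ => ?_⟩⟩
    obtain ⟨σ, hσ⟩ := S.girthSet_nonempty 4 hS.bal (fun j r => lt_of_lt_of_le (by nlinarith)
      (hS.low j r))
    exact ⟨σ, (mem_filter.1 hσ).2, rnd_empty hS σ K le_rfl c₀⟩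
  obtain ⟨C₁, hC₁⟩ := numeric_main Pi.card (q + 1) (Fintype.card P) c hp hPi
  refine ⟨C₁, fun K => ?_⟩
  obtain ⟨B, hB⟩ := few_bad K
  obtain ⟨B', hB'⟩ := skeleton_count K J
  obtain ⟨g, m, hg, hm, hlt, hnum⟩ := hC₁ K B B'
  refine ⟨g, m, hg, hm, fun S hS c₀ => ?_⟩
  obtain ⟨Sk, _, hSk, sk, hsk⟩ := hB' g hg (P := P) (T := S.HU) c₀ S.ιU S.ιW
  by_contra hcon
  push Not at hcon
  set G := S.girthSet g with hG
  have hGne : G.Nonempty := S.girthSet_nonempty g hS.bal (fun j r =>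
    lt_of_lt_of_le (by omega) (hS.low j r))
  have hwit : ∀ σ : G, ∃ M : RMap (S.graph σ.1).pres, M.area ≤ K * g ∧ nArcs M ≤ K ∧
      nIrr M ≤ K ∧ C₁ * (nUS M + g * (nArcs M - nPin M c₀)) + g < 2 * M.area := by
    rintro ⟨σ, hσ⟩
    have := hcon σ (mem_filter.1 hσ).2
    unfold Loc at this
    push Not at this
    exact this
  choose wit hA harcs hirr hfail using hwit
  have hgirth : ∀ σ : G, (S.graph σ.1).Girth g := fun σ => (mem_filter.1 σ.2).2
  let s : G → Sk := fun σ => sk (S.graph σ.1) (wit σ)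
  have hfib : ∀ x : Sk,
      2 * (g + 2) ^ B' * (Finset.univ.filter fun σ : G => s σ = x).card < G.card := by
    intro x
    rcases (Finset.univ.filter fun σ : G => s σ = x).eq_empty_or_nonempty with h | ⟨σ₀, h₀⟩
    · rw [h]; simpa using hGne
    have h₀ : s σ₀ = x := (mem_filter.1 h₀).2
    obtain ⟨hb1, hb2⟩ := hB (S.graph σ₀.1) g hg (hgirth σ₀) (wit σ₀) (hA σ₀) (harcs σ₀)
    obtain ⟨fr, l1, l2, l3, l4, l5⟩ := level_main (M := wit σ₀) Pi (B := B)
      (fun t => by unfold mult; convert hb1 t) (by convert hb2) c₀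
    obtain ⟨j, hj, hjlt⟩ := hnum _ _ _ _ _ (fun j => Fintype.card (Lev (wit σ₀) j))
      (fun j => cnt2 (uL (wit σ₀) j) c₀)
      (fun j => cnt1 (uL (wit σ₀) j) c₀ + cntI (wL (wit σ₀) j)) fr
      (harcs σ₀) (hirr σ₀) l2 l3 l4 l5 (hfail σ₀)
    set E := Fintype.card (Lev (wit σ₀) j) with hE
    have hEA : E ≤ K * g := by
      refine le_trans ?_ (hA σ₀)
      rw [← l2]
      exact Finset.single_le_sum (f := fun j => Fintype.card (Lev (wit σ₀) j))
        (fun _ _ => Nat.zero_le _) (mem_range.2 hj)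
    have hD : ((q + 1) * (2 * m) - K * g - ballB (Fintype.card P) g) ^ E ≤
        ((q + 1) * (2 * m) - E - ballB (Fintype.card P) g) ^ E :=
      Nat.pow_le_pow_left (by omega) _
    have hexp := rnd_exp S g (2 * m + c) ((q + 1) * (2 * m) + c) ((q + 1) * (2 * m)) c₀
      hS.pair hS.up (fun j r => hS.bal j r ▸ hS.up j r) hS.low
      (uL (wit σ₀) j) (wL (wit σ₀) j) c₀ (fun d => S.ιU (uL (wit σ₀) j d)) (Lam (wit σ₀) Pi j)
      (Finset.univ.filter fun σ : G => s σ = x) (by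
        intro σ hσ
        obtain ⟨θ, t1, t2, t3, t4, t5⟩ := hsk _ _ (wit σ₀) (wit σ) (hgirth σ₀) (hgirth σ)
          (rnd_col _) (rnd_col _) (hA σ₀) (harcs σ₀) (hirr σ₀) (hA σ) (harcs σ) (hirr σ)
          (h₀.trans (mem_filter.1 hσ).2.symm)
        exact rnd_realise hS hg c₀ σ₀.1 σ.1 (hgirth σ₀) (hgirth σ) _ _ θ t1 t2 t3 t4 t5 j)
    set f := (Finset.univ.filter fun σ : G => s σ = x).card
    set D := ((q + 1) * (2 * m) - K * g - ballB (Fintype.card P) g) ^ E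
    set V := (2 * m + c) ^ cnt2 (uL (wit σ₀) j) c₀ * ((q + 1) * (2 * m) + c) ^
      (cnt1 (uL (wit σ₀) j) c₀ + cntI (wL (wit σ₀) j)) with hV
    have h1 : f * D ≤ G.card * (Lam (wit σ₀) Pi j).card * V := by
      refine le_trans (Nat.mul_le_mul_left _ hD) ?_
      exact hexp.trans (le_of_eq (mul_assoc _ _ _))
    have h2 : G.card * (Lam (wit σ₀) Pi j).card * V ≤
        G.card * (Pi.card ^ fr j * (Fintype.card P + 1) ^ B * V) := by
      rw [mul_assoc]
      exact Nat.mul_le_mul_left _ (Nat.mul_le_mul_right _ (l1 j))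
    have h3 : 2 * (g + 2) ^ B' * (Pi.card ^ fr j * (Fintype.card P + 1) ^ B * V) < D := by
      refine lt_of_eq_of_lt ?_ hjlt
      rw [hV]; ring
    have hGpos : 0 < G.card := hGne.card_pos
    refine Nat.lt_of_mul_lt_mul_right (a := D) ?_
    calc 2 * (g + 2) ^ B' * f * D = 2 * (g + 2) ^ B' * (f * D) := by ring
      _ ≤ 2 * (g + 2) ^ B' * (G.card * (Pi.card ^ fr j * (Fintype.card P + 1) ^ B * V)) :=
        Nat.mul_le_mul_left _ (h1.trans h2)
      _ = G.card * (2 * (g + 2) ^ B' * (Pi.card ^ fr j * (Fintype.card P + 1) ^ B * V)) := by ring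
      _ < G.card * D := Nat.mul_lt_mul_of_pos_left h3 hGpos
  have hsum : G.card = ∑ x : Sk, (Finset.univ.filter fun σ : G => s σ = x).card := by
    rw [← Finset.card_eq_sum_card_fiberwise (f := s) (s := Finset.univ) (t := Finset.univ)
      (fun _ _ => mem_univ _)]
    simp
  have h1 : 2 * (g + 2) ^ B' * G.card ≤ Fintype.card Sk * G.card := by
    conv_lhs => rw [hsum, Finset.mul_sum]
    calc _ ≤ ∑ _x : Sk, G.card := Finset.sum_le_sum fun x _ => (hfib x).le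
      _ = _ := by simp
  have h2 := Nat.le_of_mul_le_mul_right h1 hGne.card_pos
  have h3 : 0 < (g + 2) ^ B' := by positivity
  omega

end Crest.Agent.R177
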