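import Crest.Agent.R177.VKAux2

/-! van Kampen's lemma with reduction, in permutation form (task VK). -/

set_option autoImplicit false

namespace Crest.Agent.R177

open Equiv VK in
theorem vk {α T : Type} (Q : TriPres α T) {w : List (α × Bool)} {z : (Q.Grp × T) →₀ ℤ}
    (h : Q.Null w z) :
    ∃ M : RMap Q, M.Disc ∧
      (∃ pos : M.I → Q.Grp,
        ∑ i, Finsupp.single (pos i, (M.ty i).1) (sgn (M.ty i).2) = -z) ∧
      ∃ f : {d : M.I × Fin 3 // M.ε d = d} → Fin w.length, Function.Injective f ∧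
        ∀ d, M.lab d.1 = linv (w.get (f d)) := by
  classical
  rcases isEmpty_or_nonempty α with hα | ⟨⟨s₀⟩⟩
  · have hT : IsEmpty T := ⟨fun t => hα.false (Q.a t)⟩
    refine ⟨⟨Empty, fun i => i.elim, 1, fun _ => rfl, fun d => d.1.elim, fun d => d.1.elim⟩,
      ⟨genus_one _, fun u => u.1.elim⟩, ⟨fun i => i.elim, Subsingleton.elim _ _⟩,
      fun d => d.1.1.elim, fun d => d.1.1.elim, fun d => d.1.1.elim⟩
  obtain ⟨D, _, _, lab, pos, φ₀, ε₀, out, ts₀, hst₀, hout, hlab₀, hz⟩ := (null_cl (s₀, true) h).2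
  obtain ⟨ts, φ, ε, hst, hlab, hsum, hred⟩ := reduce out _ ts₀ φ₀ ε₀ rfl hst₀ hlab₀
  obtain ⟨ε', hinv, hdisc, hcut, hkeep⟩ := hst.cut_out
  have hw : out.map lab = w := by
    rw [← path_snd (Q := Q) 1 w, ← hout, List.map_map]
    rfl
  subst hw
  have hn := hst.nodup
  rw [List.flatten_cons, List.nodup_append, List.nodup_flatten, List.pairwise_map] at hn
  obtain ⟨hn1, ⟨hn2, hn3⟩, hn4⟩ := hn
  have hmem : ∀ (t : (Fin 3 → D) × (T × Bool)) (k : Fin 3), t.1 k ∈ tface t := by
    intro t k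
    fin_cases k <;> simp [tface]
  have hnd : ts.Nodup := hn3.imp (fun {a b} hab e => by
    subst e
    exact hab (hmem a 0) (hmem a 0))
  have hdis : ∀ t ∈ ts, ∀ t' ∈ ts, t ≠ t' → List.Disjoint (tface t) (tface t') := by
    have : Std.Symm (fun a b : (Fin 3 → D) × (T × Bool) => (tface a).Disjoint (tface b)) :=
      ⟨fun _ _ hab => List.Disjoint.symm hab⟩
    exact fun t ht t' ht' hne => hn3.forall ht ht' hne
  let tri : (↥ts.toFinset) × Fin 3 → D := fun d => d.1.1.1 d.2
  have hts : ∀ i : ↥ts.toFinset, i.1 ∈ ts := fun i => List.mem_toFinset.1 i.2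
  have hfs : ∀ i : ↥ts.toFinset, tface i.1 ∈ out :: ts.map tface := fun i =>
    List.mem_cons_of_mem _ (List.mem_map_of_mem (hts i))
  have htri : Function.Injective tri := by
    rintro ⟨i, k⟩ ⟨j, l⟩ hij
    have e : i = j := by
      by_contra hne
      refine hdis _ (hts i) _ (hts j) (fun e => hne (Subtype.ext e)) (hmem i.1 k) ?_
      have : i.1.1 k = j.1.1 l := hij
      rw [this]
      exact hmem j.1 l
    subst e
    have h3 := hn2 _ (List.mem_map_of_mem (f := tface) (hts i))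
    have hkl : i.1.1 k = i.1.1 l := hij
    simp only [tface, List.nodup_cons, List.mem_cons, List.not_mem_nil, or_false, not_or] at h3
    obtain ⟨⟨h01, h02⟩, h12, -⟩ := h3
    congr 1
    fin_cases k <;> fin_cases l <;>
      first | rfl | exact absurd hkl h01 | exact absurd hkl h02 | exact absurd hkl h12 |
        exact absurd hkl.symm h01 | exact absurd hkl.symm h02 | exact absurd hkl.symm h12
  have hlive : ∀ d, ε (tri d) ≠ tri d := fun d => (hst.tri_face (hfs d.1)).2.2.2 d.2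
  have hno : ∀ d, tri d ∉ out := fun d hd =>
    hn4 _ hd _ (List.mem_flatten.2 ⟨_, List.mem_map_of_mem (hts d.1), hmem _ d.2⟩) rfl
  have hex : ∀ d, ∃ d', tri d' = ε' (tri d) := by
    intro d
    by_cases h1 : ε (tri d) ∈ out
    · exact ⟨d, (hcut _ (Or.inr h1)).symm⟩
    rw [hkeep _ (hno d) h1]
    have h2 : ε (tri d) ∈ (out :: ts.map tface).flatten :=
      (hst.live _).1 (by rw [hst.invol]; exact (hlive d).symm)
    rw [List.flatten_cons, List.mem_append] at h2
    obtain ⟨l, hl, h3⟩ := List.mem_flatten.1 (h2.resolve_left h1)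
    obtain ⟨t, ht, rfl⟩ := List.mem_map.1 hl
    simp only [tface, List.mem_cons, List.not_mem_nil, or_false] at h3
    rcases h3 with h3 | h3 | h3
    · exact ⟨(⟨t, List.mem_toFinset.2 ht⟩, 0), h3.symm⟩
    · exact ⟨(⟨t, List.mem_toFinset.2 ht⟩, 1), h3.symm⟩
    · exact ⟨(⟨t, List.mem_toFinset.2 ht⟩, 2), h3.symm⟩
  choose e he using hex
  have hee : Function.Involutive e := fun d => htri (by rw [he, he, hinv])
  have hmatch : ∀ d, e d ≠ d → tri (e d) = ε (tri d) := by
    intro d hd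
    have h1 : ε (tri d) ∉ out := fun h1 => hd (htri (by rw [he, hcut _ (Or.inr h1)]))
    rw [he, hkeep _ (hno d) h1]
  have hl : ∀ d, lab (tri d) = Q.side d.1.1.2 d.2 := fun d => hlab _ (hts d.1) d.2
  refine ⟨⟨↥ts.toFinset, fun i => i.1.2, hee.toPerm, hee, ?_, ?_⟩, ?_, ⟨fun i => pos (i.1.1 0), ?_⟩,
    ?_⟩
  · intro d hd
    change Q.side (e d).1.1.2 (e d).2 = linv (Q.side d.1.1.2 d.2)
    rw [← hl, ← hl, hmatch d hd, hst.labε _ (hlive d)]
  · rintro d hd ⟨h1, h2⟩
    refine hred _ (hts d.1) _ (hts (e d).1) d.2 ?_ h1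
    have h2' : (e d).2 = Fin.rev d.2 := h2
    rw [← h2']
    exact (hmatch d hd).symm
  · refine DiscLike.of_embed tri htri ?_ he hdisc
    rintro ⟨i, k⟩
    obtain ⟨f0, f1, f2, -⟩ := hst.tri_face (hfs i)
    fin_cases k
    · exact f0.symm
    · exact f1.symm
    · exact f2.symm
  · rw [← hz, ← hsum, ← List.sum_toFinset _ hnd]
    exact Finset.sum_coe_sort ts.toFinset (chain pos)
  · have hin : ∀ d : {d // e d = d}, ∃ n : Fin (out.map lab).length,
        out[n.1]'(by simpa using n.2) = ε (tri d.1) := by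
      intro d
      have h1 : ε (tri d.1) ∈ out := by
        by_contra h1
        exact hlive d.1 (by rw [← hkeep _ (hno d.1) h1, ← he, d.2])
      obtain ⟨n, hn, h2⟩ := List.mem_iff_getElem.1 h1
      exact ⟨⟨n, by simpa using hn⟩, h2⟩
    choose f hf using hin
    refine ⟨f, fun d d' hdd => ?_, fun d => ?_⟩
    · refine Subtype.ext (htri (ε.injective ?_))
      rw [← hf, ← hf]
      simp only [hdd]
    · change Q.side d.1.1.1.2 d.1.2 = _
      rw [← hl, List.get_eq_getElem, List.getElem_map, hf, hst.labε _ (hlive _), linv_linv]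

end Crest.Agent.R177
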