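import Crest.Agent.R177.Alg
import Crest.Agent.R177.VK
import Crest.Agent.R177.Iso
import Crest.Agent.R177.Euler
import Crest.Agent.R177.Random
import Crest.Agent.R177.Design

/-! Assembly: the random graph presentations are aspherical, satisfy a linear isoperimetric
inequality, and the pinned vertex is not identified with another vertex. -/

set_option autoImplicit false

namespace Crest.Agent.R177

open BGraph

theorem main_bw_le {α T : Type} {Q : TriPres α T} (M : RMap Q) (wt : α → ℕ) (g n : ℕ)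
    (hwt : ∀ x, wt x ≤ g) (f : {d : M.I × Fin 3 // M.ε d = d} → Fin n)
    (hf : Function.Injective f) : M.bw wt ≤ g * n := by
  classical
  unfold RMap.bw
  have h1 : (Finset.univ.filter (fun d : M.I × Fin 3 => M.ε d = d)).card ≤ n := by
    have := Fintype.card_le_of_injective f hf
    rw [Fintype.card_subtype, Fintype.card_fin] at this
    exact this
  calc ∑ d ∈ Finset.univ.filter (fun d : M.I × Fin 3 => M.ε d = d), wt (M.lab d).1
      ≤ ∑ _d ∈ Finset.univ.filter (fun d : M.I × Fin 3 => M.ε d = d), g :=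
        Finset.sum_le_sum fun d _ => hwt _
    _ = (Finset.univ.filter (fun d : M.I × Fin 3 => M.ε d = d)).card * g := by simp
    _ ≤ n * g := Nat.mul_le_mul_right _ h1
    _ = g * n := Nat.mul_comm _ _

theorem main_l1_le {ι β : Type} [Fintype ι] (p : ι → β) (s : ι → Bool) :
    ((-(∑ i, Finsupp.single (p i) (sgn (s i)) : β →₀ ℤ)).sum fun _ n => n.natAbs) ≤
      Fintype.card ι := by
  classical
  have key : ∀ (t : Finset ι),
      ((∑ i ∈ t, Finsupp.single (p i) (sgn (s i)) : β →₀ ℤ).sum fun _ n => n.natAbs) ≤ t.card := by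
    intro t
    induction t using Finset.induction_on with
    | empty => simp
    | insert a t ha ih =>
      rw [Finset.sum_insert ha, Finset.card_insert_of_notMem ha]
      set u : β →₀ ℤ := Finsupp.single (p a) (sgn (s a)) with hu
      set v : β →₀ ℤ := ∑ i ∈ t, Finsupp.single (p i) (sgn (s i)) with hv
      have hsub : ((u + v).sum fun _ n => n.natAbs) ≤
          (u.sum fun _ n => n.natAbs) + (v.sum fun _ n => n.natAbs) := by
        rw [Finsupp.sum_of_support_subset (u + v) Finsupp.support_add _ (by simp),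
          Finsupp.sum_of_support_subset u (Finset.subset_union_left (s₂ := v.support)) _ (by simp),
          Finsupp.sum_of_support_subset v (Finset.subset_union_right (s₁ := u.support)) _ (by simp),
          ← Finset.sum_add_distrib]
        exact Finset.sum_le_sum fun x _ => Int.natAbs_add_le _ _
      have hu1 : (u.sum fun _ n => n.natAbs) = 1 := by
        rw [hu, Finsupp.sum_single_index (by simp)]
        cases s a <;> simp [sgn]
      omega
  have h2 : ((-(∑ i, Finsupp.single (p i) (sgn (s i)) : β →₀ ℤ)).sum fun _ n => n.natAbs) =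
      ((∑ i, Finsupp.single (p i) (sgn (s i)) : β →₀ ℤ).sum fun _ n => n.natAbs) := by
    rw [Finsupp.sum_neg_index (by simp)]
    simp
  rw [h2]
  simpa using key Finset.univ

theorem graph_main (P J : Type) [Fintype P] [DecidableEq P] [Fintype J] [DecidableEq J]
    (q c : ℕ) (Pi : Finset (P × P)) (hPi : Pi.card < (q + 1) ^ 2) :
    ∃ m : ℕ, 0 < m ∧ ∀ S : Slots P J, S.Good q c (2 * m) Pi → ∀ c₀ : S.U, ∃ σ : S.Matching,
      (S.graph σ).pres.Asph ∧ (S.graph σ).pres.LinIso ∧
      ∀ x : S.U, (S.graph σ).pres.gen (Sum.inr (Sum.inl x)) =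
        (S.graph σ).pres.gen (Sum.inr (Sum.inl c₀)) → x = c₀ := by
  classical
  obtain ⟨C₁, hC₁⟩ := random_main P J q c Pi hPi
  obtain ⟨K, hK⟩ := iso_main (C₁ + 1)
  obtain ⟨K', hK'⟩ := euler_main C₁ (K + 4 * (C₁ + 1))
  obtain ⟨g, m, hg, hm, hgm⟩ := hC₁ K'
  refine ⟨m, hm, fun S hS c₀ => ?_⟩
  obtain ⟨σ, hgirth, hloc⟩ := hgm S hS c₀
  obtain ⟨e1, e2, e3⟩ := hK' (S.graph σ) g c₀ hg hgirth hloc
  have hiso := hK (S.graph σ).pres (wt P S.U S.W g) g (by omega) (fun _ => rfl) (fun _ => rfl)
    (fun _ => rfl) e1 (fun M hM hA => e2 M hM (hA.trans (Nat.mul_le_mul_right _ (by omega))))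
  have hwt : ∀ x, wt P S.U S.W g x ≤ g := by
    rintro (x | x) <;> simp [wt]
    omega
  refine ⟨σ, ?_, ?_, ?_⟩
  · rw [TriPres.Asph, injective_iff_map_eq_zero]
    intro z hz
    obtain ⟨M, hM, ⟨pos, hpos⟩, f, hf, -⟩ := vk _ ((S.graph σ).pres.null_nil_of_d2 hz)
    have h1 := main_bw_le M _ g _ hwt f hf
    have h2 := hiso M hM
    have h3 : M.area = 0 := by
      simp only [List.length_nil, mul_zero, Nat.le_zero] at h1
      rw [h1] at h2; simpa using h2
    haveI : IsEmpty M.I := Fintype.card_eq_zero_iff.mp h3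
    simpa using hpos.symm
  · refine ⟨2 * (C₁ + 1) * g, fun w hw => ?_⟩
    obtain ⟨z, hz⟩ := (S.graph σ).pres.null_of_ev hw
    obtain ⟨M, hM, ⟨pos, hpos⟩, f, hf, -⟩ := vk _ hz
    refine ⟨z, hz.d2_eq, ?_⟩
    have h1 := main_bw_le M _ g _ hwt f hf
    have h2 := hiso M hM
    have h3 := main_l1_le (fun i => (pos i, (M.ty i).1)) (fun i => (M.ty i).2)
    rw [hpos, neg_neg] at h3
    calc _ ≤ M.area := h3
      _ ≤ _ := h2
      _ ≤ 2 * (C₁ + 1) * (g * w.length) := Nat.mul_le_mul_left _ h1
      _ = _ := by ring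
  · intro x hx
    by_contra hne
    set Q := (S.graph σ).pres with hQ
    let w : List ((P ⊕ (S.U ⊕ S.W)) × Bool) :=
      [(Sum.inr (Sum.inl c₀), true), (Sum.inr (Sum.inl x), false)]
    have hw : Q.ev w = 1 := by
      simp [w, TriPres.ev, TriPres.letter, hx]
    obtain ⟨z, hz⟩ := Q.null_of_ev hw
    obtain ⟨M, hM, ⟨pos, hpos⟩, f, hf, hlab⟩ := vk _ hz
    have h1 := main_bw_le M _ g _ hwt f hf
    have h2 := hiso M hM
    have hA : M.area ≤ (K + 4 * (C₁ + 1)) * g := by
      have : w.length = 2 := rfl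
      rw [this] at h1
      calc M.area ≤ 2 * (C₁ + 1) * (g * 2) := h2.trans (Nat.mul_le_mul_left _ h1)
        _ = (4 * (C₁ + 1)) * g := by ring
        _ ≤ _ := Nat.mul_le_mul_right _ (by omega)
    have hUS : nUS M = 0 := by
      unfold nUS
      rw [Finset.card_eq_zero, Finset.filter_eq_empty_iff]
      intro i _ hi
      have := hlab ⟨(i, 1), hi⟩
      generalize f ⟨(i, 1), hi⟩ = k at this
      rcases hty : M.ty i with ⟨t, b⟩
      fin_cases k <;> cases b <;>
        simp [RMap.lab, hty, TriPres.side, linv, w, hQ, BGraph.pres] at this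
    have hArcs : nArcs M ≤ 1 := by
      unfold nArcs
      rw [Finset.card_le_one]
      intro i hi j hj
      simp only [Finset.mem_filter, Finset.mem_univ, true_and] at hi hj
      have key : ∀ i (hi : M.ε (i, 2) = (i, 2)), f ⟨(i, 2), hi⟩ = ⟨0, by simp [w]⟩ := by
        intro i hi
        have := hlab ⟨(i, 2), hi⟩
        generalize f ⟨(i, 2), hi⟩ = k at this
        rcases hty : M.ty i with ⟨t, b⟩
        fin_cases k
        · rfl
        · cases b <;> simp [RMap.lab, hty, TriPres.side, linv, w] at this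
      have := hf ((key i hi).trans (key j hj).symm)
      simpa using this
    have hpin := e3 M hM hA hUS hArcs
    have hno : ∀ i : M.I, (S.graph σ).u (M.ty i).1 ≠ c₀ := by
      intro i hi
      simp only [nPin] at hpin
      rw [if_pos ⟨i, hi⟩] at hpin
      exact one_ne_zero hpin
    have hd := hz.d2_eq
    have hz' : z = -∑ i, Finsupp.single (pos i, (M.ty i).1) (sgn (M.ty i).2) := by
      rw [hpos, neg_neg]
    have hcoef := congrArg (fun c => c (1, (Sum.inr (Sum.inl c₀) : P ⊕ (S.U ⊕ S.W)))) hd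
    simp only [hz', map_neg, map_sum, Finsupp.neg_apply, Finsupp.finset_sum_apply] at hcoef
    have hl : ∀ i : M.I, (Q.d2 (Finsupp.single (pos i, (M.ty i).1) (sgn (M.ty i).2)))
        (1, (Sum.inr (Sum.inl c₀) : P ⊕ (S.U ⊕ S.W))) = 0 := by
      intro i
      have := hno i
      simp [TriPres.d2, Finsupp.linearCombination_single, hQ, BGraph.pres, Finsupp.single_apply,
        this]
    rw [Finset.sum_eq_zero fun i _ => hl i] at hcoef
    simp [w, TriPres.ch, TriPres.edgeCh, Finsupp.single_apply, hne] at hcoef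

end Crest.Agent.R177
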