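import Crest.Agent.R177.Defs

/-! Basic API for reduced maps over the presentation of a bipartite labelled graph. -/

set_option autoImplicit false

namespace Crest.Agent.R177

namespace BGraph

variable {P U W T : Type} {Γ : BGraph P U W T}

theorem side_zero (τ : T × Bool) : Γ.pres.side τ 0 = (Sum.inr (Γ.src τ), true) := by
  rcases τ with ⟨t, _ | _⟩ <;> simp [TriPres.side, pres, src]

theorem side_one (τ : T × Bool) : Γ.pres.side τ 1 = (Sum.inl (Γ.lab τ.1), τ.2) := by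
  rcases τ with ⟨t, _ | _⟩ <;> simp [TriPres.side, pres]

theorem side_two (τ : T × Bool) : Γ.pres.side τ 2 = (Sum.inr (Γ.tgt τ), false) := by
  rcases τ with ⟨t, _ | _⟩ <;> simp [TriPres.side, pres, tgt]

theorem sign_of_tgt_eq_src {e e' : T × Bool} (h : Γ.tgt e = Γ.src e') : e'.2 = !e.2 := by
  rcases e with ⟨t, _ | _⟩ <;> rcases e' with ⟨t', _ | _⟩ <;> simp_all [src, tgt]

theorem Step.sign {e e' : T × Bool} (h : Γ.Step e e') : e'.2 = !e.2 := sign_of_tgt_eq_src h.1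

theorem Step.edge_ne {e e' : T × Bool} (h : Γ.Step e e') : e'.1 ≠ e.1 := by
  intro h1
  exact h.2 (Prod.ext h1 h.sign)

theorem src_ne_tgt (e : T × Bool) : Γ.src e ≠ Γ.tgt e := by
  rcases e with ⟨t, _ | _⟩ <;> simp [src, tgt]

theorem src_flip (e : T × Bool) : Γ.src (e.1, !e.2) = Γ.tgt e := by
  rcases e with ⟨t, _ | _⟩ <;> simp [src, tgt]

theorem tgt_flip (e : T × Bool) : Γ.tgt (e.1, !e.2) = Γ.src e := by
  rcases e with ⟨t, _ | _⟩ <;> simp [src, tgt]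

theorem inc_inl {e : T × Bool} {x : U} :
    (Γ.src e = Sum.inl x ∨ Γ.tgt e = Sum.inl x) ↔ Γ.u e.1 = x := by
  rcases e with ⟨t, _ | _⟩ <;> simp [src, tgt]

theorem inc_inr {e : T × Bool} {y : W} :
    (Γ.src e = Sum.inr y ∨ Γ.tgt e = Sum.inr y) ↔ Γ.w e.1 = y := by
  rcases e with ⟨t, _ | _⟩ <;> simp [src, tgt]

theorem inc_of_edge_eq {e e' : T × Bool} (h : e'.1 = e.1) {x : U ⊕ W}
    (hx : Γ.src e = x ∨ Γ.tgt e = x) : Γ.src e' = x ∨ Γ.tgt e' = x := by
  rcases x with x | y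
  · rw [inc_inl] at hx ⊢; rw [h, hx]
  · rw [inc_inr] at hx ⊢; rw [h, hx]

/-- girth `> 2` excludes double edges -/
theorem Girth.edge_eq {g : ℕ} (h : Γ.Girth g) (hg : 2 ≤ g) {t t' : T} (hu : Γ.u t = Γ.u t')
    (hw : Γ.w t = Γ.w t') : t = t' := by
  by_contra hne
  have := h (t, true) [(t', false)] (by
    simp only [List.isChain_cons_cons, List.IsChain.singleton, and_true]
    exact ⟨by simp [src, tgt, hw], by simpa using fun h => hne h.symm⟩) (by simp [src, tgt, hu])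
  simp at this
  omega

variable (M : RMap Γ.pres)

/-- next triangle in the fan -/
def nx (i : M.I) : M.I := (M.ε (i, 2)).1
/-- previous triangle in the fan -/
def pv (i : M.I) : M.I := (M.ε (i, 0)).1
/-- triangle across the label side -/
def mt (i : M.I) : M.I := (M.ε (i, 1)).1

variable {M}

theorem eps2 {i : M.I} (h : M.ε (i, 2) ≠ (i, 2)) :
    M.ε (i, 2) = (nx M i, 0) ∧ Γ.Step (M.ty i) (M.ty (nx M i)) := by
  have h1 := M.lab_inv _ h
  have h2 := M.red _ h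
  unfold nx
  rcases he : M.ε (i, 2) with ⟨j, k⟩
  rw [he] at h1 h2
  simp only [side_two, linv] at h1
  fin_cases k
  · simp only [Fin.zero_eta, side_zero, Prod.mk.injEq, Sum.inr.injEq] at h1
    refine ⟨rfl, h1.1.symm, fun h3 => h2 ⟨h3, rfl⟩⟩
  · simp [side_one] at h1
  · simp [side_two] at h1

theorem eps0 {i : M.I} (h : M.ε (i, 0) ≠ (i, 0)) :
    M.ε (i, 0) = (pv M i, 2) ∧ Γ.Step (M.ty (pv M i)) (M.ty i) := by
  have h1 := M.lab_inv _ h
  have h2 := M.red _ h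
  unfold pv
  rcases he : M.ε (i, 0) with ⟨j, k⟩
  rw [he] at h1 h2
  simp only [side_zero, linv] at h1
  fin_cases k
  · simp [side_zero] at h1
  · simp [side_one] at h1
  · simp only [Fin.reduceFinMk, side_two, Prod.mk.injEq, Sum.inr.injEq] at h1
    refine ⟨rfl, h1.1, fun h3 => h2 ⟨?_, rfl⟩⟩
    simp only at h3 ⊢
    rw [h3]; simp

theorem eps1 {i : M.I} (h : M.ε (i, 1) ≠ (i, 1)) :
    M.ε (i, 1) = (mt M i, 1) ∧ Γ.lab (M.ty (mt M i)).1 = Γ.lab (M.ty i).1 ∧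
      (M.ty (mt M i)).2 = !(M.ty i).2 ∧ (M.ty (mt M i)).1 ≠ (M.ty i).1 := by
  have h1 := M.lab_inv _ h
  have h2 := M.red _ h
  unfold mt
  rcases he : M.ε (i, 1) with ⟨j, k⟩
  rw [he] at h1 h2
  simp only [side_one, linv] at h1
  fin_cases k
  · simp [side_zero] at h1
  · simp only [Fin.mk_one, side_one, Prod.mk.injEq, Sum.inl.injEq] at h1
    exact ⟨rfl, h1.1, h1.2, fun h3 => h2 ⟨Prod.ext h3 h1.2, rfl⟩⟩
  · simp [side_two] at h1

theorem eps_nx {i : M.I} (h : M.ε (i, 2) ≠ (i, 2)) : M.ε (nx M i, 0) = (i, 2) := by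
  rw [← (eps2 h).1, M.invol]

theorem eps_pv {i : M.I} (h : M.ε (i, 0) ≠ (i, 0)) : M.ε (pv M i, 2) = (i, 0) := by
  rw [← (eps0 h).1, M.invol]

theorem eps_mt {i : M.I} (h : M.ε (i, 1) ≠ (i, 1)) : M.ε (mt M i, 1) = (i, 1) := by
  rw [← (eps1 h).1, M.invol]

theorem pv_nx {i : M.I} (h : M.ε (i, 2) ≠ (i, 2)) : pv M (nx M i) = i := by
  unfold pv; rw [eps_nx h]

theorem nx_pv {i : M.I} (h : M.ε (i, 0) ≠ (i, 0)) : nx M (pv M i) = i := by
  unfold nx; rw [eps_pv h]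

theorem mt_mt (i : M.I) : mt M (mt M i) = i := by
  by_cases h : M.ε (i, 1) = (i, 1)
  · simp [mt, h]
  · conv_lhs => unfold mt
    rw [show (M.ε (i, 1)).1 = mt M i from rfl, eps_mt h]

theorem nx_matched {i : M.I} (h : M.ε (i, 2) ≠ (i, 2)) : M.ε (nx M i, 0) ≠ (nx M i, 0) := by
  rw [eps_nx h]; simp

theorem pv_matched {i : M.I} (h : M.ε (i, 0) ≠ (i, 0)) : M.ε (pv M i, 2) ≠ (pv M i, 2) := by
  rw [eps_pv h]; simp

theorem mt_matched {i : M.I} (h : M.ε (i, 1) ≠ (i, 1)) : M.ε (mt M i, 1) ≠ (mt M i, 1) := by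
  rw [eps_mt h]
  intro h2
  exact (eps1 h).2.2.2 (by rw [← (Prod.mk.inj h2).1])

theorem nx_inj {i j : M.I} (hi : M.ε (i, 2) ≠ (i, 2)) (hj : M.ε (j, 2) ≠ (j, 2))
    (h : nx M i = nx M j) : i = j := by
  rw [← pv_nx hi, h, pv_nx hj]

theorem reg_iff {i : M.I} : Reg M i ↔ M.ε (i, 2) ≠ (i, 2) ∧ M.ε (i, 1) ≠ (i, 1) ∧
    M.ε (nx M i, 1) ≠ (nx M i, 1) ∧ M.ε (mt M (nx M i), 2) = (mt M i, 0) := Iff.rfl

theorem irr_iff {i : M.I} : Irr M i ↔ M.ε (i, 2) ≠ (i, 2) ∧ ¬ Reg M i ∧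
    ¬ (M.ε (i, 1) = (i, 1) ∧ M.ε (nx M i, 1) = (nx M i, 1)) := Iff.rfl

/-- at a regular corner, `next (mat (next i)) = mat i` -/
theorem Reg.nx_mt_nx {i : M.I} (h : Reg M i) : nx M (mt M (nx M i)) = mt M i := by
  conv_lhs => unfold nx
  rw [show (M.ε (i, 2)).1 = nx M i from rfl, (reg_iff.1 h).2.2.2]

/-- the opposite corner of a regular corner is regular -/
theorem Reg.opp {i : M.I} (h : Reg M i) : Reg M (mt M (nx M i)) := by
  have h' := reg_iff.1 h
  refine reg_iff.2 ⟨by rw [h'.2.2.2]; simp, mt_matched h'.2.2.1, ?_, ?_⟩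
  · rw [h.nx_mt_nx]; exact mt_matched h'.2.1
  · rw [h.nx_mt_nx, mt_mt, mt_mt]; exact (eps2 h'.1).1

theorem Reg.opp_opp {i : M.I} (h : Reg M i) : mt M (nx M (mt M (nx M i))) = i := by
  rw [h.nx_mt_nx, mt_mt]

theorem card_unmatched_zero (M : RMap Γ.pres) :
    (Finset.univ.filter fun i : M.I => M.ε (i, 0) = (i, 0)).card = nArcs M := by
  unfold nArcs
  have h : (Finset.univ.filter fun i : M.I => ¬ M.ε (i, 2) = (i, 2)).card =
      (Finset.univ.filter fun i : M.I => ¬ M.ε (i, 0) = (i, 0)).card := by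
    refine Finset.card_bij (fun i _ => nx M i) ?_ ?_ ?_
    · intro i hi
      simp only [Finset.mem_filter, Finset.mem_univ, true_and] at hi ⊢
      exact nx_matched hi
    · intro i hi j hj h
      simp only [Finset.mem_filter, Finset.mem_univ, true_and] at hi hj
      exact nx_inj hi hj h
    · intro j hj
      simp only [Finset.mem_filter, Finset.mem_univ, true_and] at hj
      exact ⟨pv M j, by simpa using pv_matched hj, nx_pv hj⟩
  have h1 := Finset.card_filter_add_card_filter_not (s := (Finset.univ : Finset M.I))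
    (fun i : M.I => M.ε (i, 0) = (i, 0))
  have h2 := Finset.card_filter_add_card_filter_not (s := (Finset.univ : Finset M.I))
    (fun i : M.I => M.ε (i, 2) = (i, 2))
  omega

end BGraph

end Crest.Agent.R177
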