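import Crest.Agent.R177.Main
import Crest.Agent.R177.Det

/-! The group ring identities. -/

set_option autoImplicit false

namespace Crest.Agent.R177

theorem ring_halfedge_sum {P J V A : Type} [Fintype P] [DecidableEq P] [DecidableEq J] [Fintype V]
    [DecidableEq V] [AddCommMonoid A] (τ : V → Finset P) (ι : V → J) (j j' : J)
    (Φ : V → V → P → A) :
    ∑ x ∈ Finset.univ.filter (fun x => ι x = j), ∑ x' ∈ Finset.univ.filter (fun x => ι x = j'),
      ∑ r ∈ τ x ∩ τ x', Φ x x' r =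
    ∑ p ∈ Finset.univ.filter (fun p : {p : V × P // p.2 ∈ τ p.1} × {p : V × P // p.2 ∈ τ p.1} =>
      p.1.1.2 = p.2.1.2 ∧ ι p.1.1.1 = j ∧ ι p.2.1.1 = j'), Φ p.1.1.1 p.2.1.1 p.1.1.2 := by
  simp only [Finset.sum_sigma']
  symm
  refine Finset.sum_bij (fun p _ => ⟨p.1.1.1, ⟨p.2.1.1, p.1.1.2⟩⟩) ?_ ?_ ?_ ?_
  · rintro ⟨⟨⟨x, r⟩, hx⟩, ⟨⟨x', r'⟩, hx'⟩⟩ hp
    simp only [Finset.mem_filter, Finset.mem_univ, true_and] at hp
    obtain ⟨rfl, h1, h2⟩ := hp
    simp_all
  · rintro ⟨⟨⟨x, r⟩, hx⟩, ⟨⟨x', r'⟩, hx'⟩⟩ hp ⟨⟨⟨y, s⟩, hy⟩, ⟨⟨y', s'⟩, hy'⟩⟩ hq h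
    simp only [Finset.mem_filter, Finset.mem_univ, true_and] at hp hq
    obtain ⟨rfl, -, -⟩ := hp
    obtain ⟨rfl, -, -⟩ := hq
    simp only [Sigma.mk.injEq, heq_eq_eq] at h
    obtain ⟨rfl, rfl, rfl⟩ := h
    rfl
  · rintro ⟨x, x', r⟩ h
    simp only [Finset.mem_sigma, Finset.mem_filter, Finset.mem_univ, true_and,
      Finset.mem_inter] at h
    exact ⟨(⟨(x, r), h.2.2.1⟩, ⟨(x', r), h.2.2.2⟩), by simp [h.1, h.2.1], rfl⟩
  · intro p _
    rfl

theorem ring_double_count {P J A : Type} [Fintype P] [DecidableEq P] [DecidableEq J]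
    [AddCommMonoid A] (S : Slots P J) (σ : S.Matching) (j j' : J) (F : S.U → S.U → A)
    (Gf : S.W → S.W → P → A)
    (hFG : ∀ h h' : S.HU, h.1.2 = h'.1.2 → S.ιU h.1.1 = j → S.ιU h'.1.1 = j' →
      F h.1.1 h'.1.1 = Gf (σ.1 h).1.1 (σ.1 h').1.1 h.1.2) :
    ∑ x ∈ Finset.univ.filter (fun x => S.ιU x = j),
      ∑ x' ∈ Finset.univ.filter (fun x => S.ιU x = j'), (S.τU x ∩ S.τU x').card • F x x' =
    ∑ y ∈ Finset.univ.filter (fun y => S.ιW y = j),
      ∑ y' ∈ Finset.univ.filter (fun y => S.ιW y = j'), ∑ r ∈ S.τW y ∩ S.τW y', Gf y y' r := by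
  have h1 := ring_halfedge_sum S.τU S.ιU j j' (fun x x' _ => F x x')
  simp only [Finset.sum_const] at h1
  rw [h1, ring_halfedge_sum S.τW S.ιW j j' Gf]
  refine Finset.sum_bij (fun p _ => (σ.1 p.1, σ.1 p.2)) ?_ ?_ ?_ ?_
  · rintro ⟨h, h'⟩ hp
    simp only [Finset.mem_filter, Finset.mem_univ, true_and] at hp ⊢
    rw [(σ.2 h).1, (σ.2 h').1, (σ.2 h).2, (σ.2 h').2]
    exact hp
  · rintro ⟨h, h'⟩ _ ⟨k, k'⟩ _ hh
    simp only [Prod.mk.injEq, EmbeddingLike.apply_eq_iff_eq] at hh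
    exact Prod.ext hh.1 hh.2
  · rintro ⟨k, k'⟩ hk
    obtain ⟨h, rfl⟩ := σ.1.surjective k
    obtain ⟨h', rfl⟩ := σ.1.surjective k'
    refine ⟨(h, h'), ?_, rfl⟩
    simp only [Finset.mem_filter, Finset.mem_univ, true_and] at hk ⊢
    rw [(σ.2 h).1, (σ.2 h').1, (σ.2 h).2, (σ.2 h').2] at hk
    exact hk
  · rintro ⟨h, h'⟩ hp
    simp only [Finset.mem_filter, Finset.mem_univ, true_and] at hp
    simp only [(σ.2 h).1]
    exact hFG h h' hp.1 hp.2.1 hp.2.2

theorem pres_rel {α T : Type} (Q : TriPres α T) (t : T) :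
    Q.gen (Q.a t) * Q.gen (Q.b t) = Q.gen (Q.c t) := by
  have h : (PresentedGroup.mk Q.rels)
      (FreeGroup.of (Q.a t) * FreeGroup.of (Q.b t) * (FreeGroup.of (Q.c t))⁻¹) = 1 :=
    PresentedGroup.one_of_mem ⟨t, rfl⟩
  rw [map_mul, map_mul, map_inv, mul_inv_eq_one] at h
  exact h

/-- The characteristic two example. -/
theorem char_two_main : ∃ (α T : Type) (_ : Fintype α) (_ : Fintype T) (Q : TriPres α T)
    (deg : α → ℕ), (∀ x, 0 < deg x) ∧ (∀ t, deg (Q.c t) = deg (Q.a t) + deg (Q.b t)) ∧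
    Q.Asph ∧ Q.LinIso ∧ ∃ a b c : MonoidAlgebra (ZMod 2) Q.Grp, a * b = 1 ∧ a * c = 0 ∧ c ≠ 0 := by
  classical
  obtain ⟨P, _, _, q, c, Pi, hPi, hdes⟩ := design_two
  obtain ⟨m, hm, hmain⟩ := graph_main P (Fin 3) q c Pi hPi
  obtain ⟨S, hS, hodd, ⟨yA, yB, hyA, hyB, hAB⟩, hAC, c₀, hc₀⟩ := hdes m hm
  obtain ⟨σ, hasph, hlin, hpin⟩ := hmain S hS c₀
  set Q := (S.graph σ).pres with hQ
  refine ⟨P ⊕ (S.U ⊕ S.W), S.HU, inferInstance, inferInstance, Q,
    Sum.elim (fun _ => 1) (Sum.elim (fun _ => 1) (fun _ => 2)), ?_, fun _ => rfl, hasph, hlin, ?_⟩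
  · rintro (x | x | x) <;> simp
  let cU : S.U → Q.Grp := fun x => Q.gen (Sum.inr (Sum.inl x))
  let cW : S.W → Q.Grp := fun y => Q.gen (Sum.inr (Sum.inr y))
  let o : Q.Grp →* MonoidAlgebra (ZMod 2) Q.Grp := MonoidAlgebra.of (ZMod 2) Q.Grp
  have hrel : ∀ h : S.HU, cU h.1.1 * Q.gen (Sum.inl h.1.2) = cW (σ.1 h).1.1 :=
    fun h => pres_rel Q h
  have h2 : ∀ x : MonoidAlgebra (ZMod 2) Q.Grp, 2 • x = 0 := by
    intro x
    rw [← Nat.cast_smul_eq_nsmul (ZMod 2)]
    have : ((2 : ℕ) : ZMod 2) = 0 := rfl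
    rw [this, zero_smul]
  have hodd' : ∀ (n : ℕ) (x : MonoidAlgebra (ZMod 2) Q.Grp), Odd n → n • x = x := by
    rintro n x ⟨k, rfl⟩
    rw [add_smul, mul_smul, h2, one_smul, zero_add]
  have heven' : ∀ (n : ℕ) (x : MonoidAlgebra (ZMod 2) Q.Grp), Even n → n • x = 0 := by
    rintro n x ⟨k, rfl⟩
    rw [← two_mul, mul_smul, h2]
  have key : ∀ j' : Fin 3,
      (∑ x ∈ Finset.univ.filter (fun x => S.ιU x = 0), o (cU x)) *
        (∑ x ∈ Finset.univ.filter (fun x => S.ιU x = j'), o (cU x)⁻¹) =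
      ∑ y ∈ Finset.univ.filter (fun y => S.ιW y = 0),
        ∑ y' ∈ Finset.univ.filter (fun y => S.ιW y = j'),
          (S.τW y ∩ S.τW y').card • o (cW y * (cW y')⁻¹) := by
    intro j'
    have := ring_double_count S σ 0 j' (fun x x' => o (cU x * (cU x')⁻¹))
      (fun y y' _ => o (cW y * (cW y')⁻¹)) (by
        intro h h' hh _ _
        rw [← hrel h, ← hrel h', ← hh]
        congr 1
        group)
    simp only [Finset.sum_const] at this
    rw [← this, Finset.sum_mul_sum]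
    refine Finset.sum_congr rfl fun x _ => Finset.sum_congr rfl fun x' _ => ?_
    rw [hodd' _ _ (hodd x x'), map_mul]
  refine ⟨∑ x ∈ Finset.univ.filter (fun x => S.ιU x = 0), o (cU x),
    (∑ x ∈ Finset.univ.filter (fun x => S.ιU x = 1), o (cU x)⁻¹) * o (cW yA * (cW yB)⁻¹)⁻¹,
    ∑ x ∈ Finset.univ.filter (fun x => S.ιU x = 2), o (cU x)⁻¹, ?_, ?_, ?_⟩
  · rw [← mul_assoc, key 1, Finset.sum_eq_single yA, Finset.sum_eq_single yB,
      hodd' _ _ ((hAB yA yB hyA hyB).2 ⟨rfl, rfl⟩), ← map_mul, mul_inv_cancel, map_one]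
    · intro y' hy' hne
      refine heven' _ _ (Nat.not_odd_iff_even.mp fun h => hne ?_)
      exact ((hAB yA y' hyA (by simpa using hy')).1 h).2
    · intro h; exact absurd (by simpa using hyB) h
    · intro y hy hne
      refine Finset.sum_eq_zero fun y' hy' => ?_
      refine heven' _ _ (Nat.not_odd_iff_even.mp fun h => hne ?_)
      exact ((hAB y y' (by simpa using hy) (by simpa using hy')).1 h).1
    · intro h; exact absurd (by simpa using hyA) h
  · rw [key 2]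
    refine Finset.sum_eq_zero fun y hy => Finset.sum_eq_zero fun y' hy' => ?_
    exact heven' _ _ (hAC y y' (by simpa using hy) (by simpa using hy'))
  · intro h
    have h1 := congrArg (fun f : MonoidAlgebra (ZMod 2) Q.Grp => f.coeff (cU c₀)⁻¹) h
    simp only [MonoidAlgebra.coeff_sum, Finsupp.finsetSum_apply] at h1
    rw [Finset.sum_eq_single c₀] at h1
    · simp [o] at h1
    · intro x _ hne
      have : (cU x)⁻¹ ≠ (cU c₀)⁻¹ := fun h => hne (hpin x (inv_injective h))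
      simp [o, this]
    · intro h; exact absurd (by simpa using hc₀) h

/-- The odd characteristic example. -/
theorem leavitt_main (p : ℕ) (hp : p.Prime) (hodd : Odd p) : Leavitt p := by
  classical
  obtain ⟨P, _, _, q, c, Pi, hPi, hdes⟩ := design_odd p hp hodd
  obtain ⟨m, hm, hmain⟩ := graph_main P (Bool × Fin 2) q c Pi hPi
  obtain ⟨S, hS, hone, ⟨c₀⟩, f, yA, yB, hyA, hyB, hAB⟩ := hdes m hm
  obtain ⟨σ, hasph, -, -⟩ := hmain S hS c₀
  set Q := (S.graph σ).pres with hQ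
  obtain ⟨H, _, z, φ, hfg, hz1, hz2, hzc, hrel⟩ := TriPres.Asph.central_ext Q hasph
    (fun h : S.HU => (S.ιU h.1.1).1 = false ∧ f (σ.1 h).1.1 h.1.2 = false)
  refine ⟨H, inferInstance, z, hfg, hz1, hz2, hzc, ?_⟩
  haveI : Fact p.Prime := ⟨hp⟩
  let cU : S.U → H := fun x => φ (Sum.inr (Sum.inl x))
  let cW : S.W → H := fun y => φ (Sum.inr (Sum.inr y))
  let o : H →* MonoidAlgebra (ZMod p) H := MonoidAlgebra.of (ZMod p) H
  set e : MonoidAlgebra (ZMod p) H := 1 - o z with he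
  have hez : e * o z = -e := by
    rw [he, sub_mul, ← map_mul, hz2, map_one, one_mul, neg_sub]
  have hrelA : ∀ h : S.HU, (S.ιU h.1.1).1 = false → cU h.1.1 * φ (Sum.inl h.1.2) =
      cW (σ.1 h).1.1 * (if f (σ.1 h).1.1 h.1.2 then 1 else z) := by
    intro h hh
    have : cU h.1.1 * φ (Sum.inl h.1.2) = cW (σ.1 h).1.1 * _ := hrel h
    cases hf : f (σ.1 h).1.1 h.1.2 <;> simpa [hh, hf] using this
  have hrelB : ∀ h : S.HU, (S.ιU h.1.1).1 = true → cU h.1.1 * φ (Sum.inl h.1.2) =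
      cW (σ.1 h).1.1 := by
    intro h hh
    have : cU h.1.1 * φ (Sum.inl h.1.2) = cW (σ.1 h).1.1 * _ := hrel h
    simpa [hh] using this
  have h2 : (2 : ZMod p) ≠ 0 := by
    intro h
    have h' : ((2 : ℕ) : ZMod p) = 0 := by exact_mod_cast h
    rw [ZMod.natCast_eq_zero_iff] at h'
    have := (Nat.prime_dvd_prime_iff_eq hp Nat.prime_two).mp h'
    subst this
    exact absurd hodd (by decide)
  have key : ∀ i j : Fin 2,
      (e * ∑ x ∈ Finset.univ.filter (fun x => S.ιU x = (false, i)), o (cU x)) *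
        (∑ x ∈ Finset.univ.filter (fun x => S.ιU x = (true, j)), o (cU x)⁻¹) =
      if i = j then (2 : ℤ) • (e * o (cW (yA i) * (cW (yB j))⁻¹)) else 0 := by
    intro i j
    have := ring_double_count S σ (false, i) (true, j) (fun x x' => e * o (cU x * (cU x')⁻¹))
      (fun y y' r => sgn (f y r) • (e * o (cW y * (cW y')⁻¹))) (by
        intro h h' hh h1 h2
        have a1 := hrelA h (by rw [h1])
        have a2 := hrelB h' (by rw [h2])
        have a3 : cU h.1.1 * (cU h'.1.1)⁻¹ = (if f (σ.1 h).1.1 h.1.2 then 1 else z) *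
            (cW (σ.1 h).1.1 * (cW (σ.1 h').1.1)⁻¹) := by
          have : cU h.1.1 * (cU h'.1.1)⁻¹ = (cU h.1.1 * φ (Sum.inl h.1.2)) *
            (cU h'.1.1 * φ (Sum.inl h'.1.2))⁻¹ := by rw [← hh]; group
          rw [this, a1, a2]
          split_ifs
          · simp
          · rw [hzc, mul_assoc]
        rw [a3]
        cases hf : f (σ.1 h).1.1 h.1.2
        · simp only [sgn, Bool.false_eq_true, if_false]
          rw [map_mul, ← mul_assoc, hez]
          simp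
        · simp [sgn])
    simp only [← Finset.sum_smul] at this
    have hL : (e * ∑ x ∈ Finset.univ.filter (fun x => S.ιU x = (false, i)), o (cU x)) *
        (∑ x ∈ Finset.univ.filter (fun x => S.ιU x = (true, j)), o (cU x)⁻¹) =
        ∑ x ∈ Finset.univ.filter (fun x => S.ιU x = (false, i)),
          ∑ x' ∈ Finset.univ.filter (fun x => S.ιU x = (true, j)),
            (S.τU x ∩ S.τU x').card • (e * o (cU x * (cU x')⁻¹)) := by
      rw [mul_assoc, Finset.sum_mul_sum, Finset.mul_sum]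
      refine Finset.sum_congr rfl fun x _ => ?_
      rw [Finset.mul_sum]
      refine Finset.sum_congr rfl fun x' _ => ?_
      rw [← Nat.cast_smul_eq_nsmul (ZMod p), hone x x', one_smul, map_mul]
    rw [hL, this]
    by_cases hij : i = j
    · subst hij
      rw [if_pos rfl, Finset.sum_eq_single (yA i), Finset.sum_eq_single (yB i),
        hAB i i _ _ (hyA i) (hyB i), if_pos ⟨rfl, rfl, rfl⟩]
      · intro y' hy' hne
        rw [hAB i i _ _ (hyA i) (by simpa using hy'), if_neg (fun h => hne h.2.2), zero_smul]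
      · intro h; exact absurd (by simpa using hyB i) h
      · intro y hy hne
        refine Finset.sum_eq_zero fun y' hy' => ?_
        rw [hAB i i _ _ (by simpa using hy) (by simpa using hy'), if_neg (fun h => hne h.2.1),
          zero_smul]
      · intro h; exact absurd (by simpa using hyA i) h
    · rw [if_neg hij]
      refine Finset.sum_eq_zero fun y hy => Finset.sum_eq_zero fun y' hy' => ?_
      rw [hAB i j _ _ (by simpa using hy) (by simpa using hy'), if_neg (fun h => hij h.1),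
        zero_smul]
  refine ⟨fun i => e * ∑ x ∈ Finset.univ.filter (fun x => S.ιU x = (false, i)), o (cU x),
    fun j => (∑ x ∈ Finset.univ.filter (fun x => S.ιU x = (true, j)), o (cU x)⁻¹) *
      ((2 : ZMod p)⁻¹ • o (cW (yA j) * (cW (yB j))⁻¹)⁻¹), fun i j => ?_⟩
  rw [← mul_assoc, key]
  by_cases hij : i = j
  · subst hij
    rw [if_pos rfl, if_pos rfl, ← Int.cast_smul_eq_zsmul (ZMod p), smul_mul_smul_comm, mul_assoc,
      ← map_mul, mul_inv_cancel, map_one, mul_one]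
    rw [show ((2 : ℤ) : ZMod p) = 2 by norm_cast, mul_inv_cancel₀ h2, one_smul]
  · rw [if_neg hij, if_neg hij, zero_mul]

end Crest.Agent.R177
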