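import Crest.Agent.R177.SwitchAux

/-! Matchings of large girth: existence, switching bound, first-moment bound (task SWITCH). -/

set_option autoImplicit false
set_option linter.unusedSectionVars false

namespace Crest.Agent.R177

namespace Slots

variable {P J : Type} [Fintype P] [DecidableEq P] [DecidableEq J] (S : Slots P J)

/-- `U`-end of a potential edge -/
def swS (a : S.HU × S.HW) : S.U ⊕ S.W := Sum.inl a.1.1.1

/-- `W`-end of a potential edge -/
def swT (a : S.HU × S.HW) : S.U ⊕ S.W := Sum.inr a.2.1.1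

/-- the edges of `σ` at the half-edges in `F` -/
def swE (σ : S.Matching) (F : S.HU → Prop) (a : S.HU × S.HW) : Prop := F a.1 ∧ a.2 = σ.1 a.1

/-- colour of a `U`-half-edge -/
def swCU (h : S.HU) : J × P := (S.ιU h.1.1, h.1.2)

/-- colour of a `W`-half-edge -/
def swCW (k : S.HW) : J × P := (S.ιW k.1.1, k.1.2)

theorem sw_col (σ : S.Matching) (h : S.HU) : S.swCW (σ.1 h) = S.swCU h :=
  Prod.ext (σ.2 h).2 (σ.2 h).1

/-- the switched matching -/
def swSwap (σ : S.Matching) (h h' : S.HU) (hc : S.swCU h' = S.swCU h) : S.Matching :=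
  ⟨(Equiv.swap h h').trans σ.1, fun a => by
    have h1 : S.swCU (Equiv.swap h h' a) = S.swCU a := by
      rw [Equiv.swap_apply_def]
      split_ifs with e1 e2
      · rw [hc, e1]
      · rw [← hc, e2]
      · rfl
    have h2 := (S.sw_col σ (Equiv.swap h h' a)).trans h1
    exact ⟨congrArg Prod.snd h2, congrArg Prod.fst h2⟩⟩

theorem swSwap_apply (σ : S.Matching) (h h' : S.HU) (hc : S.swCU h' = S.swCU h) (a : S.HU) :
    (S.swSwap σ h h' hc).1 a = σ.1 (Equiv.swap h h' a) := rfl

/-- `h'` has the colour of `h` and is far from both ends of the edge at `h` -/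
def swGood (g : ℕ) (σ : S.Matching) (h h' : S.HU) : Prop :=
  S.swCU h' = S.swCU h ∧
    ¬ Sw.Near S.swS S.swT (S.swE σ fun _ => True) (g + 1) (Sum.inl h.1.1) (Sum.inl h'.1.1) ∧
    ¬ Sw.Near S.swS S.swT (S.swE σ fun _ => True) (g + 1) (Sum.inr (σ.1 h).1.1) (Sum.inl h'.1.1)

theorem swGood.ne {g : ℕ} {σ : S.Matching} {h h' : S.HU} (H : S.swGood g σ h h') : h' ≠ h := by
  rintro rfl
  exact H.2.1 ⟨[], rfl, by simp⟩

theorem sw_switch {g : ℕ} {σ : S.Matching} {h h' : S.HU} (H : S.swGood g σ h h')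
    {F : S.HU → Prop} (hG : Sw.Gi S.swS S.swT (S.swE σ F) g) :
    Sw.Gi S.swS S.swT (S.swE (S.swSwap σ h h' H.1) fun a => a = h ∨ F a) g := by
  have hne : h' ≠ h := H.ne
  set E₀ : S.HU × S.HW → Prop := S.swE σ fun a => F a ∧ a ≠ h ∧ a ≠ h' with hE₀
  have hsub : ∀ a, E₀ a → S.swE σ F a := fun a ha => ⟨ha.1.1, ha.2⟩
  have hsub' : ∀ a, E₀ a → S.swE σ (fun _ => True) a := fun a ha => ⟨trivial, ha.2⟩
  -- the new edges
  have hnew : ∀ a : S.HU × S.HW, S.swE (S.swSwap σ h h' H.1) (fun a => a = h ∨ F a) a → ¬ E₀ a →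
      a = (h, σ.1 h') ∨ (a = (h', σ.1 h) ∧ F h') := by
    rintro ⟨a, k⟩ ⟨h1, h2⟩ h3
    dsimp only at h1 h2
    rw [swSwap_apply] at h2
    by_cases e1 : a = h
    · left
      rw [e1, Equiv.swap_apply_left] at h2
      rw [e1, h2]
    · by_cases e2 : a = h'
      · right
        rw [e2, Equiv.swap_apply_right] at h2
        refine ⟨by rw [e2, h2], ?_⟩
        rw [← e2]
        exact h1.resolve_left e1
      · exfalso
        rw [Equiv.swap_apply_of_ne_of_ne e1 e2] at h2
        exact h3 ⟨⟨h1.resolve_left e1, e1, e2⟩, h2⟩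
  -- no short walks between the near and the far vertices
  have hfar : ∀ (u v : S.U ⊕ S.W) (l : List ((S.HU × S.HW) × Bool)),
      (u = Sum.inl h'.1.1 ∨ u = Sum.inr (σ.1 h').1.1) →
      (v = Sum.inl h.1.1 ∨ v = Sum.inr (σ.1 h).1.1) →
      Sw.Wk S.swS S.swT E₀ u l v → l.length ≤ g → False := by
    intro u v l hu hv hw hl
    obtain ⟨l', hw', hl'⟩ := (hw.mono hsub').symm
    have : Sw.Near S.swS S.swT (S.swE σ fun _ => True) (g + 1) v (Sum.inl h'.1.1) := by
      rcases hu with rfl | rfl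
      · exact ⟨l', hw', by omega⟩
      · refine ⟨l' ++ [((h', σ.1 h'), false)], Sw.wk_append.2 ⟨_, hw', ⟨trivial, rfl⟩, rfl, rfl⟩, ?_⟩
        simp only [List.length_append, List.length_singleton]
        omega
    rcases hv with rfl | rfl
    · exact H.2.1 this
    · exact H.2.2 this
  have hc0 : ¬ E₀ (h', σ.1 h') := fun ha => ha.1.2.2 rfl
  refine Sw.key (E₀ := E₀) (fun v => v = Sum.inl h'.1.1 ∨ v = Sum.inr (σ.1 h').1.1)
    (hG.mono hsub) ?_ ?_
  · rintro ⟨a, b⟩ h1 h2
    rcases hnew a h1 h2 with rfl | ⟨rfl, -⟩ <;> cases b <;> simp [Sw.src, Sw.tgt, swS, swT]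
  · rintro ⟨a, b⟩ ⟨a', b'⟩ l h1 h2 h3 h4 h5 h6 h7
    rcases hnew a h1 h2 with rfl | ⟨rfl, hF⟩ <;> cases b
    · exact (hfar _ _ [] h5 (Or.inl rfl) rfl (by simp)).elim
    · rcases hnew a' h3 h4 with rfl | ⟨rfl, hF'⟩ <;> cases b'
      · rfl
      · exact (hfar _ _ l h5 (Or.inl rfl) h6 h7.le).elim
      · exact (hfar _ _ l h5 (Or.inr rfl) h6 h7.le).elim
      · have := Sw.long_of_edge (c := ((h', σ.1 h'), true)) hG hsub ⟨hF', rfl⟩ hc0 h6
        omega
    · rcases hnew a' h3 h4 with rfl | ⟨rfl, hF'⟩ <;> cases b'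
      · have := Sw.long_of_edge (c := ((h', σ.1 h'), false)) hG hsub ⟨hF, rfl⟩ hc0 h6
        omega
      · exact (hfar _ _ l h5 (Or.inl rfl) h6 h7.le).elim
      · exact (hfar _ _ l h5 (Or.inr rfl) h6 h7.le).elim
      · rfl
    · exact (hfar _ _ [] h5 (Or.inr rfl) rfl (by simp)).elim

open Classical in
theorem sw_deg (σ : S.Matching) (u : S.U ⊕ S.W) :
    (Finset.univ.filter fun e : (S.HU × S.HW) × Bool =>
      S.swE σ (fun _ => True) e.1 ∧ Sw.src S.swS S.swT e = u).card ≤ Fintype.card P := by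
  rw [← Finset.card_univ]
  refine Finset.card_le_card_of_injOn (fun e => e.1.1.1.2) (fun _ _ => Finset.mem_univ _) ?_
  rintro ⟨⟨a, k⟩, b⟩ he ⟨⟨a', k'⟩, b'⟩ he' hl
  obtain ⟨⟨-, h1⟩, h2⟩ := (Finset.mem_filter.1 (Finset.mem_coe.1 he)).2
  obtain ⟨⟨-, h1'⟩, h2'⟩ := (Finset.mem_filter.1 (Finset.mem_coe.1 he')).2
  dsimp only at h1 h1' hl
  subst h1 h1'
  have h3 := h2.trans h2'.symm
  cases b <;> cases b' <;> simp only [Sw.src, swS, swT, Bool.false_eq_true, if_true, if_false,
    Sum.inl.injEq, Sum.inr.injEq, reduceCtorEq] at h3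
  · have : a = a' := (S.graph σ).foldW a a' h3 hl
    rw [this]
  · have : a = a' := (S.graph σ).foldU a a' h3 hl
    rw [this]

open Classical in
theorem sw_card_colU (c : J × P) :
    (Finset.univ.filter fun h : S.HU => S.swCU h = c).card = S.cntU c.1 c.2 := by
  unfold cntU
  refine Finset.card_bij (fun h _ => h.1.1) ?_ ?_ ?_
  · intro h hh
    have h1 := (Finset.mem_filter.1 hh).2
    refine Finset.mem_filter.2 ⟨Finset.mem_univ _, ?_, ?_⟩
    · rw [← h1]; rfl
    · rw [← h1]; exact h.2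
  · intro h hh h' hh' e
    have h1 := (Finset.mem_filter.1 hh).2.trans (Finset.mem_filter.1 hh').2.symm
    exact Subtype.ext (Prod.ext e (Prod.mk.inj h1).2)
  · intro x hx
    obtain ⟨-, h1, h2⟩ := Finset.mem_filter.1 hx
    exact ⟨⟨(x, c.2), h2⟩, Finset.mem_filter.2 ⟨Finset.mem_univ _, Prod.ext h1 rfl⟩, rfl⟩

open Classical in
theorem sw_card_colW (c : J × P) :
    (Finset.univ.filter fun k : S.HW => S.swCW k = c).card = S.cntW c.1 c.2 := by
  unfold cntW
  refine Finset.card_bij (fun h _ => h.1.1) ?_ ?_ ?_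
  · intro h hh
    have h1 := (Finset.mem_filter.1 hh).2
    refine Finset.mem_filter.2 ⟨Finset.mem_univ _, ?_, ?_⟩
    · rw [← h1]; rfl
    · rw [← h1]; exact h.2
  · intro h hh h' hh' e
    have h1 := (Finset.mem_filter.1 hh).2.trans (Finset.mem_filter.1 hh').2.symm
    exact Subtype.ext (Prod.ext e (Prod.mk.inj h1).2)
  · intro x hx
    obtain ⟨-, h1, h2⟩ := Finset.mem_filter.1 hx
    exact ⟨⟨(x, c.2), h2⟩, Finset.mem_filter.2 ⟨Finset.mem_univ _, Prod.ext h1 rfl⟩, rfl⟩

open Classical in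
theorem sw_card_good (g : ℕ) (σ : S.Matching) (h : S.HU) :
    S.cntU (S.swCU h).1 (S.swCU h).2 ≤
      (Finset.univ.filter fun h' => S.swGood g σ h h').card + ballB (Fintype.card P) g := by
  rw [← sw_card_colU]
  have hb := fun u => Sw.card_near_le (s := S.swS) (t := S.swT) (E := S.swE σ fun _ => True)
    (n := Fintype.card P) (fun v => by convert S.sw_deg σ v) (g + 1) u
  set B₁ := Finset.univ.filter fun v =>
    Sw.Near S.swS S.swT (S.swE σ fun _ => True) (g + 1) (Sum.inl h.1.1) v with hB₁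
  set B₂ := Finset.univ.filter fun v =>
    Sw.Near S.swS S.swT (S.swE σ fun _ => True) (g + 1) (Sum.inr (σ.1 h).1.1) v with hB₂
  have h1 : (Finset.univ.filter fun h' : S.HU => S.swCU h' = S.swCU h ∧ ¬ S.swGood g σ h h').card ≤
      (B₁ ∪ B₂).card := by
    refine Finset.card_le_card_of_injOn (fun h' => Sum.inl h'.1.1) ?_ ?_
    · intro h' hh'
      obtain ⟨-, h1, h2⟩ := Finset.mem_filter.1 (Finset.mem_coe.1 hh')
      rw [Finset.mem_coe, Finset.mem_union, hB₁, hB₂, Finset.mem_filter, Finset.mem_filter]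
      by_contra hcon
      apply h2
      refine ⟨h1, fun h3 => hcon (Or.inl ⟨Finset.mem_univ _, h3⟩),
        fun h3 => hcon (Or.inr ⟨Finset.mem_univ _, h3⟩)⟩
    · intro a ha a' ha' e
      have h1 := (Finset.mem_filter.1 (Finset.mem_coe.1 ha)).2.1.trans
        (Finset.mem_filter.1 (Finset.mem_coe.1 ha')).2.1.symm
      exact Subtype.ext (Prod.ext (Sum.inl.inj e) (Prod.mk.inj h1).2)
  have h2 : (B₁ ∪ B₂).card ≤ ballB (Fintype.card P) g := by
    refine (Finset.card_union_le _ _).trans ?_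
    have : B₁.card ≤ (Fintype.card P + 1) ^ (g + 1) := by convert hb (Sum.inl h.1.1)
    have : B₂.card ≤ (Fintype.card P + 1) ^ (g + 1) := by convert hb (Sum.inr (σ.1 h).1.1)
    unfold ballB
    omega
  have h3 : (Finset.univ.filter fun h' : S.HU => S.swCU h' = S.swCU h) ⊆
      (Finset.univ.filter fun h' => S.swGood g σ h h') ∪
      (Finset.univ.filter fun h' : S.HU => S.swCU h' = S.swCU h ∧ ¬ S.swGood g σ h h') := by
    intro a ha
    rw [Finset.mem_union, Finset.mem_filter, Finset.mem_filter]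
    by_cases hg : S.swGood g σ h a
    · exact Or.inl ⟨Finset.mem_univ _, hg⟩
    · exact Or.inr ⟨Finset.mem_univ _, (Finset.mem_filter.1 ha).2, hg⟩
  have h4 := (Finset.card_le_card h3).trans (Finset.card_union_le _ _)
  omega

theorem sw_wk_of_chain (σ : S.Matching) (e : S.HU × Bool) (l : List (S.HU × Bool))
    (hc : List.IsChain (S.graph σ).Step (e :: l)) :
    Sw.Wk S.swS S.swT (S.swE σ fun _ => True) ((S.graph σ).src e)
      ((e :: l).map fun a => ((a.1, σ.1 a.1), a.2))
      ((S.graph σ).tgt ((e :: l).getLast (List.cons_ne_nil _ _))) ∧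
    Sw.NB ((e :: l).map fun a => ((a.1, σ.1 a.1), a.2)) := by
  induction l generalizing e with
  | nil => exact ⟨⟨⟨trivial, rfl⟩, rfl, rfl⟩, List.isChain_singleton _⟩
  | cons e' l ih =>
    obtain ⟨⟨h1, h2⟩, h3⟩ := List.isChain_cons_cons.1 hc
    obtain ⟨h4, h5⟩ := ih e' h3
    refine ⟨⟨⟨trivial, rfl⟩, rfl, ?_⟩, List.isChain_cons_cons.2 ⟨?_, h5⟩⟩
    · rw [← h1] at h4
      exact h4
    · intro h6
      apply h2
      exact Prod.ext (congrArg (fun a => a.1.1) h6) (congrArg (fun a => a.2) h6)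

theorem sw_chain_of_wk (σ : S.Matching) (e : (S.HU × S.HW) × Bool)
    (l : List ((S.HU × S.HW) × Bool)) (u v : S.U ⊕ S.W)
    (hw : Sw.Wk S.swS S.swT (S.swE σ fun _ => True) u (e :: l) v) (hn : Sw.NB (e :: l)) :
    List.IsChain (S.graph σ).Step ((e.1.1, e.2) :: l.map fun a => (a.1.1, a.2)) ∧
    (S.graph σ).src (e.1.1, e.2) = u ∧
    (S.graph σ).tgt (((e.1.1, e.2) :: l.map fun a => (a.1.1, a.2)).getLast
      (List.cons_ne_nil _ _)) = v := by
  induction l generalizing e u with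
  | nil =>
    obtain ⟨⟨a, k⟩, b⟩ := e
    obtain ⟨⟨-, h1⟩, h2, h3⟩ := hw
    dsimp only at h1
    subst h1
    exact ⟨List.isChain_singleton _, h2, h3⟩
  | cons e' l ih =>
    obtain ⟨⟨a, k⟩, b⟩ := e
    obtain ⟨⟨-, h1⟩, h2, h3⟩ := hw
    dsimp only at h1
    subst h1
    obtain ⟨h4, h5⟩ := List.isChain_cons_cons.1 hn
    obtain ⟨h6, h7, h8⟩ := ih e' _ h3 h5
    refine ⟨List.isChain_cons_cons.2 ⟨⟨h7.symm, ?_⟩, h6⟩, h2, h8⟩
    intro h9
    apply h4
    obtain ⟨⟨a', k'⟩, b'⟩ := e'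
    obtain ⟨⟨-, h10⟩, -⟩ := h3
    dsimp only at h10 h9
    subst h10
    obtain ⟨rfl, rfl⟩ := Prod.mk.inj h9
    rfl

theorem sw_girth_iff (σ : S.Matching) (g : ℕ) :
    (S.graph σ).Girth g ↔ Sw.Gi S.swS S.swT (S.swE σ fun _ => True) g := by
  constructor
  · intro H v l hw hn hne
    cases l with
    | nil => exact absurd rfl hne
    | cons e l =>
      obtain ⟨h1, h2, h3⟩ := S.sw_chain_of_wk σ e l v v hw hn
      have := H _ _ h1 (h3.trans h2.symm)
      simpa using this
  · intro H e l hc hcl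
    obtain ⟨h1, h2⟩ := S.sw_wk_of_chain σ e l hc
    rw [hcl] at h1
    have := H _ _ h1 h2 (by simp)
    simpa using this

open Classical in
theorem sw_mem_girthSet (σ : S.Matching) (g : ℕ) :
    σ ∈ S.girthSet g ↔ Sw.Gi S.swS S.swT (S.swE σ fun _ => True) g := by
  rw [← sw_girth_iff]
  simp [girthSet]

theorem sw_exists_matching (bal : ∀ j r, S.cntU j r = S.cntW j r) : Nonempty S.Matching := by
  classical
  have e : ∀ c : J × P, {h : S.HU // S.swCU h = c} ≃ {k : S.HW // S.swCW k = c} := fun c =>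
    Fintype.equivOfCardEq (by
      rw [Fintype.card_subtype, Fintype.card_subtype]
      have h1 := S.sw_card_colU c
      have h2 := S.sw_card_colW c
      rw [bal, ← h2] at h1
      convert h1)
  refine ⟨⟨Equiv.ofFiberEquiv e, fun h => ?_⟩⟩
  have := Equiv.ofFiberEquiv_map e h
  exact ⟨congrArg Prod.snd this, congrArg Prod.fst this⟩

open Classical in
theorem sw_step (g m : ℕ) (hm : ∀ j r, m ≤ S.cntU j r) (F : Finset S.HU) (f : S.HU → S.HW)
    (h : S.HU) (hF : h ∉ F) :
    ((S.girthSet g).filter fun σ => ∀ a ∈ insert h F, σ.1 a = f a).card *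
      (m - F.card - ballB (Fintype.card P) g) ≤
    ((S.girthSet g).filter fun σ => ∀ a ∈ F, σ.1 a = f a).card := by
  set 𝒜 := (S.girthSet g).filter fun σ => ∀ a ∈ insert h F, σ.1 a = f a with h𝒜
  set G : S.Matching → Finset S.HU := fun σ =>
    (Finset.univ.filter fun h' => S.swGood g σ h h') \ F with hG
  have h1 : ∀ σ, m - F.card - ballB (Fintype.card P) g ≤ (G σ).card := by
    intro σ
    have a1 := S.sw_card_good g σ h
    have a2 := hm (S.swCU h).1 (S.swCU h).2
    have a3 := Finset.le_card_sdiff F (Finset.univ.filter fun h' => S.swGood g σ h h')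
    simp only [hG]
    omega
  have h2 : 𝒜.card * (m - F.card - ballB (Fintype.card P) g) ≤ (𝒜.sigma G).card := by
    rw [Finset.card_sigma, ← smul_eq_mul]
    exact Finset.card_nsmul_le_sum _ _ _ fun σ _ => h1 σ
  refine h2.trans ?_
  refine Finset.card_le_card_of_injOn (fun p => if hc : S.swCU p.2 = S.swCU h then
    S.swSwap p.1 h p.2 hc else p.1) ?_ ?_
  · rintro ⟨σ, h'⟩ hp
    obtain ⟨hσ, hh'⟩ := Finset.mem_sigma.1 (Finset.mem_coe.1 hp)
    obtain ⟨hσ1, hσ2⟩ := Finset.mem_filter.1 hσ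
    obtain ⟨hh1, hh2⟩ := Finset.mem_sdiff.1 hh'
    have hgood : S.swGood g σ h h' := (Finset.mem_filter.1 hh1).2
    dsimp only at hσ1 hσ2 hh2 ⊢
    rw [dif_pos hgood.1, Finset.mem_coe, Finset.mem_filter]
    constructor
    · rw [sw_mem_girthSet] at hσ1 ⊢
      exact (S.sw_switch hgood hσ1).mono fun a ha => ⟨Or.inr trivial, ha.2⟩
    · intro a ha
      rw [swSwap_apply, Equiv.swap_apply_of_ne_of_ne (by rintro rfl; exact hF ha)
        (by rintro rfl; exact hh2 ha)]
      exact hσ2 a (Finset.mem_insert_of_mem ha)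
  · rintro ⟨σ, h'⟩ hp ⟨τ, h''⟩ hq e
    obtain ⟨hσ, hh'⟩ := Finset.mem_sigma.1 (Finset.mem_coe.1 hp)
    obtain ⟨hτ, hh''⟩ := Finset.mem_sigma.1 (Finset.mem_coe.1 hq)
    have hgood : S.swGood g σ h h' := (Finset.mem_filter.1 (Finset.mem_sdiff.1 hh').1).2
    have hgood' : S.swGood g τ h h'' := (Finset.mem_filter.1 (Finset.mem_sdiff.1 hh'').1).2
    have e1 : σ.1 h = f h := (Finset.mem_filter.1 hσ).2 h (Finset.mem_insert_self _ _)
    have e2 : τ.1 h = f h := (Finset.mem_filter.1 hτ).2 h (Finset.mem_insert_self _ _)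
    dsimp only at e
    rw [dif_pos hgood.1, dif_pos hgood'.1] at e
    have e3 : ∀ a, σ.1 (Equiv.swap h h' a) = τ.1 (Equiv.swap h h'' a) := fun a =>
      congrArg (fun ρ : S.Matching => ρ.1 a) e
    have e4 : h' = h'' := by
      have := e3 h'
      rw [Equiv.swap_apply_right, e1, ← e2] at this
      have := τ.1.injective this
      have h7 := congrArg (Equiv.swap h h'') this
      rw [Equiv.swap_apply_left, Equiv.swap_apply_self] at h7
      exact h7.symm
    subst e4
    have e5 : σ = τ := Subtype.ext (Equiv.ext fun a => by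
      have := e3 (Equiv.swap h h' a)
      rwa [Equiv.swap_apply_self] at this)
    subst e5
    rfl

theorem girthSet_nonempty (g : ℕ) (bal : ∀ j r, S.cntU j r = S.cntW j r)
    (big : ∀ j r, ballB (Fintype.card P) g < S.cntU j r) : (S.girthSet g).Nonempty := by
  classical
  have key : ∀ F : Finset S.HU, ∃ σ : S.Matching, Sw.Gi S.swS S.swT (S.swE σ (· ∈ F)) g := by
    intro F
    induction F using Finset.induction_on with
    | empty =>
      obtain ⟨σ⟩ := S.sw_exists_matching bal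
      refine ⟨σ, fun v l hw _ hne => ?_⟩
      cases l with
      | nil => exact absurd rfl hne
      | cons e l => exact absurd hw.1.1 (Finset.notMem_empty _)
    | insert h F _ ih =>
      obtain ⟨σ, hσ⟩ := ih
      have a1 := S.sw_card_good g σ h
      have a2 := big (S.swCU h).1 (S.swCU h).2
      obtain ⟨h', hh'⟩ := Finset.card_pos.1
        (show 0 < (Finset.univ.filter fun h' => S.swGood g σ h h').card by omega)
      have hgood : S.swGood g σ h h' := (Finset.mem_filter.1 hh').2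
      exact ⟨_, (S.sw_switch hgood hσ).mono fun a ha => ⟨Finset.mem_insert.1 ha.1, ha.2⟩⟩
  obtain ⟨σ, hσ⟩ := key Finset.univ
  exact ⟨σ, (S.sw_mem_girthSet σ g).2 (hσ.mono fun a ha => ⟨Finset.mem_univ _, ha.2⟩)⟩

open Classical in
theorem switch_bound (g m : ℕ) (hm : ∀ j r, m ≤ S.cntU j r) (F : Finset S.HU) (f : S.HU → S.HW) :
    ((S.girthSet g).filter fun σ => ∀ h ∈ F, σ.1 h = f h).card *
      (m - F.card - ballB (Fintype.card P) g) ^ F.card ≤ (S.girthSet g).card := by
  induction F using Finset.induction_on with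
  | empty => simp
  | insert h F hF ih =>
    have h1 := S.sw_step g m hm F f h hF
    rw [Finset.card_insert_of_notMem hF]
    have h2 : m - (F.card + 1) - ballB (Fintype.card P) g ≤
        m - F.card - ballB (Fintype.card P) g := by omega
    refine le_trans (Nat.mul_le_mul_left _ (Nat.pow_le_pow_left h2 _)) (le_trans ?_ ih)
    rw [pow_succ', ← mul_assoc]
    exact Nat.mul_le_mul_right _ h1

open Classical in
/-- First-moment bound for a pattern: abstract edges `E`, abstract end points `uu`, `ww`, a pinned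
abstract vertex `x₀`, colours `col`, allowed labellings `Λ`. -/
theorem exp_bound (g m₁ m₂ m₃ : ℕ) (c₀ : S.U)
    (h₁ : ∀ j r r', r ≠ r' → S.cntU₂ j r r' ≤ m₁) (h₂ : ∀ j r, S.cntU j r ≤ m₂)
    (h₂' : ∀ j r, S.cntW j r ≤ m₂) (h₃ : ∀ j r, m₃ ≤ S.cntU j r)
    {E X Y : Type} [Fintype E] (uu : E → X) (ww : E → Y) (x₀ : X) (col : E → J)
    (Λ : Finset (E → P)) :
    ((S.girthSet g).filter fun σ => ∃ e : E → S.HU, Function.Injective e ∧
        (∀ d d', uu d = uu d' → (S.graph σ).u (e d) = (S.graph σ).u (e d')) ∧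
        (∀ d d', ww d = ww d' → (S.graph σ).w (e d) = (S.graph σ).w (e d')) ∧
        (∀ d, uu d = x₀ → (S.graph σ).u (e d) = c₀) ∧
        (∀ d, S.ιU ((S.graph σ).u (e d)) = col d) ∧
        (fun d => (S.graph σ).lab (e d)) ∈ Λ).card *
      (m₃ - Fintype.card E - ballB (Fintype.card P) g) ^ Fintype.card E ≤
    (S.girthSet g).card * Λ.card *
      m₁ ^ (((Finset.univ.image uu).erase x₀).filter
              fun x => 2 ≤ (Finset.univ.filter fun d => uu d = x).card).card *
      m₂ ^ ((((Finset.univ.image uu).erase x₀).filter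
              fun x => ¬ 2 ≤ (Finset.univ.filter fun d => uu d = x).card).card +
            (Finset.univ.image ww).card) := by
  set Z := (m₃ - Fintype.card E - ballB (Fintype.card P) g) ^ Fintype.card E with hZ
  set IX : Finset X := Finset.univ.image uu with hIX
  set IY : Finset Y := Finset.univ.image ww with hIY
  have mX : ∀ d, uu d ∈ IX := fun d => Finset.mem_image_of_mem _ (Finset.mem_univ d)
  have mY : ∀ d, ww d ∈ IY := fun d => Finset.mem_image_of_mem _ (Finset.mem_univ d)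
  set Λ' : Finset (E → P) := Λ.filter fun lam => ∀ d d', uu d = uu d' → lam d = lam d' → d = d'
    with hΛ'
  set tU : (E → P) → IX → Finset S.U := fun lam x => Finset.univ.filter fun c =>
    (x.1 = x₀ → c = c₀) ∧ ∀ d, uu d = x.1 → S.ιU c = col d ∧ lam d ∈ S.τU c with htU
  set tW : (E → P) → IY → Finset S.W := fun lam y => Finset.univ.filter fun c =>
    ∀ d, ww d = y.1 → S.ιW c = col d ∧ lam d ∈ S.τW c with htW
  set D : Finset (Σ _ : E → P, (IX → S.U) × (IY → S.W)) :=
    Λ'.sigma fun lam => Fintype.piFinset (tU lam) ×ˢ Fintype.piFinset (tW lam) with hD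
  set ev : (Σ _ : E → P, (IX → S.U) × (IY → S.W)) → Finset S.Matching := fun δ =>
    (S.girthSet g).filter fun σ => ∃ e : E → S.HU, Function.Injective e ∧
      ∀ d, (e d).1 = (δ.2.1 ⟨uu d, mX d⟩, δ.1 d) ∧
        (σ.1 (e d)).1 = (δ.2.2 ⟨ww d, mY d⟩, δ.1 d) with hev
  -- each event is small
  have hsmall : ∀ δ, (ev δ).card * Z ≤ (S.girthSet g).card := by
    intro δ
    rcases (ev δ).eq_empty_or_nonempty with h0 | ⟨σ₀, h0⟩
    · rw [h0]; simp
    obtain ⟨-, e₀, hi₀, he₀⟩ := Finset.mem_filter.1 h0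
    have hb := S.switch_bound g m₃ h₃ (Finset.univ.image e₀) σ₀.1
    rw [Finset.card_image_of_injective _ hi₀, Finset.card_univ] at hb
    refine le_trans (Nat.mul_le_mul_right _ (Finset.card_le_card ?_)) hb
    intro σ hσ
    obtain ⟨hσ1, e, -, he⟩ := Finset.mem_filter.1 hσ
    refine Finset.mem_filter.2 ⟨hσ1, fun a ha => ?_⟩
    obtain ⟨d, -, rfl⟩ := Finset.mem_image.1 ha
    have e1 : e d = e₀ d := Subtype.ext ((he d).1.trans (he₀ d).1.symm)
    have e2 := (he d).2.trans (he₀ d).2.symm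
    rw [e1] at e2
    exact Subtype.ext e2
  -- the number of data
  set bd : X → ℕ := fun x => if x = x₀ then 1 else
    if 2 ≤ (Finset.univ.filter fun d => uu d = x).card then m₁ else m₂ with hbd
  have hU : ∀ lam ∈ Λ', ∀ x : IX, (tU lam x).card ≤ bd x.1 := by
    intro lam hlam x
    obtain ⟨-, hinj⟩ := Finset.mem_filter.1 hlam
    simp only [hbd]
    split_ifs with c1 c2
    · rw [Finset.card_le_one]
      intro a ha b hb
      rw [(Finset.mem_filter.1 ha).2.1 c1, (Finset.mem_filter.1 hb).2.1 c1]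
    · obtain ⟨d, hd, d', hd', hdd⟩ := Finset.one_lt_card.1 c2
      have hd1 := (Finset.mem_filter.1 hd).2
      have hd2 := (Finset.mem_filter.1 hd').2
      refine le_trans (Finset.card_le_card ?_)
        (h₁ (col d) (lam d) (lam d') fun h => hdd (hinj d d' (hd1.trans hd2.symm) h))
      intro c hc
      have := (Finset.mem_filter.1 hc).2.2
      exact Finset.mem_filter.2 ⟨Finset.mem_univ _, (this d hd1).1, (this d hd1).2, (this d' hd2).2⟩
    · obtain ⟨d, -, hd⟩ := Finset.mem_image.1 x.2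
      refine le_trans (Finset.card_le_card ?_) (h₂ (col d) (lam d))
      intro c hc
      have := (Finset.mem_filter.1 hc).2.2
      exact Finset.mem_filter.2 ⟨Finset.mem_univ _, this d hd⟩
  have hW : ∀ lam, ∀ y : IY, (tW lam y).card ≤ m₂ := by
    intro lam y
    obtain ⟨d, -, hd⟩ := Finset.mem_image.1 y.2
    refine le_trans (Finset.card_le_card ?_) (h₂' (col d) (lam d))
    intro c hc
    exact Finset.mem_filter.2 ⟨Finset.mem_univ _, (Finset.mem_filter.1 hc).2 d hd⟩
  have hprod : ∏ x : IX, bd x.1 =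
      m₁ ^ ((IX.erase x₀).filter
              fun x => 2 ≤ (Finset.univ.filter fun d => uu d = x).card).card *
      m₂ ^ ((IX.erase x₀).filter
              fun x => ¬ 2 ≤ (Finset.univ.filter fun d => uu d = x).card).card := by
    rw [Finset.prod_coe_sort IX bd, ← Finset.prod_erase IX (f := bd) (a := x₀) (by simp [hbd])]
    rw [Finset.prod_congr rfl (g := fun x =>
      if 2 ≤ (Finset.univ.filter fun d => uu d = x).card then m₁ else m₂)
      (fun x hx => by simp only [hbd, if_neg (Finset.ne_of_mem_erase hx)])]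
    rw [Finset.prod_ite, Finset.prod_const, Finset.prod_const]
  have hDcard : D.card ≤ Λ.card * ((∏ x : IX, bd x.1) * m₂ ^ IY.card) := by
    rw [hD, Finset.card_sigma]
    refine le_trans (Finset.sum_le_card_nsmul _ _ ((∏ x : IX, bd x.1) * m₂ ^ IY.card) ?_) ?_
    · intro lam hlam
      rw [Finset.card_product, Fintype.card_piFinset, Fintype.card_piFinset]
      refine Nat.mul_le_mul (Finset.prod_le_prod' fun x _ => hU lam hlam x) ?_
      refine le_trans (Finset.prod_le_prod' fun y _ => hW lam y) ?_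
      rw [Finset.prod_const, Finset.card_univ, Fintype.card_coe]
    · rw [smul_eq_mul]
      exact Nat.mul_le_mul_right _ (Finset.card_filter_le _ _)
  -- the covering
  refine le_trans (Nat.mul_le_mul_right Z (Finset.card_le_card (t := D.biUnion ev) ?_)) ?_
  · intro σ hσ
    obtain ⟨hσ1, e, hi, hu, hw, hp, hc, hl⟩ := Finset.mem_filter.1 hσ
    have cX : ∀ x : IX, ∃ d, uu d = x.1 := fun x => by
      obtain ⟨d, -, hd⟩ := Finset.mem_image.1 x.2
      exact ⟨d, hd⟩
    have cY : ∀ y : IY, ∃ d, ww d = y.1 := fun y => by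
      obtain ⟨d, -, hd⟩ := Finset.mem_image.1 y.2
      exact ⟨d, hd⟩
    choose rX hX using cX
    choose rY hY using cY
    refine Finset.mem_biUnion.2 ⟨⟨fun d => (e d).1.2, fun x => (e (rX x)).1.1,
      fun y => (σ.1 (e (rY y))).1.1⟩, ?_, ?_⟩
    · refine Finset.mem_sigma.2 ⟨Finset.mem_filter.2 ⟨hl, fun d d' h1 h2 => ?_⟩, ?_⟩
      · exact hi (Subtype.ext (Prod.ext (hu d d' h1) h2))
      · refine Finset.mem_product.2 ⟨Fintype.mem_piFinset.2 fun x => ?_,
          Fintype.mem_piFinset.2 fun y => ?_⟩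
        · refine Finset.mem_filter.2 ⟨Finset.mem_univ _, fun hx => hp _ ((hX x).trans hx),
            fun d hd => ?_⟩
          have e1 : (e (rX x)).1.1 = (e d).1.1 := hu _ _ ((hX x).trans hd.symm)
          dsimp only
          rw [e1]
          exact ⟨hc d, (e d).2⟩
        · refine Finset.mem_filter.2 ⟨Finset.mem_univ _, fun d hd => ?_⟩
          have e1 : (σ.1 (e (rY y))).1.1 = (σ.1 (e d)).1.1 := hw _ _ ((hY y).trans hd.symm)
          dsimp only
          rw [e1]
          refine ⟨(σ.2 (e d)).2.trans (hc d), ?_⟩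
          rw [← (σ.2 (e d)).1]
          exact (σ.1 (e d)).2
    · refine Finset.mem_filter.2 ⟨hσ1, e, hi, fun d => ⟨?_, ?_⟩⟩
      · exact Prod.ext (hu _ _ (hX ⟨uu d, mX d⟩).symm) rfl
      · exact Prod.ext (hw _ _ (hY ⟨ww d, mY d⟩).symm) (σ.2 (e d)).1
  · calc (D.biUnion ev).card * Z ≤ (∑ δ ∈ D, (ev δ).card) * Z :=
          Nat.mul_le_mul_right _ Finset.card_biUnion_le
      _ = ∑ δ ∈ D, (ev δ).card * Z := by rw [Finset.sum_mul]
      _ ≤ D.card * (S.girthSet g).card := by
          rw [← smul_eq_mul]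
          exact Finset.sum_le_card_nsmul _ _ _ fun δ _ => hsmall δ
      _ ≤ Λ.card * ((∏ x : IX, bd x.1) * m₂ ^ IY.card) * (S.girthSet g).card :=
          Nat.mul_le_mul_right _ hDcard
      _ = _ := by
          rw [hprod, pow_add]
          ring

end Slots

end Crest.Agent.R177
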