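import Crest.Agent.R177.Defs

/-! Walks in edge subsets of a multigraph and the abstract switching lemma (task SWITCH). -/

set_option autoImplicit false

namespace Crest.Agent.R177

namespace Sw

variable {A V : Type} (s t : A → V)

/-- source of an oriented edge -/
def src (e : A × Bool) : V := if e.2 then s e.1 else t e.1

/-- target of an oriented edge -/
def tgt (e : A × Bool) : V := if e.2 then t e.1 else s e.1

/-- reversal of an oriented edge -/
def rev (e : A × Bool) : A × Bool := (e.1, !e.2)

theorem src_rev (e : A × Bool) : src s t (rev e) = tgt s t e := by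
  rcases e with ⟨a, b⟩; cases b <;> rfl

theorem tgt_rev (e : A × Bool) : tgt s t (rev e) = src s t e := by
  rcases e with ⟨a, b⟩; cases b <;> rfl

theorem rev_rev (e : A × Bool) : rev (rev e) = e := by
  rcases e with ⟨a, b⟩; cases b <;> rfl

theorem rev_ne (e : A × Bool) : e ≠ rev e := by
  rcases e with ⟨a, b⟩; cases b <;> simp [rev]

/-- `l` is a walk from `u` to `v` all of whose edges lie in `E` -/
def Wk (E : A → Prop) : V → List (A × Bool) → V → Prop
  | u, [], v => u = v
  | u, e :: l, v => E e.1 ∧ src s t e = u ∧ Wk E (tgt s t e) l v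

/-- no backtracking -/
def NB (l : List (A × Bool)) : Prop := List.IsChain (fun e e' => e' ≠ rev e) l

/-- closed non-backtracking walks in `E` are long -/
def Gi (E : A → Prop) (g : ℕ) : Prop :=
  ∀ v l, Wk s t E v l v → NB l → l ≠ [] → g < l.length

variable {s t}

theorem wk_append {E : A → Prop} {l₁ l₂ : List (A × Bool)} {u v : V} :
    Wk s t E u (l₁ ++ l₂) v ↔ ∃ m, Wk s t E u l₁ m ∧ Wk s t E m l₂ v := by
  induction l₁ generalizing u with
  | nil => simp [Wk]
  | cons e l ih =>
    simp only [List.cons_append, Wk, ih]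
    constructor
    · rintro ⟨h1, h2, m, h3, h4⟩
      exact ⟨m, ⟨h1, h2, h3⟩, h4⟩
    · rintro ⟨m, ⟨h1, h2, h3⟩, h4⟩
      exact ⟨h1, h2, m, h3, h4⟩

theorem Wk.mem {E : A → Prop} {l : List (A × Bool)} {u v : V} (h : Wk s t E u l v) :
    ∀ e ∈ l, E e.1 := by
  induction l generalizing u with
  | nil => simp
  | cons e l ih =>
    intro e' he'
    rcases List.mem_cons.1 he' with rfl | he'
    · exact h.1
    · exact ih h.2.2 e' he'

theorem Wk.of_mem {E E' : A → Prop} {l : List (A × Bool)} {u v : V} (h : Wk s t E u l v)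
    (hE : ∀ e ∈ l, E' e.1) : Wk s t E' u l v := by
  induction l generalizing u with
  | nil => exact h
  | cons e l ih =>
    exact ⟨hE e List.mem_cons_self, h.2.1,
      ih h.2.2 fun e' he' => hE e' (List.mem_cons_of_mem _ he')⟩

theorem Wk.mono {E E' : A → Prop} {l : List (A × Bool)} {u v : V} (h : Wk s t E u l v)
    (hE : ∀ a, E a → E' a) : Wk s t E' u l v :=
  h.of_mem fun e he => hE _ (h.mem e he)

theorem Wk.symm {E : A → Prop} {l : List (A × Bool)} {u v : V} (h : Wk s t E u l v) :
    ∃ l', Wk s t E v l' u ∧ l'.length = l.length := by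
  induction l generalizing u with
  | nil => exact ⟨[], (show u = v from h).symm, rfl⟩
  | cons e l ih =>
    obtain ⟨l', h1, h2⟩ := ih h.2.2
    refine ⟨l' ++ [rev e], wk_append.2 ⟨_, h1, h.1, src_rev s t e, ?_⟩, by simp [h2]⟩
    show tgt s t (rev e) = u
    rw [tgt_rev, h.2.1]

theorem Wk.reduce {E : A → Prop} {l : List (A × Bool)} {u v : V} (h : Wk s t E u l v) :
    ∃ l', Wk s t E u l' v ∧ NB l' ∧ l'.length ≤ l.length := by
  induction l generalizing u with
  | nil => exact ⟨[], h, List.isChain_nil, le_rfl⟩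
  | cons e l ih =>
    obtain ⟨l', h1, h2, h3⟩ := ih h.2.2
    cases l' with
    | nil => exact ⟨[e], ⟨h.1, h.2.1, h1⟩, List.isChain_singleton _, by simp⟩
    | cons e' l' =>
      by_cases he : e' = rev e
      · refine ⟨l', ?_, List.IsChain.tail h2, ?_⟩
        · have := h1.2.2
          rwa [he, tgt_rev, h.2.1] at this
        · simp only [List.length_cons] at h3 ⊢
          omega
      · refine ⟨e :: e' :: l', ⟨h.1, h.2.1, h1⟩, List.isChain_cons_cons.2 ⟨he, h2⟩, ?_⟩
        simp only [List.length_cons] at h3 ⊢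
        omega

theorem Gi.mono {E E' : A → Prop} {g : ℕ} (h : Gi s t E' g) (hE : ∀ a, E a → E' a) :
    Gi s t E g := fun v l h1 h2 h3 => h v l (h1.mono hE) h2 h3

theorem split_first (p : A × Bool → Prop) (l : List (A × Bool)) :
    (∀ e ∈ l, p e) ∨ ∃ l₁ e l₂, l = l₁ ++ e :: l₂ ∧ (∀ a ∈ l₁, p a) ∧ ¬ p e := by
  induction l with
  | nil => left; simp
  | cons e l ih =>
    by_cases he : p e
    · rcases ih with h | ⟨l₁, e', l₂, rfl, h1, h2⟩
      · left
        intro a ha
        rcases List.mem_cons.1 ha with rfl | ha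
        · exact he
        · exact h a ha
      · right
        refine ⟨e :: l₁, e', l₂, rfl, ?_, h2⟩
        intro a ha
        rcases List.mem_cons.1 ha with rfl | ha
        · exact he
        · exact h1 a ha
    · exact Or.inr ⟨[], e, l, rfl, by simp, he⟩

theorem no_rev {E₀ : A → Prop} {g : ℕ} (H : Gi s t E₀ g) {e e' : A × Bool}
    {l r : List (A × Bool)} (hw : Wk s t E₀ (tgt s t e) l (src s t e'))
    (hnb : NB (e :: (l ++ e' :: r))) (hl : l.length ≤ g) : e' ≠ rev e := by
  intro he
  cases l with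
  | nil => exact (List.isChain_cons_cons.1 hnb).1 he
  | cons a l =>
    rw [he, src_rev] at hw
    have h1 : NB (a :: l) := (List.IsChain.tail hnb).left_of_append
    have := H _ _ hw h1 (by simp)
    omega

/-- An old walk that closes up with an edge `c` outside the old edge set is long. -/
theorem long_of_edge {E E₀ : A → Prop} {g : ℕ} (H : Gi s t E g) (hE : ∀ a, E₀ a → E a)
    {c : A × Bool} (hc : E c.1) (hc0 : ¬ E₀ c.1) {l : List (A × Bool)}
    (hw : Wk s t E₀ (tgt s t c) l (src s t c)) : g ≤ l.length := by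
  obtain ⟨l', h1, h2, h3⟩ := hw.reduce
  have hnb : NB (c :: l') := by
    cases l' with
    | nil => exact List.isChain_singleton _
    | cons a l' =>
      refine List.isChain_cons_cons.2 ⟨?_, h2⟩
      rintro rfl
      exact hc0 h1.1
  have := H (src s t c) (c :: l') ⟨hc, rfl, h1.mono hE⟩ hnb (by simp)
  simp only [List.length_cons] at this
  omega

/-- The abstract switching lemma. -/
theorem key {E E₀ : A → Prop} {g : ℕ} (far : V → Prop) (H1 : Gi s t E₀ g)
    (H2 : ∀ e : A × Bool, E e.1 → ¬ E₀ e.1 → far (src s t e) ∨ far (tgt s t e))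
    (H3 : ∀ (e e' : A × Bool) (l : List (A × Bool)), E e.1 → ¬ E₀ e.1 → E e'.1 → ¬ E₀ e'.1 →
      far (tgt s t e) → Wk s t E₀ (tgt s t e) l (src s t e') → l.length < g → e' = rev e) :
    Gi s t E g := by
  have H4 : ∀ (e e' : A × Bool) (l : List (A × Bool)), E e.1 → ¬ E₀ e.1 → E e'.1 → ¬ E₀ e'.1 →
      far (tgt s t e) ∨ far (src s t e') → Wk s t E₀ (tgt s t e) l (src s t e') → l.length < g →
      e' = rev e := by
    intro e e' l h1 h2 h3 h4 h5 h6 h7
    rcases h5 with h5 | h5
    · exact H3 e e' l h1 h2 h3 h4 h5 h6 h7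
    · obtain ⟨l', h8, h9⟩ := h6.symm
      have := H3 (rev e') (rev e) l' h3 h4 h1 h2 (by rwa [tgt_rev])
        (by rwa [tgt_rev, src_rev]) (by omega)
      rw [rev_rev] at this
      exact this.symm
  intro v l hw hnb hne
  by_contra hlen
  rw [not_lt] at hlen
  rcases split_first (fun e => E₀ e.1) l with h | ⟨l₁, e, l₂, rfl, ho₁, he⟩
  · have := H1 v l (hw.of_mem h) hnb hne
    omega
  obtain ⟨m, w₁, hE, hs, w₂⟩ := wk_append.1 hw
  subst hs
  replace w₁ := w₁.of_mem ho₁
  have nb₂ : NB (e :: l₂) := hnb.right_of_append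
  simp only [List.length_append, List.length_cons] at hlen
  rcases split_first (fun e => E₀ e.1) l₂ with h | ⟨l₃, e', l₄, rfl, ho₃, he'⟩
  · have := H4 e e (l₂ ++ l₁) hE he hE he (H2 e hE he).symm
      (wk_append.2 ⟨_, w₂.of_mem h, w₁⟩) (by simp only [List.length_append]; omega)
    exact rev_ne e this
  obtain ⟨m, w₃, hE', hs, w₄⟩ := wk_append.1 w₂
  subst hs
  replace w₃ := w₃.of_mem ho₃
  simp only [List.length_append, List.length_cons] at hlen
  have hne₁ : e' ≠ rev e := no_rev H1 w₃ nb₂ (by omega)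
  have hf : far (tgt s t e') := by
    rcases H2 e' hE' he' with h | h
    · exact absurd (H4 e e' l₃ hE he hE' he' (Or.inr h) w₃ (by omega)) hne₁
    · exact h
  have nb₄ : NB (e' :: l₄) := (List.IsChain.tail nb₂).right_of_append
  rcases split_first (fun e => E₀ e.1) l₄ with h | ⟨l₅, e'', l₆, rfl, ho₅, he''⟩
  · have := H4 e' e (l₄ ++ l₁) hE' he' hE he (Or.inl hf)
      (wk_append.2 ⟨_, w₄.of_mem h, w₁⟩) (by simp only [List.length_append]; omega)
    apply hne₁
    rw [this, rev_rev]
  obtain ⟨m, w₅, hE'', hs, -⟩ := wk_append.1 w₄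
  subst hs
  replace w₅ := w₅.of_mem ho₅
  simp only [List.length_append, List.length_cons] at hlen
  exact no_rev H1 w₅ nb₄ (by omega) (H4 e' e'' l₅ hE' he' hE'' he'' (Or.inl hf) w₅ (by omega))

/-- `v` is within distance `R` of `u` -/
def Near (s t : A → V) (E : A → Prop) (R : ℕ) (u v : V) : Prop :=
  ∃ l, Wk s t E u l v ∧ l.length ≤ R

open Classical in
theorem card_near_le [Fintype A] [Fintype V] {E : A → Prop} {n : ℕ}
    (hdeg : ∀ u, (Finset.univ.filter fun e : A × Bool => E e.1 ∧ src s t e = u).card ≤ n)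
    (R : ℕ) (u : V) : (Finset.univ.filter fun v => Near s t E R u v).card ≤ (n + 1) ^ R := by
  induction R generalizing u with
  | zero =>
    rw [pow_zero, Finset.card_le_one]
    have : ∀ v, Near s t E 0 u v → u = v := by
      rintro v ⟨l, h1, h2⟩
      rw [Nat.le_zero, List.length_eq_zero_iff] at h2
      subst h2
      exact h1
    intro a ha b hb
    rw [← this a (Finset.mem_filter.1 ha).2, ← this b (Finset.mem_filter.1 hb).2]
  | succ R ih =>
    have hsub : (Finset.univ.filter fun v => Near s t E (R + 1) u v) ⊆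
        insert u ((Finset.univ.filter fun e : A × Bool => E e.1 ∧ src s t e = u).biUnion
          fun e => Finset.univ.filter fun v => Near s t E R (tgt s t e) v) := by
      intro v hv
      obtain ⟨l, h1, h2⟩ := (Finset.mem_filter.1 hv).2
      cases l with
      | nil => rw [show u = v from h1]; exact Finset.mem_insert_self _ _
      | cons e l =>
        refine Finset.mem_insert_of_mem (Finset.mem_biUnion.2 ⟨e, ?_, ?_⟩)
        · exact Finset.mem_filter.2 ⟨Finset.mem_univ _, h1.1, h1.2.1⟩
        · refine Finset.mem_filter.2 ⟨Finset.mem_univ _, l, h1.2.2, ?_⟩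
          simp only [List.length_cons] at h2
          omega
    refine (Finset.card_le_card hsub).trans ((Finset.card_insert_le _ _).trans ?_)
    have h1 := Finset.card_biUnion_le_card_mul
      (Finset.univ.filter fun e : A × Bool => E e.1 ∧ src s t e = u)
      (fun e => Finset.univ.filter fun v => Near s t E R (tgt s t e) v) _ (fun e _ => ih (tgt s t e))
    have h2 := Nat.mul_le_mul_right ((n + 1) ^ R) (hdeg u)
    have h3 : 1 ≤ (n + 1) ^ R := Nat.one_le_pow _ _ (Nat.succ_pos n)
    calc _ ≤ n * (n + 1) ^ R + (n + 1) ^ R := by omega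
      _ = (n + 1) ^ (R + 1) := by ring

end Sw

end Crest.Agent.R177
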