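import Crest.Agent.R177.TopCover
import Crest.Prelude.Def_ClassifyingComplex

/-! The presentation complex of an aspherical triangular presentation is a finite 2-dimensional
classifying complex (task TOP). -/

set_option autoImplicit false

namespace Crest.Agent.R177

theorem TriPres.Asph.classifying {α T : Type} [Fintype α] [Fintype T] (Q : TriPres α T)
    (deg : α → ℕ) (hpos : ∀ x, 0 < deg x) (hadd : ∀ t, deg (Q.c t) = deg (Q.a t) + deg (Q.b t))
    (h : Q.Asph) : Crest.Topology.HasFiniteClassifyingComplex Q.Grp 2 := by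
  obtain ⟨cw, hfin, hdim⟩ := Top.exists_cw_Xq (Q := Q)
  have hc := Top.contractible h
  have hp := Top.isQuotientCoveringMap (Q := Q) deg hpos hadd
  refine ⟨Top.Xq Q, inferInstance, cw, inferInstance, hfin, hdim,
    ⟨Top.Sp Q, inferInstance, Top.prj, hc, hp.isCoveringMap, hp.surjective⟩, Top.x0 Q,
    ⟨(hp.fundamentalGroupEquiv ⟨Top.mk (.v 1), rfl⟩).trans (MulEquiv.inv' Q.Grp).symm⟩⟩

end Crest.Agent.R177
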