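import Crest.Agent.R177.TopSpace
import Crest.Agent.Lib.TwoComplex.CW

/-! The group acts on the Cayley complex as a covering space action, and the quotient is a finite
CW complex. -/

set_option autoImplicit false

noncomputable section

namespace Crest.Agent.R177.Top

open unitInterval Set Topology Crest.Agent.Lib.TwoComplex

variable {α T : Type} {Q : TriPres α T}

/-! ### The action -/

/-- translation of the cells -/
def act (g : Q.Grp) : Pre Q → Pre Q
  | .v h => .v (g * h)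
  | .e h s r => .e (g * h) s r
  | .t h τ u r => .t (g * h) τ u r

lemma act_rel (g : Q.Grp) (x y : Pre Q) (h : Rel Q x y) : Rel Q (act g x) (act g y) := by
  cases h with
  | e0 h s => exact .e0 _ _
  | e1 h s => simp only [act, ← mul_assoc]; exact .e1 _ _
  | t0 h τ u => exact .t0 _ _ _
  | t1 h τ u => simp only [act, ← mul_assoc]; exact .t1 _ _ _
  | top h τ r => exact .top _ _ _
  | botL h τ r r' hr => exact .botL _ _ _ _ hr
  | botR h τ r r' hr => simp only [act, ← mul_assoc]; exact .botR _ _ _ _ hr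

instance : MulAction Q.Grp (Sp Q) where
  smul g := Quot.map (act g) (act_rel g)
  one_smul x := by
    obtain ⟨x, rfl⟩ := mk_surjective x
    change mk (act 1 x) = mk x
    cases x <;> simp [act]
  mul_smul g h x := by
    obtain ⟨x, rfl⟩ := mk_surjective x
    change mk (act (g * h) x) = mk (act g (act h x))
    cases x <;> simp [act, mul_assoc]

lemma smul_mk (g : Q.Grp) (x : Pre Q) : g • mk x = mk (act g x) := rfl

instance : ContinuousConstSMul Q.Grp (Sp Q) :=
  ⟨fun g => continuous_iff.mpr ⟨fun h s => continuous_e (g * h) s, fun h τ => continuous_t (g * h) τ⟩⟩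

/-! ### Affine extension of functions on the vertices -/

/-- weight of the first vertex -/
def w0 (u r : ℝ) : ℝ := (1 - u) * max 0 (1 - 2 * r) + u * (1 - r)

/-- weight of the second vertex -/
def w1 (u r : ℝ) : ℝ := (1 - u) * min (2 * r) (2 - 2 * r)

/-- weight of the third vertex -/
def w2 (u r : ℝ) : ℝ := (1 - u) * max 0 (2 * r - 1) + u * r

lemma w_sum (u r : ℝ) : w0 u r + w1 u r + w2 u r = 1 := by
  unfold w0 w1 w2
  rcases le_total (2 * r) 1 with h | h
  · rw [max_eq_right (by linarith), min_eq_left (by linarith), max_eq_left (by linarith)]; ring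
  · rw [max_eq_left (by linarith), min_eq_right (by linarith), max_eq_right (by linarith)]; ring

lemma w0_nonneg (u r : I) : 0 ≤ w0 u r :=
  add_nonneg (mul_nonneg (sub_nonneg.mpr u.2.2) (le_max_left _ _))
    (mul_nonneg u.2.1 (sub_nonneg.mpr r.2.2))

lemma w1_nonneg (u r : I) : 0 ≤ w1 u r :=
  mul_nonneg (sub_nonneg.mpr u.2.2) (le_min (by linarith [r.2.1]) (by linarith [r.2.2]))

lemma w2_nonneg (u r : I) : 0 ≤ w2 u r :=
  add_nonneg (mul_nonneg (sub_nonneg.mpr u.2.2) (le_max_left _ _)) (mul_nonneg u.2.1 r.2.1)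

/-- the affine extension on the cells -/
def aff0 (φ : Q.Grp → ℝ) : Pre Q → ℝ
  | .v g => φ g
  | .e g s r => (1 - r) * φ g + r * φ (g * Q.gen s)
  | .t g τ u r => w0 u r * φ g + w1 u r * φ (g * Q.gen (Q.a τ)) + w2 u r * φ (g * Q.gen (Q.c τ))

lemma aff0_rel (φ : Q.Grp → ℝ) (x y : Pre Q) (h : Rel Q x y) : aff0 φ x = aff0 φ y := by
  cases h with
  | e0 h s => simp [aff0]
  | e1 h s => simp [aff0]
  | t0 h τ u => simp [aff0, w0, w1, w2]
  | t1 h τ u =>
    simp only [aff0, w0, w1, w2, Icc.coe_one]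
    rw [max_eq_left (by norm_num), min_eq_right (by norm_num), max_eq_right (by norm_num)]
    ring
  | top h τ r => simp [aff0, w0, w1, w2]
  | botL h τ r r' hr =>
    have := r'.2.2
    simp only [aff0, w0, w1, w2, Icc.coe_zero, hr]
    rw [max_eq_right (by linarith), min_eq_left (by linarith), max_eq_left (by linarith)]
    ring
  | botR h τ r r' hr =>
    have := r'.2.1
    simp only [aff0, w0, w1, w2, Icc.coe_zero, hr]
    rw [max_eq_left (by linarith), min_eq_right (by linarith), max_eq_right (by linarith),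
      mul_assoc h, Q.gen_rel]
    ring

/-- the affine extension -/
def aff (φ : Q.Grp → ℝ) : Sp Q → ℝ := Quot.lift (aff0 φ) (aff0_rel φ)

lemma aff_mk (φ : Q.Grp → ℝ) (x : Pre Q) : aff φ (mk x) = aff0 φ x := rfl

lemma continuous_aff (φ : Q.Grp → ℝ) : Continuous (aff φ) := by
  refine continuous_iff.mpr ⟨fun g s => ?_, fun g τ => ?_⟩
  · simp only [aff_mk, aff0]
    fun_prop
  · simp only [aff_mk, aff0, w0, w1, w2]
    fun_prop

lemma aff_smul (φ : Q.Grp → ℝ) (g : Q.Grp) (x : Sp Q) :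
    aff φ (g • x) = aff (fun h => φ (g * h)) x := by
  obtain ⟨x, rfl⟩ := mk_surjective x
  rw [smul_mk, aff_mk, aff_mk]
  cases x <;> simp [act, aff0, mul_assoc]

lemma aff_add_const (φ : Q.Grp → ℝ) (c : ℝ) (x : Sp Q) :
    aff (fun h => c + φ h) x = c + aff φ x := by
  obtain ⟨x, rfl⟩ := mk_surjective x
  rw [aff_mk, aff_mk]
  cases x with
  | v g => rfl
  | e g s r => simp only [aff0]; ring
  | t g τ u r =>
    simp only [aff0]
    linear_combination c * w_sum u r

/-- the vertices of a cell -/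
def corners : Pre Q → Set Q.Grp
  | .v g => {g}
  | .e g s _ => {g, g * Q.gen s}
  | .t g τ _ _ => {g, g * Q.gen (Q.a τ), g * Q.gen (Q.c τ)}

lemma exists_corner (φ : Q.Grp → ℝ) (x : Pre Q) (h : aff0 φ x ≠ 0) : ∃ v ∈ corners x, φ v ≠ 0 := by
  by_contra hc
  push Not at hc
  apply h
  cases x with
  | v g => exact hc g rfl
  | e g s r => simp [aff0, hc g (by simp [corners]), hc (g * Q.gen s) (by simp [corners])]
  | t g τ u r =>
    simp [aff0, hc g (by simp [corners]), hc (g * Q.gen (Q.a τ)) (by simp [corners]),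
      hc (g * Q.gen (Q.c τ)) (by simp [corners])]

open Classical in
/-- indicator of a vertex -/
def ind (v : Q.Grp) (h : Q.Grp) : ℝ := if h = v then 1 else 0

lemma ind_nonneg (v h : Q.Grp) : 0 ≤ ind v h := by unfold ind; split_ifs <;> norm_num

lemma ind_self (v : Q.Grp) : ind v v = 1 := if_pos rfl

lemma eq_of_ind {v h : Q.Grp} (hv : ind v h ≠ 0) : h = v := by
  by_contra hc
  exact hv (if_neg hc)

lemma exists_ind_pos (x : Sp Q) : ∃ v, 0 < aff (ind v) x := by
  obtain ⟨x, rfl⟩ := mk_surjective x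
  simp only [aff_mk]
  cases x with
  | v g => exact ⟨g, by simp [aff0, ind_self]⟩
  | e g s r =>
    have h0 := r.2.1
    have h1 := r.2.2
    rcases h0.eq_or_lt with h | h
    · refine ⟨g, ?_⟩
      simp [aff0, ind_self, ← h]
    · refine ⟨g * Q.gen s, ?_⟩
      simp only [aff0, ind_self]
      have := mul_nonneg (sub_nonneg.mpr h1) (ind_nonneg (g * Q.gen s) g)
      linarith
  | t g τ u r =>
    have h0 := w0_nonneg u r
    have h1 := w1_nonneg u r
    have h2 := w2_nonneg u r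
    have hs := w_sum u r
    by_contra hc
    push Not at hc
    have a0 := hc g
    have a1 := hc (g * Q.gen (Q.a τ))
    have a2 := hc (g * Q.gen (Q.c τ))
    simp only [aff0, ind_self] at a0 a1 a2
    have := mul_nonneg h1 (ind_nonneg g (g * Q.gen (Q.a τ)))
    have := mul_nonneg h2 (ind_nonneg g (g * Q.gen (Q.c τ)))
    have := mul_nonneg h0 (ind_nonneg (g * Q.gen (Q.a τ)) g)
    have := mul_nonneg h2 (ind_nonneg (g * Q.gen (Q.a τ)) (g * Q.gen (Q.c τ)))
    have := mul_nonneg h0 (ind_nonneg (g * Q.gen (Q.c τ)) g)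
    have := mul_nonneg h1 (ind_nonneg (g * Q.gen (Q.c τ)) (g * Q.gen (Q.a τ)))
    linarith

lemma exists_level (deg : α → ℕ) (hadd : ∀ t, deg (Q.c t) = deg (Q.a t) + deg (Q.b t)) :
    ∃ L : Q.Grp → ℤ, (∀ g h, L (g * h) = L g + L h) ∧ ∀ s, L (Q.gen s) = deg s := by
  let f : Q.Grp →* Multiplicative ℤ :=
    PresentedGroup.toGroup (f := fun s => Multiplicative.ofAdd (deg s : ℤ)) (by
      rintro _ ⟨τ, rfl⟩
      simp only [map_mul, map_inv, FreeGroup.lift_apply_of, hadd, Nat.cast_add, ofAdd_add,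
        mul_inv_cancel])
  refine ⟨fun g => (f g).toAdd, fun g h => by simp, fun s => ?_⟩
  have : f (Q.gen s) = Multiplicative.ofAdd (deg s : ℤ) := PresentedGroup.toGroup.of _
  simp [this]

lemma exists_nhds (deg : α → ℕ) (hpos : ∀ x, 0 < deg x)
    (hadd : ∀ t, deg (Q.c t) = deg (Q.a t) + deg (Q.b t)) (x : Sp Q) :
    ∃ U ∈ 𝓝 x, ∀ g : Q.Grp, ((g • ·) '' U ∩ U).Nonempty → g = 1 := by
  obtain ⟨L, hL, hLs⟩ := exists_level deg hadd
  obtain ⟨v, hv⟩ := exists_ind_pos x
  let ht : Sp Q → ℝ := aff fun h => (L h : ℝ)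
  have hht : ∀ (g : Q.Grp) y, ht (g • y) = L g + ht y := by
    intro g y
    simp only [ht, aff_smul, hL, Int.cast_add, aff_add_const]
  have hcorn : ∀ (y : Pre Q), ∀ a ∈ corners y, ∀ b ∈ corners y, L a = L b → a = b := by
    intro y a ha b hb hab
    cases y with
    | v g => exact ha.trans hb.symm
    | e g s r =>
      have := hpos s
      rcases ha with rfl | rfl <;> rcases hb with rfl | rfl <;>
        first | rfl | (simp only [hL, hLs] at hab; omega)
    | t g τ u r =>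
      have := hpos (Q.a τ)
      have := hpos (Q.b τ)
      have := hadd τ
      rcases ha with rfl | rfl | rfl <;> rcases hb with rfl | rfl | rfl <;>
        first | rfl | (simp only [hL, hLs] at hab; omega)
  refine ⟨{y | 0 < aff (ind v) y} ∩ {y | |ht y - ht x| < 1 / 2}, ?_, ?_⟩
  · refine IsOpen.mem_nhds (IsOpen.inter (isOpen_lt continuous_const (continuous_aff _))
      (isOpen_lt ?_ continuous_const)) ⟨hv, by simp⟩
    exact ((continuous_aff _).sub continuous_const).abs
  · rintro g ⟨_, ⟨y, ⟨hy1, hy2⟩, rfl⟩, hy3, hy4⟩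
    simp only [mem_ofPred_eq, hht, aff_smul] at hy1 hy2 hy3 hy4
    have hLg : L g = 0 := by
      rw [abs_lt] at hy2 hy4
      have h1 : ((L g : ℤ) : ℝ) < 1 := by linarith
      have h2 : (-1 : ℝ) < ((L g : ℤ) : ℝ) := by linarith
      have h3 : L g < 1 := by exact_mod_cast h1
      have h4 : -1 < L g := by exact_mod_cast h2
      omega
    obtain ⟨y, rfl⟩ := mk_surjective y
    obtain ⟨a, ha, ha'⟩ := exists_corner _ y hy1.ne'
    obtain ⟨b, hb, hb'⟩ := exists_corner _ y hy3.ne'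
    have h1 : a = v := eq_of_ind ha'
    have h2 : g * b = v := eq_of_ind hb'
    have h3 : a = b := hcorn y a ha b hb (by rw [h1, ← h2, hL, hLg, zero_add])
    rw [← h1, h3] at h2
    exact mul_eq_right.mp h2

/-! ### The quotient -/

variable (Q)

/-- the presentation complex -/
abbrev Xq : Type := MulAction.orbitRel.Quotient Q.Grp (Sp Q)

variable {Q}

/-- the covering map -/
def prj (x : Sp Q) : Xq Q := Quotient.mk _ x

lemma continuous_prj : Continuous (prj (Q := Q)) := continuous_quotient_mk'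

lemma prj_smul (g : Q.Grp) (x : Sp Q) : prj (g • x) = prj x :=
  Quotient.sound (MulAction.orbitRel_apply.mpr (MulAction.mem_orbit _ _))

lemma isQuotientCoveringMap (deg : α → ℕ) (hpos : ∀ x, 0 < deg x)
    (hadd : ∀ t, deg (Q.c t) = deg (Q.a t) + deg (Q.b t)) :
    IsQuotientCoveringMap (prj (Q := Q)) Q.Grp where
  toIsQuotientMap := isQuotientMap_quotient_mk'
  continuous_const_smul := continuous_const_smul
  apply_eq_iff_mem_orbit := Quotient.eq.trans MulAction.orbitRel_apply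
  disjoint := exists_nhds deg hpos hadd

/-- admissible coordinate data -/
structure Co (α T : Type) where
  F : α → ℝ → ℝ
  B : T → ℝ → ℝ → ℝ
  cF : ∀ s, Continuous (F s)
  cB : ∀ τ, Continuous fun x : ℝ × ℝ => B τ x.1 x.2
  F0 : ∀ s r, r ≤ 0 → F s r = 0
  F1 : ∀ s r, 1 ≤ r → F s r = 0
  B0 : ∀ τ u r, u * (1 - u) * (r * (1 - r)) = 0 → B τ u r = 0

/-- a coordinate on the cells -/
def co0 (c : Co α T) : Pre Q → ℝ
  | .v _ => 0
  | .e _ s r => c.F s r
  | .t _ τ u r => (1 - u) * (c.F (Q.a τ) (2 * r) + c.F (Q.b τ) (2 * r - 1)) + u * c.F (Q.c τ) r +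
      c.B τ u r

lemma co0_rel (c : Co α T) (x y : Pre Q) (h : Rel Q x y) : co0 c x = co0 c y := by
  cases h with
  | e0 h s => simp [co0, c.F0]
  | e1 h s => simp [co0, c.F1]
  | t0 h τ u => simp [co0, c.F0, c.B0]
  | t1 h τ u =>
    simp only [co0, Icc.coe_one]
    rw [c.F1 _ _ (by norm_num), c.F1 _ _ (by norm_num), c.F1 _ _ le_rfl, c.B0 _ _ _ (by simp)]
    ring
  | top h τ r => simp [co0, c.B0]
  | botL h τ r r' hr =>
    have := r'.2.2
    simp only [co0, Icc.coe_zero, hr]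
    rw [c.F0 _ (2 * r - 1) (by linarith), c.B0 _ _ _ (by simp)]
    ring
  | botR h τ r r' hr =>
    have := r'.2.1
    simp only [co0, Icc.coe_zero, hr]
    rw [c.F1 _ (2 * r) (by linarith), c.B0 _ _ _ (by simp)]
    ring

/-- a coordinate on the Cayley complex -/
def co1 (c : Co α T) : Sp Q → ℝ := Quot.lift (co0 c) (co0_rel c)

lemma continuous_co1 (c : Co α T) : Continuous (co1 (Q := Q) c) := by
  refine continuous_iff.mpr ⟨fun g s => ?_, fun g τ => ?_⟩
  · exact (c.cF s).comp continuous_subtype_val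
  · change Continuous fun x : I × I => (1 - (x.1 : ℝ)) * (c.F (Q.a τ) (2 * x.2) +
      c.F (Q.b τ) (2 * x.2 - 1)) + x.1 * c.F (Q.c τ) x.2 + c.B τ x.1 x.2
    have h1 := c.cF
    have h2 : Continuous fun x : I × I => c.B τ x.1 x.2 :=
      (c.cB τ).comp (f := fun x : I × I => ((x.1 : ℝ), (x.2 : ℝ))) (by fun_prop)
    fun_prop

lemma co1_smul (c : Co α T) (g : Q.Grp) (x : Sp Q) : co1 c (g • x) = co1 c x := by
  obtain ⟨x, rfl⟩ := mk_surjective x
  cases x <;> rfl

/-- a coordinate on the presentation complex -/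
def co (c : Co α T) : Xq Q → ℝ :=
  Quotient.lift (co1 c) (by
    rintro x y ⟨g, rfl⟩
    exact co1_smul c g y)

lemma continuous_co (c : Co α T) : Continuous (co (Q := Q) c) :=
  (continuous_co1 c).quotient_lift _

variable (Q)

/-- the vertex -/
def x0 : Xq Q := prj (mk (.v 1))

/-- the edges -/
def χ1 (s : α) : C(I, Xq Q) := ⟨fun r => prj (mk (.e 1 s r)), continuous_prj.comp (continuous_e _ _)⟩

/-- the faces -/
def χ2 (τ : T) : C(I × I, Xq Q) :=
  ⟨fun x => prj (mk (.t 1 τ x.1 x.2)), continuous_prj.comp (continuous_t _ _)⟩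

variable {Q}

lemma prj_v (g : Q.Grp) : prj (mk (.v g)) = x0 Q := by
  rw [x0, ← prj_smul g (mk (.v 1)), smul_mk, act, mul_one]

lemma prj_e (g : Q.Grp) (s : α) (r : I) : prj (mk (.e g s r)) = χ1 Q s r := by
  change _ = prj (mk (.e 1 s r))
  rw [← prj_smul g (mk (.e 1 s r)), smul_mk, act, mul_one]

lemma prj_t (g : Q.Grp) (τ : T) (u r : I) : prj (mk (.t g τ u r)) = χ2 Q τ (u, r) := by
  change _ = prj (mk (.t 1 τ u r))
  rw [← prj_smul g (mk (.t 1 τ u r)), smul_mk, act, mul_one]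

lemma χ1_bd (s : α) (r : I) (h : ¬ Int r) : χ1 Q s r = x0 Q := by
  rw [← prj_e 1]
  rcases (not_int_iff r).mp h with rfl | rfl
  · rw [mk_eq (.e0 _ _), prj_v]
  · rw [mk_eq (.e1 _ _), prj_v]

lemma χ2_bd (τ : T) (u r : I) (h : ¬ (Int u ∧ Int r)) : ∃ s r', χ2 Q τ (u, r) = χ1 Q s r' := by
  rw [← prj_t 1]
  rcases not_and_or.mp h with h | h
  · rcases (not_int_iff u).mp h with rfl | rfl
    · rcases le_total (2 * (r : ℝ)) 1 with h2 | h2
      · let r' : I := ⟨2 * r, by linarith [r.2.1], h2⟩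
        exact ⟨_, r', by rw [mk_eq (.botL _ _ _ r' rfl), prj_e]⟩
      · let r' : I := ⟨2 * r - 1, by linarith, by linarith [r.2.2]⟩
        exact ⟨_, r', by rw [mk_eq (.botR _ _ _ r' rfl), prj_e]⟩
    · exact ⟨_, r, by rw [mk_eq (.top _ _ _), prj_e]⟩
  · refine ⟨Q.a τ, 0, ?_⟩
    rw [χ1_bd _ _ ((not_int_iff _).mpr (Or.inl rfl))]
    rcases (not_int_iff r).mp h with rfl | rfl
    · rw [mk_eq (.t0 _ _ _), prj_v]
    · rw [mk_eq (.t1 _ _ _), prj_v]

lemma cover (x : Xq Q) : x = x0 Q ∨ (∃ s r, x = χ1 Q s r) ∨ ∃ τ y, x = χ2 Q τ y := by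
  obtain ⟨x, rfl⟩ : ∃ y, prj y = x := Quotient.mk_surjective x
  obtain ⟨x, rfl⟩ := mk_surjective x
  cases x with
  | v g => exact Or.inl (prj_v g)
  | e g s r => exact Or.inr (Or.inl ⟨s, r, prj_e _ _ _⟩)
  | t g τ u r => exact Or.inr (Or.inr ⟨τ, (u, r), prj_t _ _ _ _⟩)

lemma cover' (x : Xq Q) : x = x0 Q ∨ (∃ s r, Int r ∧ x = χ1 Q s r) ∨
    ∃ τ u r, Int u ∧ Int r ∧ x = χ2 Q τ (u, r) := by
  have h1 : ∀ s r, χ1 Q s r = x0 Q ∨ ∃ s' r', Int r' ∧ χ1 Q s r = χ1 Q s' r' := by
    intro s r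
    by_cases h : Int r
    · exact Or.inr ⟨s, r, h, rfl⟩
    · exact Or.inl (χ1_bd s r h)
  rcases cover x with rfl | ⟨s, r, rfl⟩ | ⟨τ, ⟨u, r⟩, rfl⟩
  · exact Or.inl rfl
  · exact (h1 s r).imp_right Or.inl
  · by_cases h : Int u ∧ Int r
    · exact Or.inr (Or.inr ⟨τ, u, r, h.1, h.2, rfl⟩)
    · obtain ⟨s, r', h2⟩ := χ2_bd (Q := Q) τ u r h
      rw [h2]
      exact (h1 s r').imp_right Or.inl

/-- all coordinates agree -/
def Same (x y : Xq Q) : Prop := ∀ c : Co α T, co c x = co c y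

lemma Same.symm {x y : Xq Q} (h : Same x y) : Same y x := fun c => (h c).symm

lemma same_of_eq {x y : Xq Q} (h : x = y) : Same x y := fun _ => by rw [h]

open Classical in
/-- coordinates of an edge -/
def coE (T : Type) (s : α) (k : ℕ) : Co α T where
  F s' r := if s' = s then r ^ k * max 0 (r * (1 - r)) else 0
  B _ _ _ := 0
  cF s' := by split_ifs <;> fun_prop
  cB _ := continuous_const
  F0 s' r h := by
    rw [max_eq_left (mul_nonpos_of_nonpos_of_nonneg h (by linarith))]; simp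
  F1 s' r h := by
    rw [max_eq_left (mul_nonpos_of_nonneg_of_nonpos (by linarith) (by linarith))]; simp
  B0 _ _ _ _ := rfl

open Classical in
/-- coordinates of a face -/
def coT (α : Type) (τ : T) (k l : ℕ) : Co α T where
  F _ _ := 0
  B τ' u r := if τ' = τ then u ^ k * r ^ l * (u * (1 - u) * (r * (1 - r))) else 0
  cF _ := continuous_const
  cB τ' := by split_ifs <;> fun_prop
  F0 _ _ _ := rfl
  F1 _ _ _ := rfl
  B0 τ' u r h := by rw [h]; simp

lemma co_x0 (c : Co α T) : co c (x0 Q) = 0 := rfl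

lemma co_χ1 (c : Co α T) (s : α) (r : I) : co c (χ1 Q s r) = c.F s r := rfl

lemma coT_χ2 (τ τ' : T) (k l : ℕ) (u r : I) :
    co (coT α τ k l) (χ2 Q τ' (u, r)) = (coT α τ k l).B τ' u r := by
  change (1 - (u : ℝ)) * (0 + 0) + u * 0 + _ = _
  simp

lemma int_pos {r : I} (h : Int r) : 0 < (r : ℝ) * (1 - r) := mul_pos h.1 (sub_pos.mpr h.2)

lemma same10 {s : α} {r : I} (h : Int r) : ¬ Same (χ1 Q s r) (x0 Q) := by
  intro hs
  have h1 := hs (coE T s 0)
  rw [co_x0, co_χ1] at h1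
  simp only [coE, if_true, pow_zero, one_mul, max_eq_right (int_pos h).le] at h1
  exact (int_pos h).ne' h1

lemma same11 {s s' : α} {r r' : I} (h : Int r) (hs : Same (χ1 Q s r) (χ1 Q s' r')) :
    s = s' ∧ r = r' := by
  have h0 := hs (coE T s 0)
  have h1 := hs (coE T s 1)
  rw [co_χ1, co_χ1] at h0 h1
  simp only [coE, if_true, pow_zero, pow_one, one_mul, max_eq_right (int_pos h).le] at h0 h1
  have hp := int_pos h
  split_ifs at h0 h1 with e
  · refine ⟨e.symm, Subtype.ext ?_⟩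
    rw [← h0] at h1
    exact mul_right_cancel₀ hp.ne' h1
  · exact absurd h0 hp.ne'

lemma same20 {τ : T} {u r : I} (hu : Int u) (hr : Int r) : ¬ Same (χ2 Q τ (u, r)) (x0 Q) := by
  intro hs
  have h1 := hs (coT α τ 0 0)
  rw [co_x0, coT_χ2] at h1
  simp only [coT, if_true, pow_zero, one_mul] at h1
  exact (mul_pos (int_pos hu) (int_pos hr)).ne' h1

lemma same21 {τ : T} {u r : I} {s : α} {r' : I} (hu : Int u) (hr : Int r) :
    ¬ Same (χ2 Q τ (u, r)) (χ1 Q s r') := by
  intro hs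
  have h1 := hs (coT α τ 0 0)
  rw [co_χ1, coT_χ2] at h1
  simp only [coT, if_true, pow_zero, one_mul] at h1
  exact (mul_pos (int_pos hu) (int_pos hr)).ne' h1

lemma same22 {τ τ' : T} {u r : I} {y : I × I} (hu : Int u) (hr : Int r)
    (hs : Same (χ2 Q τ (u, r)) (χ2 Q τ' y)) : τ = τ' ∧ (u, r) = y := by
  obtain ⟨u', r'⟩ := y
  have h0 := hs (coT α τ 0 0)
  have h1 := hs (coT α τ 1 0)
  have h2 := hs (coT α τ 0 1)
  rw [coT_χ2, coT_χ2] at h0 h1 h2
  simp only [coT, if_true, pow_zero, pow_one, one_mul, mul_one] at h0 h1 h2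
  have hp := mul_pos (int_pos hu) (int_pos hr)
  split_ifs at h0 h1 h2 with e
  · rw [← h0] at h1 h2
    exact ⟨e.symm, Prod.ext (Subtype.ext (mul_right_cancel₀ hp.ne' h1))
      (Subtype.ext (mul_right_cancel₀ hp.ne' h2))⟩
  · exact absurd h0 hp.ne'

lemma eq_of_same {x y : Xq Q} (h : Same x y) : x = y := by
  rcases cover' x with rfl | ⟨s, r, hr, rfl⟩ | ⟨τ, u, r, hu, hr, rfl⟩ <;>
    rcases cover' y with rfl | ⟨s', r', hr', rfl⟩ | ⟨τ', u', r', hu', hr', rfl⟩
  · rfl
  · exact absurd h.symm (same10 hr')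
  · exact absurd h.symm (same20 hu' hr')
  · exact absurd h (same10 hr)
  · obtain ⟨rfl, rfl⟩ := same11 hr h
    rfl
  · exact absurd h.symm (same21 hu' hr')
  · exact absurd h (same20 hu hr)
  · exact absurd h (same21 hu hr)
  · obtain ⟨rfl, e⟩ := same22 hu hr h
    rw [e]

instance : T2Space (Xq Q) := by
  refine ⟨fun x y hxy => ?_⟩
  obtain ⟨c, hc⟩ := not_forall.mp fun h : Same x y => hxy (eq_of_same h)
  exact separated_by_continuous (continuous_co c) hc

lemma exists_cw_Xq [Finite α] [Finite T] :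
    ∃ _ : CWComplex (univ : Set (Xq Q)), RelCWComplex.Finite (univ : Set (Xq Q)) ∧
      ∀ n, 2 < n → IsEmpty (RelCWComplex.cell (univ : Set (Xq Q)) n) :=
  exists_cw2 (x0 Q) (χ1 Q) (χ2 Q) χ1_bd χ2_bd (fun _ _ _ _ hr h => same11 hr (same_of_eq h))
    (fun _ _ hr h => same10 hr (same_of_eq h))
    (fun _ _ _ _ _ hu hr h => same22 hu hr (same_of_eq h))
    (fun _ _ _ hu hr h => same20 hu hr (same_of_eq h))
    (fun _ _ _ _ _ hu hr h => same21 hu hr (same_of_eq h)) cover

end Crest.Agent.R177.Top
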