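import Crest.Agent.R177.Alg
import Crest.Agent.Lib.TwoComplex.Contract

/-! The Cayley 2-complex of a triangular presentation as a topological space; it is contractible
when the presentation is aspherical. -/

set_option autoImplicit false

noncomputable section

namespace Crest.Agent.R177.Top

open unitInterval Set Topology Crest.Agent.Lib.TwoComplex

variable {α T : Type} (Q : TriPres α T)

/-- points of the cells before gluing -/
inductive Pre : Type
  | v (g : Q.Grp)
  | e (g : Q.Grp) (s : α) (r : I)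
  | t (g : Q.Grp) (τ : T) (u r : I)

/-- the gluing relation -/
inductive Rel : Pre Q → Pre Q → Prop
  | e0 (g s) : Rel (.e g s 0) (.v g)
  | e1 (g s) : Rel (.e g s 1) (.v (g * Q.gen s))
  | t0 (g τ u) : Rel (.t g τ u 0) (.v g)
  | t1 (g τ u) : Rel (.t g τ u 1) (.v (g * Q.gen (Q.c τ)))
  | top (g τ r) : Rel (.t g τ 1 r) (.e g (Q.c τ) r)
  | botL (g τ) (r r' : I) (h : (r' : ℝ) = 2 * r) : Rel (.t g τ 0 r) (.e g (Q.a τ) r')
  | botR (g τ) (r r' : I) (h : (r' : ℝ) = 2 * r - 1) :
      Rel (.t g τ 0 r) (.e (g * Q.gen (Q.a τ)) (Q.b τ) r')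

/-- the Cayley complex -/
def Sp : Type := Quot (Rel Q)

variable {Q}

/-- the gluing map -/
def mk (x : Pre Q) : Sp Q := Quot.mk _ x

lemma mk_eq {x y : Pre Q} (h : Rel Q x y) : mk x = mk y := Quot.sound h

lemma mk_surjective : Function.Surjective (mk (Q := Q)) := Quot.mk_surjective

instance : TopologicalSpace (Sp Q) :=
  (⨆ (g : Q.Grp) (s : α), TopologicalSpace.coinduced (fun r : I => mk (.e g s r)) inferInstance) ⊔
  (⨆ (g : Q.Grp) (τ : T),
    TopologicalSpace.coinduced (fun x : I × I => mk (.t g τ x.1 x.2)) inferInstance)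

lemma continuous_iff {Z : Type*} [TopologicalSpace Z] {F : Sp Q → Z} :
    Continuous F ↔ (∀ g s, Continuous fun r : I => F (mk (.e g s r))) ∧
      ∀ g τ, Continuous fun x : I × I => F (mk (.t g τ x.1 x.2)) := by
  rw [continuous_iff_le_induced]
  refine sup_le_iff.trans ?_
  simp only [iSup_le_iff, ← continuous_iff_le_induced, continuous_coinduced_dom]
  rfl

lemma continuous_e (g : Q.Grp) (s : α) : Continuous fun r : I => mk (.e g s r) :=
  (continuous_iff.mp continuous_id).1 g s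

lemma continuous_t (g : Q.Grp) (τ : T) : Continuous fun x : I × I => mk (.t g τ x.1 x.2) :=
  (continuous_iff.mp continuous_id).2 g τ

variable (Q)

/-- edges between two vertices -/
def Ed (u v : Q.Grp) : Type := {s : α // u * Q.gen s = v}

/-- triangles with given vertices -/
def Tr (u v w : Q.Grp) : Type := {τ : T // u * Q.gen (Q.a τ) = v ∧ v * Q.gen (Q.b τ) = w}

variable {Q}

/-- first side -/
def ea {u v w : Q.Grp} (t : Tr Q u v w) : Ed Q u v := ⟨Q.a t.1, t.2.1⟩

/-- second side -/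
def eb {u v w : Q.Grp} (t : Tr Q u v w) : Ed Q v w := ⟨Q.b t.1, t.2.2⟩

/-- third side -/
def ec {u v w : Q.Grp} (t : Tr Q u v w) : Ed Q u w :=
  ⟨Q.c t.1, by rw [← Q.gen_rel, ← mul_assoc, t.2.1, t.2.2]⟩

/-- an edge as a path -/
def ep {u v : Q.Grp} (e : Ed Q u v) : Path (mk (.v u)) (mk (.v v)) where
  toFun r := mk (.e u e.1 r)
  continuous_toFun := continuous_e _ _
  source' := mk_eq (.e0 _ _)
  target' := by rw [mk_eq (.e1 _ _), e.2]

lemma ep_apply {u v : Q.Grp} (e : Ed Q u v) (r : I) : ep e r = mk (.e u e.1 r) := rfl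

/-- a triangle as a homotopy -/
def tp {u v w : Q.Grp} (t : Tr Q u v w) : ((ep (ea t)).trans (ep (eb t))).Homotopy (ep (ec t)) where
  toFun x := mk (.t u t.1 x.1 x.2)
  continuous_toFun := continuous_t _ _
  map_zero_left r := by
    simp only [Path.coe_toContinuousMap, Path.trans_apply, ep_apply]
    split_ifs with h
    · exact mk_eq (.botL _ _ _ _ rfl)
    · obtain ⟨τ, rfl, h2⟩ := t
      exact mk_eq (.botR _ _ _ _ rfl)
  map_one_left r := mk_eq (.top _ _ _)
  prop' s r hr := by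
    rcases hr with rfl | rfl
    · simp only [ContinuousMap.coe_mk, Path.coe_toContinuousMap, Path.source]
      exact mk_eq (.t0 _ _ _)
    · simp only [ContinuousMap.coe_mk, Path.coe_toContinuousMap, Path.target]
      rw [mk_eq (.t1 _ _ _)]
      exact congrArg (fun g => mk (.v g)) (ec t).2

/-- the canonical triangle -/
def tr0 (g : Q.Grp) (τ : T) : Tr Q g (g * Q.gen (Q.a τ)) (g * Q.gen (Q.a τ) * Q.gen (Q.b τ)) :=
  ⟨τ, rfl, rfl⟩

/-- the canonical edge -/
def ed0 (g : Q.Grp) (s : α) : Ed Q g (g * Q.gen s) := ⟨s, rfl⟩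

lemma trans_lo {Z : Type*} [TopologicalSpace Z] {x y z : Z} (p : Path x y) (q : Path y z)
    {r r' : I} (h : (r' : ℝ) = 2 * r) : (p.trans q) r = p r' := by
  rw [Path.trans_apply, dif_pos (by linarith [r'.2.2])]
  congr 1
  exact Subtype.ext h.symm

lemma trans_hi {Z : Type*} [TopologicalSpace Z] {x y z : Z} (p : Path x y) (q : Path y z)
    {r r' : I} (h : (r' : ℝ) = 2 * r - 1) : (p.trans q) r = q r' := by
  rw [Path.trans_apply]
  split_ifs with hr
  · have h0 : r' = 0 := Subtype.ext (by simp only [Icc.coe_zero]; linarith [r'.2.1])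
    subst h0
    refine Eq.trans (congrArg p (Subtype.ext ?_ : _ = (1 : I))) (p.target.trans q.source.symm)
    simp only [Icc.coe_zero, Icc.coe_one] at h ⊢
    linarith
  · congr 1
    exact Subtype.ext h.symm

lemma univ_prop (Z : Type) [TopologicalSpace Z] (z : Q.Grp → Z)
    (p : ∀ {u v}, Ed Q u v → Path (z u) (z v))
    (h : ∀ {u v w} (t : Tr Q u v w), ((p (ea t)).trans (p (eb t))).Homotopy (p (ec t))) :
    ∃ F : C(Sp Q, Z), (∀ v, F (mk (.v v)) = z v) ∧
      (∀ u v (e : Ed Q u v) r, F (ep e r) = p e r) ∧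
      ∀ u v w (t : Tr Q u v w) x, F (tp t x) = h t x := by
  have hp : ∀ u v (e : Ed Q u v) r, p e r = p (ed0 u e.1) r := by
    rintro u v ⟨s, rfl⟩ r
    rfl
  let F0 : Pre Q → Z := fun x => match x with
    | .v g => z g
    | .e g s r => p (ed0 g s) r
    | .t g τ u r => h (tr0 g τ) (u, r)
  have hF0 : ∀ x y, Rel Q x y → F0 x = F0 y := by
    intro x y hxy
    cases hxy with
    | e0 g s => exact (p _).source
    | e1 g s => exact (p _).target
    | t0 g τ u => exact (h _).source u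
    | t1 g τ u =>
      refine ((h _).target u).trans ?_
      rw [mul_assoc, Q.gen_rel]
    | top g τ r => exact ((h _).apply_one r).trans (hp _ _ _ _)
    | botL g τ r r' hr => exact ((h _).apply_zero r).trans (trans_lo _ _ hr)
    | botR g τ r r' hr => exact ((h _).apply_zero r).trans (trans_hi _ _ hr)
  refine ⟨⟨Quot.lift F0 hF0, continuous_iff.mpr ⟨fun g s => (p (ed0 g s)).continuous,
    fun g τ => (h (tr0 g τ)).continuous⟩⟩, fun v => rfl, fun u v e r => (hp u v e r).symm, ?_⟩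
  rintro u v w ⟨τ, rfl, rfl⟩ x
  rfl

variable (Q)

/-- the cell structure of the Cayley complex -/
def tri2 : Tri2 (Sp Q) where
  V := Q.Grp
  Ed := Ed Q
  Tr := Tr Q
  ea := ea
  eb := eb
  ec := ec
  vtx g := mk (.v g)
  ep := ep
  tp := tp
  univ := univ_prop
  cover x := by
    obtain ⟨x, rfl⟩ := mk_surjective x
    cases x with
    | v g => exact Or.inl ⟨g, rfl⟩
    | e g s r => exact Or.inr (Or.inl ⟨_, _, ed0 g s, r, rfl⟩)
    | t g τ u r => exact Or.inr (Or.inr ⟨_, _, _, tr0 g τ, (u, r), rfl⟩)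

/-! ### Paths to the base point -/

local notation "qmk" => Path.Homotopic.Quotient.mk

/-- a choice of a path class to the base point for every vertex -/
def Sec : Type := ∀ g : Q.Grp, Path.Homotopic.Quotient (mk (.v g)) (mk (.v (1 : Q.Grp)))

variable {Q}

lemma sec_ed {u v : Q.Grp} (e : Ed Q u v) (γ : Sec Q) :
    (qmk (ep e)).trans (γ v) = (qmk (ep (ed0 u e.1))).trans (γ _) := by
  obtain ⟨s, rfl⟩ := e
  rfl

lemma sec_ed' {u u' v : Q.Grp} (e : Ed Q u v) (e' : Ed Q u' v) (h : e.1 = e'.1) (γ : Sec Q) :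
    (qmk (ep e)).symm.trans (γ u) = (qmk (ep e')).symm.trans (γ u') := by
  obtain ⟨s, hs⟩ := e
  obtain ⟨s', hs'⟩ := e'
  obtain rfl : s = s' := h
  obtain rfl : u = u' := mul_right_cancel (hs.trans hs'.symm)
  rfl

/-- the edge with a given end -/
def ed1 (g : Q.Grp) (s : α) : Ed Q (g * (Q.gen s)⁻¹) g := ⟨s, inv_mul_cancel_right _ _⟩

/-- a generator acts on the choices of paths -/
def secPerm (s : α) : Equiv.Perm (Sec Q) where
  toFun γ g := (qmk (ep (ed0 g s))).trans (γ _)
  invFun γ g := (qmk (ep (ed1 g s))).symm.trans (γ _)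
  left_inv γ := by
    funext g
    dsimp only
    exact (congrArg _ (sec_ed (ed1 g s) γ).symm).trans (trans_symm_cancel _ _)
  right_inv γ := by
    funext g
    dsimp only
    rw [sec_ed' (ed1 (g * Q.gen s) s) (ed0 g s) rfl, symm_trans_cancel]

lemma secPerm_rel (τ : T) : secPerm (Q := Q) (Q.a τ) * secPerm (Q.b τ) = secPerm (Q.c τ) := by
  ext γ
  funext g
  change (qmk (ep (ea (tr0 g τ)))).trans ((qmk (ep (eb (tr0 g τ)))).trans (γ _)) =
    (qmk (ep (ed0 g (ec (tr0 g τ)).1))).trans (γ _)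
  rw [← sec_ed, ← Path.Homotopic.Quotient.trans_assoc, ← Path.Homotopic.Quotient.mk_trans,
    Path.Homotopic.Quotient.eq.mpr ⟨tp (tr0 g τ)⟩]

/-- the action of the group on the choices of paths -/
def secHom : Q.Grp →* Equiv.Perm (Sec Q) :=
  PresentedGroup.toGroup (f := secPerm) (by
    rintro _ ⟨τ, rfl⟩
    simp [secPerm_rel])

lemma secHom_gen (s : α) : secHom (Q.gen s) = secPerm s := PresentedGroup.toGroup.of _

lemma joined_v (g : Q.Grp) : Joined (mk (.v g)) (mk (.v (1 : Q.Grp))) := by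
  have h : ∀ (x : FreeGroup α) (g : Q.Grp), Joined (mk (.v (g * Q.proj x))) (mk (.v g)) := by
    intro x
    induction x using FreeGroup.induction_on with
    | C1 => intro g; rw [map_one, mul_one]
    | of s => intro g; exact ⟨(ep (ed0 g s)).symm⟩
    | inv_of s _ =>
      intro g
      exact ⟨ep (⟨s, by simp⟩ : Ed Q (g * Q.proj (FreeGroup.of s)⁻¹) g)⟩
    | mul x y hx hy =>
      intro g
      rw [map_mul, ← mul_assoc]
      exact (hy _).trans (hx _)
  obtain ⟨x, rfl⟩ := Q.proj_surjective g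
  simpa using h x 1

lemma secHom_apply (γ0 : Sec Q) {u v : Q.Grp} (e : Ed Q u v) :
    (qmk (ep e)).trans (secHom v⁻¹ γ0 v) = secHom u⁻¹ γ0 u := by
  obtain ⟨s, rfl⟩ := e
  have h : secHom u⁻¹ γ0 = secPerm s (secHom (u * Q.gen s)⁻¹ γ0) := by
    rw [← secHom_gen, ← Equiv.Perm.mul_apply, ← map_mul]
    simp
  rw [h]
  rfl

lemma exists_paths : ∃ γ : ∀ g : Q.Grp, Path (mk (.v g)) (mk (.v (1 : Q.Grp))),
    ∀ u v (e : Ed Q u v), ((ep e).trans (γ v)).Homotopic (γ u) := by
  let γ0 : Sec Q := fun g => qmk (joined_v g).somePath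
  choose γ hγ using fun g : Q.Grp => Path.Homotopic.Quotient.mk_surjective (secHom g⁻¹ γ0 g)
  refine ⟨γ, fun u v e => Path.Homotopic.Quotient.eq.mp ?_⟩
  rw [Path.Homotopic.Quotient.mk_trans, hγ, hγ, secHom_apply]

lemma cobound (h : Q.Asph) (A : Type) [CommGroup A] (o : ∀ u v w, Tr Q u v w → A) :
    ∃ x : ∀ u v, Ed Q u v → A, ∀ u v w (t : Tr Q u v w),
      x u v (ea t) * x v w (eb t) = x u w (ec t) * o u v w t := by
  let O : ((Q.Grp × T) →₀ ℤ) →ₗ[ℤ] Additive A :=
    Finsupp.linearCombination ℤ fun p => Additive.ofMul (o _ _ _ (tr0 p.1 p.2))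
  refine ⟨fun u v e => Additive.toMul (O (Q.rho (Finsupp.single (u, e.1) 1))), ?_⟩
  rintro u v w ⟨τ, rfl, rfl⟩
  have h1 := congrArg O (h.rho_d2 (Finsupp.single (u, τ) 1))
  rw [Q.d2_single, one_smul, map_sub, map_add, map_sub, map_add] at h1
  have h2 : O (Finsupp.single (u, τ) 1) = Additive.ofMul (o _ _ _ (tr0 u τ)) := by
    simp [O]
  rw [h2, sub_eq_iff_eq_add'] at h1
  exact congrArg Additive.toMul h1

theorem contractible (h : Q.Asph) : ContractibleSpace (Sp Q) := by
  obtain ⟨γ, hγ⟩ := exists_paths (Q := Q)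
  exact (tri2 Q).contractible _ γ hγ (cobound h)

end Crest.Agent.R177.Top
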