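import Crest.Agent.R177.Perm

/-! Task VK, part 1: labelled planar maps with an explicit list of faces, and the basic moves. -/

set_option autoImplicit false

namespace Crest.Agent.R177

open Equiv

namespace VK

section Walk

variable {D : Type}

/-- `φ` walks from `a` through the list `l` and arrives at `b`. -/
def Walk (φ : Perm D) : D → List D → D → Prop
  | a, [], b => a = b
  | a, x :: l, b => a = x ∧ Walk φ (φ x) l b

theorem walk_nil {φ : Perm D} {a b : D} : Walk φ a [] b ↔ a = b := Iff.rfl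

theorem walk_cons {φ : Perm D} {a b x : D} {l : List D} :
    Walk φ a (x :: l) b ↔ a = x ∧ Walk φ (φ x) l b := Iff.rfl

theorem walk_append {φ : Perm D} {u v : List D} {a b : D} :
    Walk φ a (u ++ v) b ↔ ∃ c, Walk φ a u c ∧ Walk φ c v b := by
  induction u generalizing a with
  | nil => simp [walk_nil]
  | cons x u ih =>
    simp only [List.cons_append, walk_cons, ih]
    constructor
    · rintro ⟨h, c, h1, h2⟩; exact ⟨c, ⟨h, h1⟩, h2⟩
    · rintro ⟨c, ⟨h, h1⟩, h2⟩; exact ⟨h, c, h1, h2⟩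

theorem walk_concat {φ : Perm D} {u : List D} {a b p : D} :
    Walk φ a (u ++ [p]) b ↔ Walk φ a u p ∧ φ p = b := by
  rw [walk_append]
  constructor
  · rintro ⟨c, h1, h2, h3⟩
    subst h2
    exact ⟨h1, h3⟩
  · rintro ⟨h1, h2⟩
    exact ⟨p, h1, rfl, h2⟩

theorem Walk.congr {φ ψ : Perm D} {l : List D} {a b : D} (h : Walk φ a l b)
    (hψ : ∀ x ∈ l, ψ x = φ x) : Walk ψ a l b := by
  induction l generalizing a with
  | nil => exact h
  | cons x l ih =>
    refine ⟨h.1, ?_⟩
    rw [hψ x (by simp)]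
    exact ih h.2 (fun y hy => hψ y (by simp [hy]))

theorem Walk.sameCycle {φ : Perm D} {l : List D} {a b : D} (h : Walk φ a l b) :
    φ.SameCycle a b := by
  induction l generalizing a with
  | nil => rw [walk_nil.1 h]
  | cons x l ih =>
    rw [h.1]
    exact Perm.sameCycle_apply_left.1 (ih h.2)

theorem Walk.map {D' : Type} {φ : Perm D} {ψ : Perm D'} (ι : D → D') (hι : ∀ x, ψ (ι x) = ι (φ x))
    {l : List D} {a b : D} (h : Walk φ a l b) : Walk ψ (ι a) (l.map ι) (ι b) := by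
  induction l generalizing a with
  | nil => exact congrArg ι h
  | cons x l ih =>
    refine ⟨congrArg ι h.1, ?_⟩
    rw [hι]
    exact ih h.2

/-- the list `l` is a full turn around a cycle of `φ` -/
def Face (φ : Perm D) (l : List D) : Prop := ∃ a, Walk φ a l a

theorem Face.rot {φ : Perm D} {u v : List D} (h : Face φ (u ++ v)) : Face φ (v ++ u) := by
  obtain ⟨a, h⟩ := h
  obtain ⟨c, h1, h2⟩ := walk_append.1 h
  exact ⟨c, walk_append.2 ⟨a, h2, h1⟩⟩

theorem Face.congr {φ ψ : Perm D} {l : List D} (h : Face φ l) (hψ : ∀ x ∈ l, ψ x = φ x) :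
    Face ψ l := by
  obtain ⟨a, h⟩ := h
  exact ⟨a, h.congr hψ⟩

end Walk

section Letters

variable {α T : Type} (Q : TriPres α T)

theorem linv_linv (x : α × Bool) : linv (linv x) = x := by
  simp [linv]

theorem linv_ne (x : α × Bool) : linv x ≠ x := by
  intro h
  have := congrArg Prod.snd h
  simp [linv] at this

theorem letter_linv (x : α × Bool) : Q.letter (linv x) = (Q.letter x)⁻¹ := by
  rcases x with ⟨s, _ | _⟩ <;> simp [TriPres.letter, linv]

theorem ev_nil : Q.ev [] = 1 := rfl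

theorem ev_cons (x : α × Bool) (w : List (α × Bool)) : Q.ev (x :: w) = Q.letter x * Q.ev w := by
  simp [TriPres.ev]

theorem ev_append (u v : List (α × Bool)) : Q.ev (u ++ v) = Q.ev u * Q.ev v := by
  simp [TriPres.ev]

theorem gen_rel (t : T) : Q.gen (Q.a t) * Q.gen (Q.b t) = Q.gen (Q.c t) := by
  have h : PresentedGroup.mk Q.rels
      (FreeGroup.of (Q.a t) * FreeGroup.of (Q.b t) * (FreeGroup.of (Q.c t))⁻¹) = 1 :=
    PresentedGroup.one_of_mem ⟨t, rfl⟩
  rw [map_mul, map_mul, map_inv, mul_inv_eq_one] at h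
  exact h

theorem ev_side (τ : T × Bool) : Q.ev [Q.side τ 0, Q.side τ 1, Q.side τ 2] = 1 := by
  rcases τ with ⟨t, _ | _⟩ <;>
    simp [TriPres.ev, TriPres.side, TriPres.letter, ← gen_rel]

theorem side_mirror (τ : T × Bool) (k : Fin 3) :
    Q.side (τ.1, !τ.2) k = linv (Q.side τ (Fin.rev k)) := by
  rcases τ with ⟨t, _ | _⟩ <;> fin_cases k <;> rfl

end Letters

variable {α T : Type} {Q : TriPres α T} {D : Type} [Fintype D] [DecidableEq D]

/-- A planar map whose live darts (`ε d ≠ d`) carry letters and positions, together with the list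
of its faces; the other darts are isolated. -/
structure St (Q : TriPres α T) (lab : D → α × Bool) (pos : D → Q.Grp) (φ ε : Perm D)
    (fs : List (List D)) : Prop where
  invol : ∀ d, ε (ε d) = d
  gen : genus φ ε ≤ 0
  dead : ∀ d, ε d = d → φ d = d
  labε : ∀ d, ε d ≠ d → lab (ε d) = linv (lab d)
  posε : ∀ d, ε d ≠ d → pos (ε d) = pos d * Q.letter (lab d)
  posφ : ∀ d, ε d ≠ d → pos (φ d) = pos d * Q.letter (lab d)
  nodup : fs.flatten.Nodup
  face : ∀ l ∈ fs, Face φ l
  live : ∀ d, ε d ≠ d ↔ d ∈ fs.flatten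

variable {lab : D → α × Bool} {pos : D → Q.Grp} {φ ε : Perm D} {fs : List (List D)}

omit [Fintype D] [DecidableEq D] in
theorem St.of_faces (h : St Q lab pos φ ε fs) {fs' : List (List D)}
    (hp : fs'.flatten.Perm fs.flatten) (hf : ∀ l ∈ fs', Face φ l) : St Q lab pos φ ε fs' :=
  { h with
    nodup := hp.nodup_iff.2 h.nodup
    face := hf
    live := fun d => (h.live d).trans hp.mem_iff.symm }

omit [Fintype D] [DecidableEq D] in
theorem St.perm (h : St Q lab pos φ ε fs) {fs' : List (List D)} (hp : fs'.Perm fs) :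
    St Q lab pos φ ε fs' :=
  h.of_faces hp.flatten (fun l hl => h.face l (hp.mem_iff.1 hl))

omit [Fintype D] [DecidableEq D] in
theorem St.swap12 {u v : List D} (h : St Q lab pos φ ε (u :: v :: fs)) :
    St Q lab pos φ ε (v :: u :: fs) := h.perm (List.Perm.swap _ _ _)

omit [Fintype D] [DecidableEq D] in
theorem St.rot {u v : List D} (h : St Q lab pos φ ε ((u ++ v) :: fs)) :
    St Q lab pos φ ε ((v ++ u) :: fs) := by
  refine h.of_faces ?_ ?_
  · simp only [List.flatten_cons]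
    exact List.perm_append_comm.append_right _
  · intro l hl
    rcases List.mem_cons.1 hl with rfl | hl
    · exact (h.face _ (by simp)).rot
    · exact h.face l (by simp [hl])

omit [Fintype D] [DecidableEq D] in
theorem St.drop_nil (h : St Q lab pos φ ε ([] :: fs)) : St Q lab pos φ ε fs :=
  h.of_faces (by simp) (fun l hl => h.face l (by simp [hl]))

omit [Fintype D] [DecidableEq D] in
theorem St.add_nil (h : St Q lab pos φ ε fs) (a : D) : St Q lab pos φ ε ([] :: fs) := by
  refine h.of_faces (by simp) (fun l hl => ?_)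
  rcases List.mem_cons.1 hl with rfl | hl
  · exact ⟨a, rfl⟩
  · exact h.face l hl

omit [Fintype D] [DecidableEq D] in
theorem St.walk_pos (h : St Q lab pos φ ε fs) {l : List D} {a b : D} (hw : Walk φ a l b)
    (hl : ∀ x ∈ l, x ∈ fs.flatten) : pos b = pos a * Q.ev (l.map lab) := by
  induction l generalizing a with
  | nil => rw [walk_nil.1 hw]; simp [ev_nil]
  | cons x l ih =>
    rw [ih hw.2 (fun y hy => hl y (by simp [hy])), h.posφ x ((h.live x).2 (hl x (by simp))),
      hw.1, List.map_cons, ev_cons, mul_assoc]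

omit [Fintype D] in
/-- Change the face permutation by a transposition. -/
theorem St.switch (h : St Q lab pos φ ε fs) {p q : D} (hp : p ∈ fs.flatten) (hq : q ∈ fs.flatten)
    (hpos : pos (φ p) = pos (φ q)) (hg : genus (φ * swap p q) ε ≤ 0) {fs' : List (List D)}
    (hperm : fs'.flatten.Perm fs.flatten) (hf : ∀ l ∈ fs', Face (φ * swap p q) l) :
    St Q lab pos (φ * swap p q) ε fs' where
  invol := h.invol
  gen := hg
  dead d hd := by
    have h1 : d ∉ fs.flatten := fun hh => (h.live d).2 hh hd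
    have h2 : d ≠ p := fun e => h1 (e ▸ hp)
    have h3 : d ≠ q := fun e => h1 (e ▸ hq)
    rw [Perm.mul_apply, swap_apply_of_ne_of_ne h2 h3, h.dead d hd]
  labε := h.labε
  posε := h.posε
  posφ d hd := by
    rw [Perm.mul_apply, ← h.posφ d hd]
    by_cases h2 : d = p
    · rw [h2, swap_apply_left, hpos]
    · by_cases h3 : d = q
      · rw [h3, swap_apply_right, hpos]
      · rw [swap_apply_of_ne_of_ne h2 h3]
  nodup := hperm.nodup_iff.2 h.nodup
  face := hf
  live d := (h.live d).trans hperm.mem_iff.symm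

omit [Fintype D] in
theorem mul_swap_of_ne (φ : Perm D) {p q x : D} (h1 : x ≠ p) (h2 : x ≠ q) :
    (φ * swap p q) x = φ x := by
  rw [Perm.mul_apply, swap_apply_of_ne_of_ne h1 h2]

omit [Fintype D] in
/-- Join two faces. -/
theorem St.join {u v : List D} {p q : D} (h : St Q lab pos φ ε ((u ++ [p]) :: (v ++ [q]) :: fs))
    (hpos : pos (φ p) = pos (φ q)) (hg : genus (φ * swap p q) ε ≤ 0) :
    St Q lab pos (φ * swap p q) ε (((u ++ [p]) ++ (v ++ [q])) :: fs) := by
  have hn := h.nodup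
  refine h.switch (by simp) (by simp) hpos hg (by simp) ?_
  intro l hl
  simp only [List.flatten_cons, List.nodup_append, List.mem_append, List.mem_singleton] at hn
  rcases List.mem_cons.1 hl with rfl | hl
  · obtain ⟨a, ha⟩ := h.face (u ++ [p]) (by simp)
    obtain ⟨b, hb⟩ := h.face (v ++ [q]) (by simp)
    rw [walk_concat] at ha hb
    refine ⟨a, walk_append.2 ⟨b, walk_concat.2 ⟨ha.1.congr ?_, ?_⟩,
      walk_concat.2 ⟨hb.1.congr ?_, ?_⟩⟩⟩
    · intro x hx
      exact mul_swap_of_ne φ (hn.1.2.2 x hx p rfl) (hn.2.2 x (Or.inl hx) q (Or.inl (Or.inr rfl)))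
    · rw [Perm.mul_apply, swap_apply_left, hb.2]
    · intro x hx
      exact mul_swap_of_ne φ (hn.2.2 p (Or.inr rfl) x (Or.inl (Or.inl hx))).symm
        (hn.2.1.1.2.2 x hx q rfl)
    · rw [Perm.mul_apply, swap_apply_right, ha.2]
  · refine (h.face l (by simp [hl])).congr (fun x hx => ?_)
    have hx' : x ∈ fs.flatten := List.mem_flatten.2 ⟨l, hl, hx⟩
    exact mul_swap_of_ne φ (hn.2.2 p (Or.inr rfl) x (Or.inr hx')).symm
      (hn.2.1.2.2 q (Or.inr rfl) x hx').symm

/-- Split a face along a closed subpath. -/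
theorem St.split {u v : List D} (h : St Q lab pos φ ε ((u ++ v) :: fs))
    (hu : Q.ev (u.map lab) = 1) : ∃ φ', St Q lab pos φ' ε (u :: v :: fs) := by
  obtain ⟨a, ha⟩ := h.face (u ++ v) (by simp)
  rcases List.eq_nil_or_concat' u with rfl | ⟨u, p, rfl⟩
  · exact ⟨φ, St.add_nil h a⟩
  rcases List.eq_nil_or_concat' v with rfl | ⟨v, q, rfl⟩
  · rw [List.append_nil] at h
    exact ⟨φ, (St.add_nil h a).swap12⟩
  obtain ⟨b, h1, h2⟩ := walk_append.1 ha
  have hab : pos b = pos a := by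
    rw [h.walk_pos h1 (fun x hx => by simp only [List.flatten_cons, List.mem_append] at hx ⊢; tauto),
      hu, mul_one]
  rw [walk_concat] at h1 h2
  have hn := h.nodup
  simp only [List.flatten_cons, List.nodup_append, List.mem_append, List.mem_singleton] at hn
  have hpq : p ≠ q := hn.1.2.2 p (Or.inr rfl) q (Or.inr rfl)
  have hsc : φ.SameCycle p q := by
    have := h2.1.sameCycle
    rw [← h1.2] at this
    exact Perm.sameCycle_apply_left.1 this
  refine ⟨φ * swap p q, h.switch (by simp) (by simp) (by rw [h1.2, h2.2, hab])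
    ((genus_phi_split φ ε hpq hsc).trans h.gen) (by simp) ?_⟩
  intro l hl
  rcases List.mem_cons.1 hl with rfl | hl
  · refine ⟨a, walk_concat.2 ⟨h1.1.congr (fun x hx => ?_), ?_⟩⟩
    · exact mul_swap_of_ne φ (hn.1.1.2.2 x hx p rfl) (hn.1.2.2 x (Or.inl hx) q (Or.inr rfl))
    · rw [Perm.mul_apply, swap_apply_left, h2.2]
  rcases List.mem_cons.1 hl with rfl | hl
  · refine ⟨b, walk_concat.2 ⟨h2.1.congr (fun x hx => ?_), ?_⟩⟩
    · exact mul_swap_of_ne φ (hn.1.2.2 p (Or.inr rfl) x (Or.inl hx)).symm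
        (hn.1.2.1.2.2 x hx q rfl)
    · rw [Perm.mul_apply, swap_apply_right, h1.2]
  · refine (h.face l (by simp [hl])).congr (fun x hx => ?_)
    have hx' : x ∈ fs.flatten := List.mem_flatten.2 ⟨l, hl, hx⟩
    exact mul_swap_of_ne φ (hn.2.2 p (Or.inl (Or.inr rfl)) x hx').symm
      (hn.2.2 q (Or.inr (Or.inr rfl)) x hx').symm

/-- Two consecutive darts with inverse letters can be matched with each other. -/
theorem St.rematch (h : St Q lab pos φ ε fs) {c c' : D} (hc : ε c ≠ c) (hφ : φ c = c')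
    (hl : lab c' = linv (lab c)) : ∃ ε', St Q lab pos φ ε' fs ∧ ε' c = c' := by
  by_cases h0 : ε c = c'
  · exact ⟨ε, h, h0⟩
  have hcc' : c ≠ c' := fun e => linv_ne (lab c) (by rw [← hl, ← e])
  have hc' : ε c' ≠ c' := fun e => by
    have := h.dead c' e
    exact hcc' (φ.injective (by rw [this, hφ]))
  obtain ⟨x, hx⟩ : ∃ x, x = ε c := ⟨_, rfl⟩
  obtain ⟨y, hy⟩ : ∃ y, y = ε c' := ⟨_, rfl⟩
  have hx' : ε x = c := by rw [hx, h.invol]
  have hy' : ε y = c' := by rw [hy, h.invol]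
  have hxc : x ≠ c := by rw [hx]; exact hc
  have hxc' : x ≠ c' := by rw [hx]; exact h0
  have hyc' : y ≠ c' := by rw [hy]; exact hc'
  have hyc : y ≠ c := fun e => h0 (by rw [← e, hy'])
  have hxy : x ≠ y := fun e => hcc' (by rw [← hx', e, hy'])
  obtain ⟨ε₁, hε₁⟩ : ∃ ε₁, ε₁ = ε * swap x c' := ⟨_, rfl⟩
  obtain ⟨ε₂, hε₂⟩ : ∃ ε₂, ε₂ = ε₁ * swap y c := ⟨_, rfl⟩
  have a1 : ε₁ x = y := by rw [hε₁, Perm.mul_apply, swap_apply_left, hy]
  have a2 : ε₁ c' = c := by rw [hε₁, Perm.mul_apply, swap_apply_right, hx']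
  have a3 : ε₁ y = c' := by rw [hε₁, mul_swap_of_ne ε hxy.symm hyc', hy']
  have a4 : ε₁ c = x := by rw [hε₁, mul_swap_of_ne ε hxc.symm hcc', hx]
  have b1 : ε₂ x = y := by rw [hε₂, mul_swap_of_ne ε₁ hxy hxc, a1]
  have b2 : ε₂ c' = c := by rw [hε₂, mul_swap_of_ne ε₁ hyc'.symm hcc'.symm, a2]
  have b3 : ε₂ y = x := by rw [hε₂, Perm.mul_apply, swap_apply_left, a4]
  have b4 : ε₂ c = c' := by rw [hε₂, Perm.mul_apply, swap_apply_right, a3]
  have b5 : ∀ d, d ≠ c → d ≠ c' → d ≠ x → d ≠ y → ε₂ d = ε d := fun d h1 h2 h3 h4 => by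
    rw [hε₂, mul_swap_of_ne ε₁ h4 h1, hε₁, mul_swap_of_ne ε h3 h2]
  have g1 : genus φ ε₁ ≤ genus φ ε := by
    rw [hε₁]
    refine genus_eps_split' φ ε hxc' ⟨1, ?_⟩
    rw [zpow_one, Perm.mul_apply, hx', hφ]
  have g2 : genus φ ε₂ ≤ genus φ ε₁ := by
    rw [hε₂]
    refine genus_eps_split φ ε₁ hyc ⟨2, ?_⟩
    rw [zpow_two, Perm.mul_apply, a3, a2]
  have hxl : ε x ≠ x := by rw [hx']; exact hxc.symm
  have hyl : ε y ≠ y := by rw [hy']; exact hyc'.symm
  have cases4 : ∀ d, d = c ∨ d = c' ∨ d = x ∨ d = y ∨ (d ≠ c ∧ d ≠ c' ∧ d ≠ x ∧ d ≠ y) := by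
    intro d; tauto
  have hlive : ∀ d, ε₂ d ≠ d ↔ ε d ≠ d := by
    intro d
    rcases cases4 d with rfl | rfl | rfl | rfl | ⟨h1, h2, h3, h4⟩
    · rw [b4]; exact iff_of_true hcc'.symm hc
    · rw [b2]; exact iff_of_true hcc' hc'
    · rw [b1]; exact iff_of_true hxy.symm hxl
    · rw [b3]; exact iff_of_true hxy hyl
    · rw [b5 d h1 h2 h3 h4]
  have lx : lab x = linv (lab c) := by rw [hx]; exact h.labε c hc
  have ly : lab y = lab c := by rw [hy, h.labε c' hc', hl, linv_linv]
  have pc' : pos c' = pos c * Q.letter (lab c) := by rw [← hφ]; exact h.posφ c hc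
  have px : pos x = pos c * Q.letter (lab c) := by rw [hx]; exact h.posε c hc
  have py : pos y = pos c := by
    rw [hy, h.posε c' hc', pc', hl, letter_linv, mul_inv_cancel_right]
  refine ⟨ε₂, ⟨?_, (g2.trans g1).trans h.gen, ?_, ?_, ?_, ?_, h.nodup, h.face, ?_⟩, b4⟩
  · intro d
    rcases cases4 d with rfl | rfl | rfl | rfl | ⟨h1, h2, h3, h4⟩
    · rw [b4, b2]
    · rw [b2, b4]
    · rw [b1, b3]
    · rw [b3, b1]
    · rw [b5 d h1 h2 h3 h4, b5, h.invol]
      · intro e; exact h3 (by rw [hx, ← e, h.invol])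
      · intro e; exact h4 (by rw [hy, ← e, h.invol])
      · intro e; exact h1 (by rw [← hx', ← e, h.invol])
      · intro e; exact h2 (by rw [← hy', ← e, h.invol])
  · intro d hd
    exact h.dead d (by by_contra hh; exact (hlive d).2 hh hd)
  · intro d hd
    rcases cases4 d with rfl | rfl | rfl | rfl | ⟨h1, h2, h3, h4⟩
    · rw [b4, hl]
    · rw [b2, hl, linv_linv]
    · rw [b1, ly, lx, linv_linv]
    · rw [b3, lx, ly]
    · rw [b5 d h1 h2 h3 h4]; exact h.labε d ((hlive d).1 hd)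
  · intro d hd
    rcases cases4 d with rfl | rfl | rfl | rfl | ⟨h1, h2, h3, h4⟩
    · rw [b4, pc']
    · rw [b2, pc', hl, letter_linv, mul_inv_cancel_right]
    · rw [b1, py, px, lx, letter_linv, mul_inv_cancel_right]
    · rw [b3, px, py, ly]
    · rw [b5 d h1 h2 h3 h4]; exact h.posε d ((hlive d).1 hd)
  · intro d hd
    exact h.posφ d ((hlive d).1 hd)
  · intro d
    exact (hlive d).trans (h.live d)

/-- Remove a two-sided face whose sides are glued to each other. -/
theorem St.kill {c c' : D} (h : St Q lab pos φ ε ([c, c'] :: fs)) (hε : ε c = c') :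
    St Q lab pos (φ * swap c c') (ε * swap c c') fs := by
  have hn := h.nodup
  simp only [List.flatten_cons, List.cons_append, List.nil_append, List.nodup_cons,
    List.mem_cons, not_or] at hn
  obtain ⟨⟨hcc', hc⟩, hc', hn⟩ := hn
  obtain ⟨a, ha1, ha2, ha3⟩ := h.face [c, c'] (by simp)
  have f1 : φ c = c' := ha2
  have f2 : φ c' = c := by rw [← ha1]; exact ha3
  have e2 : ε c' = c := by rw [← hε, h.invol]
  have b1 : (ε * swap c c') c = c := by rw [Perm.mul_apply, swap_apply_left, e2]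
  have b2 : (ε * swap c c') c' = c' := by rw [Perm.mul_apply, swap_apply_right, hε]
  have g1 : genus φ (ε * swap c c') ≤ genus φ ε :=
    genus_eps_split φ ε hcc' ⟨1, by rw [zpow_one, hε]⟩
  have g2 : genus (φ * swap c c') (ε * swap c c') ≤ genus φ (ε * swap c c') :=
    genus_phi_split φ _ hcc' ⟨1, by rw [zpow_one, f1]⟩
  have hne : ∀ d, (ε * swap c c') d ≠ d → d ≠ c ∧ d ≠ c' := fun d hd =>
    ⟨fun e => hd (by rw [e, b1]), fun e => hd (by rw [e, b2])⟩
  have hlive : ∀ d, (ε * swap c c') d ≠ d → ε d ≠ d := fun d hd => by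
    rwa [mul_swap_of_ne ε (hne d hd).1 (hne d hd).2] at hd
  refine ⟨?_, (g2.trans g1).trans h.gen, ?_, ?_, ?_, ?_, hn, ?_, ?_⟩
  · intro d
    by_cases h1 : d = c
    · rw [h1, b1, b1]
    by_cases h2 : d = c'
    · rw [h2, b2, b2]
    rw [mul_swap_of_ne ε h1 h2, mul_swap_of_ne ε, h.invol]
    · intro e; exact h2 (by rw [← hε, ← e, h.invol])
    · intro e; exact h1 (by rw [← e2, ← e, h.invol])
  · intro d hd
    by_cases h1 : d = c
    · rw [h1, Perm.mul_apply, swap_apply_left, f2]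
    by_cases h2 : d = c'
    · rw [h2, Perm.mul_apply, swap_apply_right, f1]
    rw [mul_swap_of_ne ε h1 h2] at hd
    rw [mul_swap_of_ne φ h1 h2, h.dead d hd]
  · intro d hd
    rw [mul_swap_of_ne ε (hne d hd).1 (hne d hd).2]
    exact h.labε d (hlive d hd)
  · intro d hd
    rw [mul_swap_of_ne ε (hne d hd).1 (hne d hd).2]
    exact h.posε d (hlive d hd)
  · intro d hd
    rw [mul_swap_of_ne φ (hne d hd).1 (hne d hd).2]
    exact h.posφ d (hlive d hd)
  · intro l hl
    refine (h.face l (by simp [hl])).congr (fun x hx => ?_)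
    have hx' : x ∈ fs.flatten := List.mem_flatten.2 ⟨l, hl, hx⟩
    exact mul_swap_of_ne φ (fun e => hc (e ▸ hx')) (fun e => hc' (e ▸ hx'))
  · intro d
    constructor
    · intro hd
      have := (h.live d).1 (hlive d hd)
      simp only [List.flatten_cons, List.cons_append, List.nil_append, List.mem_cons] at this
      rcases this with e | e | e
      · exact absurd e (hne d hd).1
      · exact absurd e (hne d hd).2
      · exact e
    · intro hd
      rw [mul_swap_of_ne ε (fun e : d = c => hc (e ▸ hd)) (fun e : d = c' => hc' (e ▸ hd))]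
      exact (h.live d).2 (by simp only [List.flatten_cons, List.mem_append]; exact Or.inr hd)

/-- Fold two consecutive sides with inverse letters. -/
theorem St.fold {c c' : D} {l : List D} (h : St Q lab pos φ ε ((c :: c' :: l) :: fs))
    (hl : lab c' = linv (lab c)) : ∃ φ' ε', St Q lab pos φ' ε' (l :: fs) := by
  obtain ⟨φ₁, h₁⟩ := St.split (u := [c, c']) (v := l) h
    (by simp [ev_cons, ev_nil, hl, letter_linv])
  obtain ⟨a, -, ha2, -⟩ := h₁.face [c, c'] (by simp)
  obtain ⟨ε₁, h₂, he⟩ := h₁.rematch ((h₁.live c).2 (by simp)) ha2 hl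
  exact ⟨_, _, h₂.kill he⟩

/-- Remove two triangles that are mirror images across a glued side. -/
theorem St.dipole {d d₁ d₂ e e₁ e₂ : D} (h : St Q lab pos φ ε ([d, d₁, d₂] :: [e, e₁, e₂] :: fs))
    (hε : ε d = e) (h₁ : lab e₁ = linv (lab d₂)) (h₂ : lab e₂ = linv (lab d₁)) :
    ∃ φ' ε', St Q lab pos φ' ε' fs := by
  have hd : ε d ≠ d := (h.live d).2 (by simp)
  have he : ε e ≠ e := (h.live e).2 (by simp)
  have hε' : ε e = d := by rw [← hε, h.invol]
  obtain ⟨a, ha1, -, -, ha4⟩ := h.face [d, d₁, d₂] (by simp)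
  have f1 : φ d₂ = d := by rw [← ha1]; exact ha4
  have hn := h.nodup
  have hne : d₂ ≠ e := by
    intro hh
    simp [hh] at hn
  -- faces `[d, d₁, d₂]` and `[e₁, e₂, e]`
  have k1 : St Q lab pos φ ε (([d, d₁] ++ [d₂]) :: ([e₁, e₂] ++ [e]) :: fs) :=
    (St.rot (u := [e]) (v := [e₁, e₂]) h.swap12).swap12
  have hinv : ∀ x, ε⁻¹ x = ε x := fun x => by
    rw [Perm.inv_eq_iff_eq, h.invol]
  have k2 := k1.join (by rw [f1, h.posφ e he, ← h.posε e he, hε'])
    ((genus_phi_split' φ ε hne ⟨1, by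
      rw [zpow_one, hinv, hinv, Perm.mul_apply, h.invol, f1, hε']⟩).trans h.gen)
  -- now the face is `[d, d₁, d₂, e₁, e₂, e]`
  obtain ⟨φ₃, ε₃, k3⟩ := St.fold (c := e) (c' := d) (l := [d₁, d₂, e₁, e₂])
    (St.rot (u := [d, d₁, d₂, e₁, e₂]) (v := [e]) k2) (by rw [← hε']; exact h.labε e he)
  obtain ⟨φ₄, ε₄, k4⟩ := St.fold (c := d₂) (c' := e₁) (l := [e₂, d₁])
    (St.rot (u := [d₁]) (v := [d₂, e₁, e₂]) k3) h₁
  obtain ⟨φ₅, ε₅, k5⟩ := St.fold (c := e₂) (c' := d₁) (l := []) k4 (by rw [h₂, linv_linv])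
  exact ⟨φ₅, ε₅, k5.drop_nil⟩

end VK

end Crest.Agent.R177
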