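import Crest.Agent.R177.VKAux1

/-! Task VK, part 2: closed diagrams for null-homotopic words, reduction, cutting. -/

set_option autoImplicit false

namespace Crest.Agent.R177

open Equiv

namespace VK

variable {α T : Type} {Q : TriPres α T}

section Ins

variable {D : Type} [Fintype D] [DecidableEq D]
variable {lab : D → α × Bool} {pos : D → Q.Grp} {φ ε : Perm D} {fs : List (List D)}

/-- letters after adding a new edge -/
def labS (lab : D → α × Bool) (x : α × Bool) : D ⊕ Bool → α × Bool :=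
  Sum.elim lab (fun b => if b then x else linv x)

/-- positions after adding a new edge -/
def posS (pos : D → Q.Grp) (g : Q.Grp) (x : α × Bool) : D ⊕ Bool → Q.Grp :=
  Sum.elim pos (fun b => if b then g else g * Q.letter x)

theorem genus_bigon : genus (swap true false) (swap true false) ≤ 0 := by
  have h := genus_eps_split' (swap true false) (1 : Perm Bool) (a := true) (b := false)
    (by decide) ⟨1, by simp⟩
  rwa [one_mul, genus_one] at h

/-- Add a sphere with one edge and one face. -/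
theorem St.bigon (h : St Q lab pos φ ε fs) (g : Q.Grp) (x : α × Bool) :
    St Q (labS lab x) (posS pos g x) (Perm.sumCongr φ (swap true false))
      (Perm.sumCongr ε (swap true false))
      ([Sum.inr true, Sum.inr false] :: fs.map (List.map Sum.inl)) where
  invol := by
    rintro (d | _ | _) <;> simp [h.invol]
  gen := by
    rw [genus_sumCongr]
    have := h.gen
    have := genus_bigon
    omega
  dead := by
    rintro (d | _ | _) <;> simp
    exact h.dead d
  labε := by
    rintro (d | _ | _) <;> simp [labS, linv_linv]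
    exact h.labε d
  posε := by
    rintro (d | _ | _) <;> simp [labS, posS, letter_linv]
    exact h.posε d
  posφ := by
    rintro (d | _ | _) <;> simp [labS, posS, letter_linv]
    exact h.posφ d
  nodup := by
    rw [List.flatten_cons, ← List.map_flatten]
    simp only [List.cons_append, List.nil_append, List.nodup_cons]
    refine ⟨by simp, by simp, h.nodup.map Sum.inl_injective⟩
  face := by
    intro l hl
    rcases List.mem_cons.1 hl with rfl | hl
    · exact ⟨Sum.inr true, rfl, by simp, by simp [walk_nil]⟩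
    · obtain ⟨l', hl', rfl⟩ := List.mem_map.1 hl
      obtain ⟨a, ha⟩ := h.face l' hl'
      exact ⟨Sum.inl a, ha.map Sum.inl (fun _ => rfl)⟩
  live := by
    rw [List.flatten_cons, ← List.map_flatten]
    rintro (d | _ | _)
    · simpa using h.live d
    · simp
    · simp

/-- Insert a backtracking edge into the first face. -/
theorem St.ins {l : List D} (h : St Q lab pos φ ε (l :: fs)) (g : Q.Grp) (x : α × Bool)
    (hg : ∀ a ∈ l.head?, pos a = g) :
    ∃ φ' ε', St Q (labS lab x) (posS pos g x) φ' ε'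
      (([Sum.inr true, Sum.inr false] ++ l.map Sum.inl) :: fs.map (List.map Sum.inl)) := by
  have h1 := h.bigon g x
  rcases List.eq_nil_or_concat' l with rfl | ⟨v, q, rfl⟩
  · exact ⟨_, _, h1.swap12.drop_nil⟩
  obtain ⟨b, hb⟩ := h.face (v ++ [q]) (by simp)
  have hbg : pos b = g := by
    refine hg b ?_
    rcases v with _ | ⟨y, v⟩
    · simp [hb.1]
    · simp [hb.1]
  rw [walk_concat] at hb
  have h2 : St Q (labS lab x) (posS pos g x) (Perm.sumCongr φ (swap true false))
      (Perm.sumCongr ε (swap true false))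
      (([Sum.inr true] ++ [Sum.inr false]) :: (v.map Sum.inl ++ [Sum.inl q]) ::
        fs.map (List.map Sum.inl)) := by simpa using h1
  have hnc : ¬ Conn (Perm.sumCongr φ (swap true false)) (Perm.sumCongr ε (swap true false))
      (Sum.inr false) (Sum.inl q) := by
    intro hc
    have := Conn.le (s := fun a b : D ⊕ Bool => a.isLeft = b.isLeft)
      ⟨fun _ => rfl, fun h => h.symm, fun h h' => h.trans h'⟩
      (by rintro (d | d) <;> rfl) (by rintro (d | d) <;> rfl) hc
    simp at this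
  have h3 := h2.join (by simp [posS, hb.2, hbg])
    (by rw [genus_phi_join _ _ hnc]; exact h2.gen)
  exact ⟨_, _, by simpa using h3⟩

end Ins

/-- the darts of the path that starts at `g` and reads `w` -/
def path (Q : TriPres α T) : Q.Grp → List (α × Bool) → List (Q.Grp × (α × Bool))
  | _, [] => []
  | g, x :: w => (g, x) :: path Q (g * Q.letter x) w

theorem path_append (g : Q.Grp) (u v : List (α × Bool)) :
    path Q g (u ++ v) = path Q g u ++ path Q (g * Q.ev u) v := by
  induction u generalizing g with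
  | nil => simp [path, ev_nil]
  | cons x u ih => simp [path, ih, ev_cons, mul_assoc]

theorem path_snd (g : Q.Grp) (w : List (α × Bool)) : (path Q g w).map Prod.snd = w := by
  induction w generalizing g with
  | nil => rfl
  | cons x w ih => simp [path, ih]

theorem path_head {D : Type} {lab : D → α × Bool} {pos : D → Q.Grp} {l : List D} {g : Q.Grp}
    {w : List (α × Bool)} (h : l.map (fun d => (pos d, lab d)) = path Q g w) :
    ∀ a ∈ l.head?, pos a = g := by
  intro a ha
  rcases l with _ | ⟨b, l⟩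
  · simp at ha
  · rcases w with _ | ⟨x, w⟩
    · simp [path] at h
    · simp only [List.head?_cons, Option.mem_def, Option.some.injEq] at ha
      simp only [List.map_cons, path, List.cons.injEq, Prod.mk.injEq] at h
      rw [← ha, h.1.1]

/-- the darts of a triangle -/
def tface {D : Type} (t : (Fin 3 → D) × (T × Bool)) : List D := [t.1 0, t.1 1, t.1 2]

/-- the chain of a triangle -/
noncomputable def chain {D : Type} (pos : D → Q.Grp) (t : (Fin 3 → D) × (T × Bool)) :
    (Q.Grp × T) →₀ ℤ := Finsupp.single (pos (t.1 0), t.2.1) (sgn t.2.2)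

/-- A planar diagram with one face reading `w` and triangles carrying the chain `-z`. -/
def Cl (Q : TriPres α T) (w : List (α × Bool)) (z : (Q.Grp × T) →₀ ℤ) : Prop :=
  ∃ (D : Type) (_ : Fintype D) (_ : DecidableEq D) (lab : D → α × Bool) (pos : D → Q.Grp)
    (φ ε : Perm D) (out : List D) (ts : List ((Fin 3 → D) × (T × Bool))),
    St Q lab pos φ ε (out :: ts.map tface) ∧ out.map (fun d => (pos d, lab d)) = path Q 1 w ∧
      (∀ t ∈ ts, ∀ k, lab (t.1 k) = Q.side t.2 k) ∧ (ts.map (chain pos)).sum = -z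

theorem Cl.nil (x₀ : α × Bool) : Cl Q [] 0 := by
  refine ⟨Unit, inferInstance, inferInstance, fun _ => x₀, fun _ => 1, 1, 1, [], [],
    ⟨fun _ => rfl, (genus_one _).le, fun _ _ => rfl, by simp, by simp, by simp, by simp, ?_,
      by simp⟩, rfl, by simp, by simp⟩
  intro l hl
  rw [List.map_nil, List.mem_singleton] at hl
  rw [hl]
  exact ⟨(), rfl⟩

theorem Cl.ins {w₁ w₂ : List (α × Bool)} {z : (Q.Grp × T) →₀ ℤ} (h : Cl Q (w₁ ++ w₂) z)
    (hev : Q.ev (w₁ ++ w₂) = 1) (x : α × Bool) : Cl Q (w₁ ++ [x, linv x] ++ w₂) z := by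
  obtain ⟨D, _, _, lab, pos, φ, ε, out, ts, hst, hout, hlab, hz⟩ := h
  rw [path_append, one_mul] at hout
  obtain ⟨o₁, o₂, rfl, h₁, h₂⟩ := List.map_eq_append_iff.1 hout
  have hrot : (o₂ ++ o₁).map (fun d => (pos d, lab d)) = path Q (Q.ev w₁) (w₂ ++ w₁) := by
    rw [path_append, ← ev_append, hev, List.map_append, h₁, h₂]
  obtain ⟨φ', ε', h'⟩ := hst.rot.ins (Q.ev w₁) x (path_head hrot)
  refine ⟨D ⊕ Bool, inferInstance, inferInstance, labS lab x, posS pos (Q.ev w₁) x, φ', ε',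
    o₁.map Sum.inl ++ ([Sum.inr true, Sum.inr false] ++ o₂.map Sum.inl),
    ts.map (fun t => (Sum.inl ∘ t.1, t.2)), ?_, ?_, ?_, ?_⟩
  · have e : (ts.map (fun t => ((Sum.inl ∘ t.1, t.2) : (Fin 3 → D ⊕ Bool) × (T × Bool)))).map tface
        = (ts.map tface).map (List.map Sum.inl) := by
      simp [tface]
    rw [e]
    refine St.rot ?_
    simpa using h'
  · rw [List.append_assoc, path_append, path_append, one_mul, ← h₁]
    have e : Q.ev [x, linv x] = 1 := by simp [ev_cons, ev_nil, letter_linv]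
    rw [e, mul_one, ← h₂]
    simp [path, labS, posS, Function.comp_def]
  · intro t ht k
    obtain ⟨t', ht', rfl⟩ := List.mem_map.1 ht
    exact hlab t' ht' k
  · rw [← hz, List.map_map]
    rfl

theorem Cl.del {w₁ w₂ : List (α × Bool)} {z : (Q.Grp × T) →₀ ℤ} {x : α × Bool}
    (h : Cl Q (w₁ ++ [x, linv x] ++ w₂) z) : Cl Q (w₁ ++ w₂) z := by
  obtain ⟨D, _, _, lab, pos, φ, ε, out, ts, hst, hout, hlab, hz⟩ := h
  have e : Q.ev [x, linv x] = 1 := by simp [ev_cons, ev_nil, letter_linv]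
  rw [List.append_assoc, path_append, path_append, one_mul, e, mul_one] at hout
  obtain ⟨o₁, o, rfl, h₁, h₂⟩ := List.map_eq_append_iff.1 hout
  simp only [path, List.cons_append, List.nil_append] at h₂
  obtain ⟨c, o, rfl, hc, h₂⟩ := List.map_eq_cons_iff.1 h₂
  obtain ⟨c', o₂, rfl, hc', h₂⟩ := List.map_eq_cons_iff.1 h₂
  obtain ⟨φ', ε', h'⟩ := St.fold (c := c) (c' := c') (l := o₂ ++ o₁) hst.rot
    (by rw [(Prod.mk.inj hc).2, (Prod.mk.inj hc').2])
  refine ⟨D, inferInstance, inferInstance, lab, pos, φ', ε', o₁ ++ o₂, ts, h'.rot, ?_, hlab, hz⟩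
  rw [path_append, one_mul, List.map_append, h₁, h₂]

theorem ev_ins {w₁ w₂ : List (α × Bool)} (x : α × Bool) :
    Q.ev (w₁ ++ [x, linv x] ++ w₂) = Q.ev (w₁ ++ w₂) := by
  simp [ev_append, ev_cons, letter_linv]

theorem Cl.tri {w₁ w₂ : List (α × Bool)} {z : (Q.Grp × T) →₀ ℤ} (h : Cl Q (w₁ ++ w₂) z)
    (hev : Q.ev (w₁ ++ w₂) = 1) (τ : T × Bool) :
    Cl Q (w₁ ++ [Q.side τ 0, Q.side τ 1, Q.side τ 2] ++ w₂)
      (z + Finsupp.single (Q.ev w₁, τ.1) (sgn τ.2)) := by
  have k0 := h.ins hev (Q.side τ 0)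
  have e0 := (ev_ins (Q := Q) (w₁ := w₁) (w₂ := w₂) (Q.side τ 0)).trans hev
  have r0 : w₁ ++ [Q.side τ 0, linv (Q.side τ 0)] ++ w₂ =
      (w₁ ++ [Q.side τ 0]) ++ (linv (Q.side τ 0) :: w₂) := by simp
  rw [r0] at k0 e0
  have k1 := k0.ins e0 (Q.side τ 1)
  have e1 := (ev_ins (Q := Q) (Q.side τ 1)).trans e0
  have r1 : w₁ ++ [Q.side τ 0] ++ [Q.side τ 1, linv (Q.side τ 1)] ++ (linv (Q.side τ 0) :: w₂) =
      (w₁ ++ [Q.side τ 0, Q.side τ 1]) ++ (linv (Q.side τ 1) :: linv (Q.side τ 0) :: w₂) := by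
    simp
  rw [r1] at k1 e1
  have k2 := k1.ins e1 (Q.side τ 2)
  have r2 : w₁ ++ [Q.side τ 0, Q.side τ 1] ++ [Q.side τ 2, linv (Q.side τ 2)] ++
      (linv (Q.side τ 1) :: linv (Q.side τ 0) :: w₂) =
      (w₁ ++ [Q.side τ 0, Q.side τ 1, Q.side τ 2]) ++
        ([Q.side (τ.1, !τ.2) 0, Q.side (τ.1, !τ.2) 1, Q.side (τ.1, !τ.2) 2] ++ w₂) := by
    simp [side_mirror, Fin.rev]
  rw [r2] at k2
  obtain ⟨D, _, _, lab, pos, φ, ε, out, ts, hst, hout, hlab, hz⟩ := k2
  rw [path_append, path_append _ _ w₂, one_mul, ev_side, mul_one, ev_append, ev_side,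
    mul_one] at hout
  obtain ⟨o₁, o, rfl, h₁, h₂⟩ := List.map_eq_append_iff.1 hout
  simp only [path, List.cons_append, List.nil_append] at h₂
  obtain ⟨y₀, o, rfl, hy₀, h₂⟩ := List.map_eq_cons_iff.1 h₂
  obtain ⟨y₁, o, rfl, hy₁, h₂⟩ := List.map_eq_cons_iff.1 h₂
  obtain ⟨y₂, o₂, rfl, hy₂, h₂⟩ := List.map_eq_cons_iff.1 h₂
  obtain ⟨φ', h'⟩ := St.split (u := [y₀, y₁, y₂]) (v := o₂ ++ o₁) hst.rot (by
    simp only [List.map_cons, List.map_nil]
    rw [(Prod.mk.inj hy₀).2, (Prod.mk.inj hy₁).2, (Prod.mk.inj hy₂).2, ev_side])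
  refine ⟨D, inferInstance, inferInstance, lab, pos, φ', ε, o₁ ++ o₂,
    (![y₀, y₁, y₂], (τ.1, !τ.2)) :: ts, h'.swap12.rot, ?_, ?_, ?_⟩
  · rw [path_append, one_mul, List.map_append, h₁, h₂, ev_append, ev_side, mul_one]
  · intro t ht k
    rcases List.mem_cons.1 ht with rfl | ht
    · fin_cases k
      · exact (Prod.mk.inj hy₀).2
      · exact (Prod.mk.inj hy₁).2
      · exact (Prod.mk.inj hy₂).2
    · exact hlab t ht k
  · rw [List.map_cons, List.sum_cons, hz]
    have e : sgn (!τ.2) = - sgn τ.2 := by cases τ.2 <;> simp [sgn]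
    have e' : chain pos (![y₀, y₁, y₂], (τ.1, !τ.2)) =
        - Finsupp.single (Q.ev w₁, τ.1) (sgn τ.2) := by
      rw [← Finsupp.single_neg, ← e, ← (Prod.mk.inj hy₀).1]
      rfl
    rw [e']
    abel

theorem null_cl (x₀ : α × Bool) {w : List (α × Bool)} {z : (Q.Grp × T) →₀ ℤ} (h : Q.Null w z) :
    Q.ev w = 1 ∧ Cl Q w z := by
  induction h with
  | nil => exact ⟨rfl, Cl.nil x₀⟩
  | ins w₁ w₂ x z _ ih => exact ⟨(ev_ins x).trans ih.1, ih.2.ins ih.1 x⟩
  | del w₁ w₂ x z _ ih => exact ⟨(ev_ins x).symm.trans ih.1, ih.2.del⟩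
  | tri w₁ w₂ τ z _ ih =>
    refine ⟨?_, ih.2.tri ih.1 τ⟩
    rw [ev_append, ev_append, ev_side, mul_one, ← ev_append, ih.1]

section Reduce

variable {D : Type} [Fintype D] [DecidableEq D] {lab : D → α × Bool} {pos : D → Q.Grp}

omit [Fintype D] [DecidableEq D] in
theorem St.tri_face {φ ε : Perm D} {fs : List (List D)} (h : St Q lab pos φ ε fs)
    {t : (Fin 3 → D) × (T × Bool)} (ht : tface t ∈ fs) :
    φ (t.1 0) = t.1 1 ∧ φ (t.1 1) = t.1 2 ∧ φ (t.1 2) = t.1 0 ∧ ∀ k, ε (t.1 k) ≠ t.1 k := by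
  obtain ⟨a, h0, h1, h2, h3⟩ := h.face _ ht
  refine ⟨h1, h2, by rw [← h0]; exact h3, fun k => (h.live _).2 (List.mem_flatten.2 ⟨_, ht, ?_⟩)⟩
  fin_cases k <;> simp [tface]

/-- Two mirror triangles cancel. -/
theorem St.cancel {φ ε : Perm D} {fs : List (List D)} {t t' : (Fin 3 → D) × (T × Bool)}
    (h : St Q lab pos φ ε (tface t :: tface t' :: fs)) (hl : ∀ k, lab (t.1 k) = Q.side t.2 k)
    (hl' : ∀ k, lab (t'.1 k) = Q.side t'.2 k) (hm : t'.2 = (t.2.1, !t.2.2)) (k : Fin 3)
    (hε : ε (t.1 k) = t'.1 (Fin.rev k)) :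
    (∃ φ' ε', St Q lab pos φ' ε' fs) ∧ chain pos t + chain pos t' = 0 := by
  have hmir : ∀ k, lab (t'.1 k) = linv (lab (t.1 (Fin.rev k))) := fun k => by
    rw [hl', hl, hm, side_mirror]
  obtain ⟨f0, f1, f2, hv⟩ := h.tri_face (t := t) (by simp)
  obtain ⟨g0, g1, g2, hv'⟩ := h.tri_face (t := t') (by simp)
  have hpe : ∀ d, ε d ≠ d → pos (φ d) = pos (ε d) := fun d hd => by
    rw [h.posφ d hd, h.posε d hd]
  have hε' : ε (t'.1 (Fin.rev k)) = t.1 k := by rw [← hε, h.invol]
  have hsum : pos (t'.1 0) = pos (t.1 0) → chain pos t + chain pos t' = 0 := by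
    intro hp
    have e : sgn (!t.2.2) = - sgn t.2.2 := by cases t.2.2 <;> simp [sgn]
    unfold chain
    rw [hp, hm, e, Finsupp.single_neg, add_neg_cancel]
  fin_cases k
  · refine ⟨St.dipole (d := t.1 0) (d₁ := t.1 1) (d₂ := t.1 2) (e := t'.1 2) (e₁ := t'.1 0)
      (e₂ := t'.1 1) (St.rot (u := [t'.1 0, t'.1 1]) (v := [t'.1 2]) h.swap12).swap12 hε
      (hmir 0) (hmir 1), hsum ?_⟩
    rw [← g2, hpe _ (hv' 2)]
    exact congrArg pos hε'
  · refine ⟨St.dipole (d := t.1 1) (d₁ := t.1 2) (d₂ := t.1 0) (e := t'.1 1) (e₁ := t'.1 2)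
      (e₂ := t'.1 0) (St.rot (u := [t'.1 0]) (v := [t'.1 1, t'.1 2])
        (St.rot (u := [t.1 0]) (v := [t.1 1, t.1 2]) h).swap12).swap12 hε
      (hmir 2) (hmir 0), hsum ?_⟩
    have a1 : pos (t'.1 2) = pos (t.1 1) := by
      rw [← g1, hpe _ (hv' 1)]
      exact congrArg pos hε'
    rw [← g2, h.posφ _ (hv' 2), a1, ← f0, h.posφ _ (hv 0), hmir 2, letter_linv]
    exact mul_inv_cancel_right _ _
  · refine ⟨St.dipole (d := t.1 2) (d₁ := t.1 0) (d₂ := t.1 1) (e := t'.1 0) (e₁ := t'.1 1)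
      (e₂ := t'.1 2) (St.rot (u := [t.1 0, t.1 1]) (v := [t.1 2]) h) hε
      (hmir 1) (hmir 2), hsum ?_⟩
    rw [← f2, hpe _ (hv 2)]
    exact (congrArg pos hε).symm

theorem reduce (out : List D) (n : ℕ) : ∀ (ts : List ((Fin 3 → D) × (T × Bool))) (φ ε : Perm D),
    ts.length = n → St Q lab pos φ ε (out :: ts.map tface) →
    (∀ t ∈ ts, ∀ k, lab (t.1 k) = Q.side t.2 k) →
    ∃ (ts' : List ((Fin 3 → D) × (T × Bool))) (φ' ε' : Perm D),
      St Q lab pos φ' ε' (out :: ts'.map tface) ∧ (∀ t ∈ ts', ∀ k, lab (t.1 k) = Q.side t.2 k) ∧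
      (ts'.map (chain pos)).sum = (ts.map (chain pos)).sum ∧
      ∀ t ∈ ts', ∀ t' ∈ ts', ∀ k, ε' (t.1 k) = t'.1 (Fin.rev k) → t'.2 ≠ (t.2.1, !t.2.2) := by
  classical
  induction n using Nat.strong_induction_on with
  | _ n ih =>
    intro ts φ ε hn hst hlab
    by_cases hred : ∀ t ∈ ts, ∀ t' ∈ ts, ∀ k, ε (t.1 k) = t'.1 (Fin.rev k) →
        t'.2 ≠ (t.2.1, !t.2.2)
    · exact ⟨ts, φ, ε, hst, hlab, rfl, hred⟩
    push Not at hred
    obtain ⟨t, ht, t', ht', k, hε, hm⟩ := hred
    have hne : t' ≠ t := by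
      intro e
      rw [e] at hm
      have := congrArg Prod.snd hm
      simp at this
    have hp : ts.Perm (t :: t' :: (ts.erase t).erase t') :=
      (List.perm_cons_erase ht).trans
        ((List.perm_cons_erase ((List.mem_erase_of_ne hne).2 ht')).cons t)
    have h1 : St Q lab pos φ ε (tface t :: tface t' :: out :: ((ts.erase t).erase t').map tface) := by
      refine hst.perm ?_
      have := (hp.map tface).symm
      simp only [List.map_cons] at this
      exact (((List.Perm.swap _ _ _).cons _).trans (List.Perm.swap _ _ _)).trans (this.cons out)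
    obtain ⟨⟨φ', ε', h2⟩, hsum⟩ := h1.cancel (hlab t ht) (hlab t' ht') hm k hε
    have hlen := hp.length_eq
    simp only [List.length_cons] at hlen
    obtain ⟨ts', φ'', ε'', h3, h4, h5, h6⟩ := ih _ (by omega) _ φ' ε' rfl h2
      (fun s hs => hlab s (hp.mem_iff.2 (by simp [hs])))
    refine ⟨ts', φ'', ε'', h3, h4, ?_, h6⟩
    rw [h5, (hp.map (chain pos)).sum_eq, List.map_cons, List.map_cons, List.sum_cons,
      List.sum_cons, ← add_assoc, hsum, zero_add]

/-- Cut the darts of a list one after the other. -/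
theorem cut_list (φ : Perm D) (l : List D) : ∀ (ε : Perm D) (u b : D), (∀ x, ε (ε x) = x) →
    DiscLike φ ε → ε u = u → Walk φ (φ u) l b →
    ∃ ε' : Perm D, (∀ x, ε' (ε' x) = x) ∧ DiscLike φ ε' ∧
      (∀ x, x ∈ l ∨ ε x ∈ l → ε' x = x) ∧ (∀ x, x ∉ l → ε x ∉ l → ε' x = ε x) := by
  induction l with
  | nil => exact fun ε u b h1 h2 _ _ => ⟨ε, h1, h2, by simp, by simp⟩
  | cons d l ih =>
    intro ε u b hε hD hu hw
    have c1 : (ε * swap d (ε d)) d = d := by rw [Perm.mul_apply, swap_apply_left, hε]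
    have c2 : (ε * swap d (ε d)) (ε d) = ε d := by rw [Perm.mul_apply, swap_apply_right]
    have hinv : ∀ x, (ε * swap d (ε d)) ((ε * swap d (ε d)) x) = x := by
      intro x
      by_cases h1 : x = d
      · rw [h1, c1, c1]
      by_cases h2 : x = ε d
      · rw [h2, c2, c2]
      rw [mul_swap_of_ne ε h1 h2, mul_swap_of_ne ε, hε]
      · intro e; exact h2 (by rw [← e, hε])
      · intro e; exact h1 (ε.injective e)
    have hD' : DiscLike φ (ε * swap d (ε d)) :=
      DiscLike.cut hε hD (Or.inl ⟨u, hu, 1, by rw [zpow_one, Perm.mul_apply, hu, hw.1]⟩)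
    obtain ⟨ε', k1, k2, k3, k4⟩ := ih _ d b hinv hD' c1 hw.2
    have fix : ∀ x, (ε * swap d (ε d)) x = x → ε' x = x := by
      intro x hx
      by_cases h1 : x ∈ l
      · exact k3 x (Or.inl h1)
      · rw [k4 x h1 (by rw [hx]; exact h1), hx]
    refine ⟨ε', k1, k2, fun x hx => ?_, fun x h1 h2 => ?_⟩
    · by_cases h1 : x = d
      · exact fix x (by rw [h1, c1])
      by_cases h2 : x = ε d
      · exact fix x (by rw [h2, c2])
      refine k3 x ?_
      rw [mul_swap_of_ne ε h1 h2]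
      rcases hx with hx | hx
      · exact Or.inl ((List.mem_cons.1 hx).resolve_left h1)
      · exact Or.inr ((List.mem_cons.1 hx).resolve_left (fun e => h2 (by rw [← e, hε])))
    · rw [List.mem_cons, not_or] at h1 h2
      have h3 : x ≠ ε d := fun e => h2.1 (by rw [e, hε])
      rw [k4 x h1.2 (by rw [mul_swap_of_ne ε h1.1 h3]; exact h2.2), mul_swap_of_ne ε h1.1 h3]

/-- Cut out the first face. -/
theorem St.cut_out {φ ε : Perm D} {out : List D} {fs : List (List D)}
    (h : St Q lab pos φ ε (out :: fs)) :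
    ∃ ε' : Perm D, (∀ x, ε' (ε' x) = x) ∧ DiscLike φ ε' ∧
      (∀ x, x ∈ out ∨ ε x ∈ out → ε' x = x) ∧ (∀ x, x ∉ out → ε x ∉ out → ε' x = ε x) := by
  have hiso : ∀ u v, ε u = u → Conn φ ε u v → v = u := by
    intro u v hu hc
    have := Conn.le (s := fun a b : D => a = u ↔ b = u)
      ⟨fun _ => Iff.rfl, fun h => h.symm, fun h h' => h.trans h'⟩
      (fun x => ⟨fun e => by rw [e, h.dead u hu],
        fun e => φ.injective (by rw [e, h.dead u hu])⟩)
      (fun x => ⟨fun e => by rw [e, hu], fun e => ε.injective (by rw [e, hu])⟩) hc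
    exact this.1 rfl
  have hD : DiscLike φ ε := ⟨le_antisymm h.gen (genus_nonneg φ ε), fun u v hu _ hc => by
    rw [hiso u v hu hc]⟩
  rcases out with _ | ⟨d, l⟩
  · exact ⟨ε, h.invol, hD, by simp, by simp⟩
  obtain ⟨a, -, hw⟩ := h.face (d :: l) (by simp)
  have hε := h.invol
  have hd : ε d ≠ d := (h.live d).2 (by simp)
  have c1 : (ε * swap d (ε d)) d = d := by rw [Perm.mul_apply, swap_apply_left, hε]
  have c2 : (ε * swap d (ε d)) (ε d) = ε d := by rw [Perm.mul_apply, swap_apply_right]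
  have hinv : ∀ x, (ε * swap d (ε d)) ((ε * swap d (ε d)) x) = x := by
    intro x
    by_cases h1 : x = d
    · rw [h1, c1, c1]
    by_cases h2 : x = ε d
    · rw [h2, c2, c2]
    rw [mul_swap_of_ne ε h1 h2, mul_swap_of_ne ε, hε]
    · intro e; exact h2 (by rw [← e, hε])
    · intro e; exact h1 (ε.injective e)
  have hD' : DiscLike φ (ε * swap d (ε d)) :=
    DiscLike.cut hε hD (Or.inr (fun u hu hc => hd (by rw [hiso u d hu hc, hu])))
  obtain ⟨ε', k1, k2, k3, k4⟩ := cut_list φ l _ d a hinv hD' c1 hw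
  have fix : ∀ x, (ε * swap d (ε d)) x = x → ε' x = x := by
    intro x hx
    by_cases h1 : x ∈ l
    · exact k3 x (Or.inl h1)
    · rw [k4 x h1 (by rw [hx]; exact h1), hx]
  refine ⟨ε', k1, k2, fun x hx => ?_, fun x h1 h2 => ?_⟩
  · by_cases h1 : x = d
    · exact fix x (by rw [h1, c1])
    by_cases h2 : x = ε d
    · exact fix x (by rw [h2, c2])
    refine k3 x ?_
    rw [mul_swap_of_ne ε h1 h2]
    rcases hx with hx | hx
    · exact Or.inl ((List.mem_cons.1 hx).resolve_left h1)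
    · exact Or.inr ((List.mem_cons.1 hx).resolve_left (fun e => h2 (by rw [← e, hε])))
  · rw [List.mem_cons, not_or] at h1 h2
    have h3 : x ≠ ε d := fun e => h2.1 (by rw [e, hε])
    rw [k4 x h1.2 (by rw [mul_swap_of_ne ε h1.1 h3]; exact h2.2), mul_swap_of_ne ε h1.1 h3]

end Reduce

end VK

end Crest.Agent.R177
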